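import Vale.Agent.P272.Lin

/-! P272 Frame (task; part of Core). Helper names start with `frame_`.
Plan. `core_step` collects `stepW`, `stepX1..3`, `stepY`, `lip_est` (with `d = t^24 / 2`), `J_up`, `J_cen`, `SW.cen` with `sum_pt_sq`; `C` is a large multiple of the exponent of `stepW`, above all constants. `core`: the game with `St = ℝ × (ℂ × E n → X)`, `κ = Fin n × Fin 4`, `T σ η = Bs σ.2 (closedBall 0 σ.1) ∧ σ.2 (0, 0) = x ∧ ∀ z, ‖z‖ = σ.1 → ‖Gr σ.2 z - 1‖ ≤ η`, `a σ = ‖dv j (ctr σ.2) 0‖^2`, `ν = n`, initial tube `(z, u) ↦ (e j).symm (e j x + S u)` with `star S * Γ * S = 1` (`exists_frame`: inverse of `CFC.sqrt`, or an orthonormal basis of eigenvectors). -/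

open Metric Set Filter Topology Complex

noncomputable section

namespace Vale.Agent.P272

variable {n : ℕ} {X : Type} [TopologicalSpace X] {A : Atl n X}

theorem exists_frame {Γ : L n} (sa : IsSelfAdjoint Γ) {C : ℝ} (lo : ∀ w, ‖w‖ ^ 2 ≤ C * qf Γ w)
    (hC : 1 ≤ C) : ∃ S : L n, IsUnit S ∧ star S * Γ * S = 1 := by
  have hC0 : 0 < C := lt_of_lt_of_le one_pos hC
  have h0 : 0 ≤ Γ := by
    rw [ContinuousLinearMap.nonneg_iff_isPositive, ContinuousLinearMap.isPositive_def']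
    refine ⟨sa, fun w => ?_⟩
    have h1 : 0 ≤ qf Γ w := nonneg_of_mul_nonneg_right ((sq_nonneg _).trans (lo w)) hC0
    rw [ContinuousLinearMap.reApplyInnerSelf_apply, lin_sym sa]
    exact h1
  have hu : IsUnit Γ := by
    refine (unit_of_lo (c := C) hC0.le fun w => ?_).1
    rcases (norm_nonneg w).eq_or_lt with e | e
    · rw [← e]
      positivity
    · have h1 : qf Γ w ≤ ‖w‖ * ‖Γ w‖ := (Complex.re_le_norm _).trans (norm_inner_le_norm _ _)
      have h2 := (lo w).trans (mul_le_mul_of_nonneg_left h1 hC0.le)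
      refine le_of_mul_le_mul_left ?_ e
      linarith
  set R := CFC.sqrt Γ with hR
  have h1 : R * R = Γ := CFC.sqrt_mul_sqrt_self Γ h0
  have h2 : IsSelfAdjoint R := (CFC.sqrt_nonneg Γ).isSelfAdjoint
  have h3 : IsUnit R := by
    rw [← h1] at hu
    exact ((Commute.refl R).isUnit_mul_iff.1 hu).1
  obtain ⟨u, hu'⟩ := h3
  have h4 : star ((u⁻¹ : (L n)ˣ) : L n) * R = 1 := by
    rw [← h2.star_eq, ← star_mul, ← hu', u.mul_inv, star_one]
  refine ⟨(u⁻¹ : (L n)ˣ), Units.isUnit _, ?_⟩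
  rw [← h1, ← mul_assoc, h4, one_mul, ← hu', u.mul_inv]

end Vale.Agent.P272
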