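import Vale.Agent.P272.Game1

/-! P272 Game2 (task). Helper names start with `game2_`.
Plan. `K = 2 + 2 |C₁|`, `C` from `step (K + 2)`. Epoch `k`: `Λ = 2^(k₀ + k)`, `t = (2Λ)^(-C)` (so `step` applies with `Λ` and, for the bound `B = (2Λ)^C` of `J`, with `2Λ`), `p = P (k₀ + k)` with a large constant `P` (`hcard`, `hB` of `epoch`; `p ≤ Λ` for `k₀` large), `τ = 1 / (8 C p)`, `N = ⌊min τ (1/4 - s) / t^16⌋₊`. Invariant at the start of epoch `k` (time `s`): `T (t^24)`, `rad ≥ 3/4 + 2 / Λ`, `X ≤ Λ^2 / 4`, `Φ ≥ s β / 2 - (2 / Λ₀ - 2 / Λ)`. If `τ ≤ 1/4 - s` the epoch is full: `N t^16 ≥ τ / 2`, `0 < N`, `t^25 ≤ (t / 2^C)^24`. Full epochs cannot go on forever (`Real.tendsto_sum_range_one_div_nat_succ_atTop`). In the last epoch the remaining time is `< t^16`, so `Φ ≤ H + β t^16 (B + 1) ≤ H + β / 100`, `Φ ≥ (1/4 - t^16) β / 2 - 2 / Λ₀`, and `2 / Λ₀ ≤ β / 100`. -/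

open Metric Set Filter Topology Complex

noncomputable section

namespace Vale.Agent.P272

variable {n : ℕ}

/-- The invariant at the start of an epoch. -/
def game2_inv {St κ : Type} [Fintype κ] (G : Game St κ) (δ Λ t s : ℝ) (σ : St) : Prop :=
  0 ≤ s ∧ s ≤ 1 / 4 ∧ G.T σ (t ^ 24) ∧ 3 / 4 + 2 / Λ ≤ G.rad σ ∧ G.rad σ ≤ 1 ∧
    (∀ z, ‖z‖ ≤ G.rad σ → G.X σ z ≤ Λ ^ 2 / 4) ∧
    s * G.β / 2 - (δ - 2 / Λ) ≤ G.a σ + G.β * (1 / 4 - s) / G.ν * (G.J σ + 2 * s)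

/-- The one step property. -/
def game2_st {St κ : Type} [Fintype κ] (G : Game St κ) (K : ℝ) (C : ℕ) : Prop :=
  ∀ (Λ t : ℝ) (σ : St), (C : ℝ) ≤ Λ → 0 < t →
    t * Λ ^ C ≤ 1 → 3 / 4 ≤ G.rad σ → G.rad σ ≤ 1 → G.T σ (t ^ 24) →
    (∀ z, ‖z‖ ≤ G.rad σ → G.X σ z ≤ Λ ^ 2) → G.J σ ≤ Λ ^ C ∧
    ∃ (σ' : κ → St) (r : ℝ), G.rad σ - 4 * t ^ 24 ≤ r ∧ r ≤ G.rad σ ∧
      (∀ k, G.rad (σ' k) = r ∧ G.T (σ' k) (t ^ 25) ∧
        (∀ z, ‖z‖ ≤ r → G.X (σ' k) z ≤ (2 * Λ) ^ 2) ∧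
        ∀ z w, ‖z‖ ≤ r → ‖w‖ ≤ r → G.X (σ' k) w ≤ G.X (σ' k) z + ‖z - w‖ / t ^ 25) ∧
      Fintype.card κ * (G.a σ + t ^ 16 * G.β * (1 + G.J σ / G.ν)) ≤ ∑ k, G.a (σ' k) ∧
      Fintype.card κ * (G.J σ - 2 * t ^ 16) ≤ ∑ k, G.J (σ' k) ∧
      ∀ (p : ℝ) (z : ℂ), 1 ≤ p → p ≤ Λ → ‖z‖ ≤ r → G.rad σ - K / Λ ≤ ‖z‖ →
        ∑ k, Real.exp (p * G.X (σ' k) z / Λ ^ 2) ≤
          Fintype.card κ * (Real.exp (p * G.X σ z / Λ ^ 2) * (1 + C * p ^ 2 * t ^ 16))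

theorem game2_t {C : ℕ} (hC : 1 ≤ C) {Λ t : ℝ} (hΛ : 100 ≤ Λ) (ht : 0 < t)
    (htΛ : t * (2 * Λ) ^ C = 1) : t * Λ ≤ 1 ∧ t * Λ ^ C ≤ 1 ∧ t ^ 16 ≤ 1 / 200 ∧
      t ^ 16 * ((2 * Λ) ^ C + 1) ≤ 1 / 100 ∧ Λ * Λ * t ^ 16 ≤ 1 := by
  have hΛ0 : 0 < Λ := by linarith
  have hpow : 2 * Λ ≤ (2 * Λ) ^ C := le_self_pow₀ (by linarith) (by omega)
  have ht2 : t * (2 * Λ) ≤ 1 := by
    rw [← htΛ]
    exact mul_le_mul_of_nonneg_left hpow ht.le
  have ht3 : t ≤ 1 / 200 := by nlinarith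
  have ht1 : t ≤ 1 := by linarith
  have ht4 : t * Λ ≤ 1 := by nlinarith
  have h2 : t ^ 15 ≤ t := pow_le_of_le_one ht.le ht1 (by norm_num)
  have h3 : t ^ 16 ≤ t := pow_le_of_le_one ht.le ht1 (by norm_num)
  refine ⟨ht4, ?_, by linarith, ?_, ?_⟩
  · rw [← htΛ]
    exact mul_le_mul_of_nonneg_left (pow_le_pow_left₀ hΛ0.le (by linarith) C) ht.le
  · have h1 : t ^ 16 * ((2 * Λ) ^ C + 1) = t ^ 15 * (t * (2 * Λ) ^ C) + t ^ 16 := by ring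
    rw [h1, htΛ]
    linarith
  · have hu2 : t ^ 16 ≤ t ^ 2 := pow_le_pow_of_le_one ht.le ht1 (by norm_num)
    calc Λ * Λ * t ^ 16 ≤ Λ * Λ * t ^ 2 := mul_le_mul_of_nonneg_left hu2 (by positivity)
      _ = (t * Λ) ^ 2 := by ring
      _ ≤ 1 := pow_le_one₀ (by positivity) ht4

theorem game2_N {m u : ℝ} (hm : 0 ≤ m) (hu : 0 < u) : ∃ N : ℕ, N * u ≤ m ∧ m < N * u + u := by
  refine ⟨⌊m / u⌋₊, ?_, ?_⟩
  · rw [← le_div_iff₀ hu]
    exact Nat.floor_le (div_nonneg hm hu.le)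
  · have h1 := Nat.lt_floor_add_one (m / u)
    rw [div_lt_iff₀ hu] at h1
    linarith

theorem game2_last {β ν H a J s' u B : ℝ} (hβ : 0 < β) (hν : 1 ≤ ν) (hB : 0 ≤ B) (hu : 0 < u)
    (hu1 : u ≤ 1 / 200) (hu2 : u * (B + 1) ≤ 1 / 100) (ha : a ≤ H) (hJ : J ≤ B)
    (h1 : s' ≤ 1 / 4) (h2 : 1 / 4 - u ≤ s')
    (h3 : s' * β / 2 - β / 100 ≤ a + β * (1 / 4 - s') / ν * (J + 2 * s')) : β ≤ 16 * H := by
  have c0 : 0 ≤ β * (1 / 4 - s') / ν := div_nonneg (mul_nonneg hβ.le (by linarith)) (by linarith)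
  have c1 : β * (1 / 4 - s') / ν ≤ β * u :=
    (div_le_self (mul_nonneg hβ.le (by linarith)) hν).trans
      (mul_le_mul_of_nonneg_left (by linarith) hβ.le)
  have c2 : β * (1 / 4 - s') / ν * (J + 2 * s') ≤ β * u * (B + 1) :=
    (mul_le_mul_of_nonneg_left (by linarith) c0).trans
      (mul_le_mul_of_nonneg_right c1 (by positivity))
  have c4 : β * u * (B + 1) ≤ β * (1 / 100) := by
    rw [mul_assoc]
    exact mul_le_mul_of_nonneg_left hu2 hβ.le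
  have c6 : (1 / 4 - 1 / 200) * β ≤ s' * β := mul_le_mul_of_nonneg_right (by linarith) hβ.le
  linarith

theorem game2_ep {St κ : Type} [Fintype κ] [Nonempty κ] (G : Game St κ) {K : ℝ} (hK : 2 ≤ K)
    (hK1 : 4 * G.C₁ ≤ K ^ 2) {C : ℕ} (hC : 1 ≤ C) (st : game2_st G (K + 2) C)
    {δ Λ t t' p s : ℝ} (hδ : δ ≤ 1) (hδ' : δ ≤ G.β / 100) (hΛ : 100 ≤ Λ) (hCΛ : 16 * C ≤ Λ)
    (ht : 0 < t) (htΛ : t * (2 * Λ) ^ C = 1) (ht' : t ^ 25 ≤ t' ^ 24) (hp : 1 ≤ p) (hpΛ : p ≤ Λ)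
    (hcard : (203 / t ^ 25) ^ 2 * Λ ≤ Real.exp (p / 8))
    (hB : G.H + G.β * ((2 * Λ) ^ C + 1) + 2 < Real.exp (p / 8)) {σ₀ : St}
    (h : game2_inv G δ Λ t s σ₀) : G.β ≤ 16 * G.H ∨
      ∃ s' σ, s + 1 / (16 * C * p) ≤ s' ∧ game2_inv G δ (2 * Λ) t' s' σ := by
  obtain ⟨s0, s1, hT, hr, hr1, hX, hΦ⟩ := h
  have hβ := G.hβ
  have hν := G.hν
  have hC' : (1 : ℝ) ≤ C := by exact_mod_cast hC
  have hΛ0 : 0 < Λ := by linarith
  obtain ⟨t1, hΛC, t3, t4, t5⟩ := game2_t hC hΛ ht htΛ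
  have hu : 0 < t ^ 16 := pow_pos ht 16
  have hJ : ∀ σ, G.T σ (t ^ 24) → 3 / 4 ≤ G.rad σ → G.rad σ ≤ 1 →
      (∀ z, ‖z‖ ≤ G.rad σ → G.X σ z ≤ (2 * Λ) ^ 2) → G.J σ ≤ (2 * Λ) ^ C :=
    fun σ a1 a2 a3 a4 => (st (2 * Λ) t σ (by linarith) ht htΛ.le a2 a3 a1 a4).1
  have hCp : 0 < 8 * (C : ℝ) * p := by positivity
  obtain ⟨τ, hτ⟩ : ∃ τ : ℝ, τ = 1 / (8 * C * p) := ⟨_, rfl⟩
  have hτ0 : 0 < τ := by rw [hτ]; positivity
  have hτ1 : 8 * C * p * τ = 1 := by rw [hτ]; field_simp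
  have hτ2 : 1 / (16 * C * p) = τ / 2 := by rw [hτ]; field_simp; norm_num
  have hsmall : t ^ 16 ≤ τ / 2 := by
    have h1 : 16 * C * p ≤ Λ * Λ := mul_le_mul hCΛ hpΛ (by linarith) hΛ0.le
    rw [← hτ2, le_div_iff₀ (by positivity), mul_comm]
    exact (mul_le_mul_of_nonneg_right h1 hu.le).trans t5
  obtain ⟨m, hm⟩ : ∃ m : ℝ, m = min τ (1 / 4 - s) := ⟨_, rfl⟩
  have hm0 : 0 ≤ m := by rw [hm]; exact le_min hτ0.le (by linarith)
  have hm1 : m ≤ τ := by rw [hm]; exact min_le_left _ _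
  have hm2 : m ≤ 1 / 4 - s := by rw [hm]; exact min_le_right _ _
  obtain ⟨N, hN1, hN2⟩ := game2_N hm0 hu
  have hN0 : 0 ≤ N * t ^ 16 := by positivity
  have e1 : 2 / Λ = 1 / Λ + 1 / Λ := by ring
  have e2 : 2 / (2 * Λ) = 1 / Λ := by field_simp
  have e3 : 0 < 1 / Λ := by positivity
  have e4 : (2 * Λ) ^ 2 / 4 = Λ ^ 2 := by ring
  have e5 : Λ ^ 2 ≤ (2 * Λ) ^ 2 := pow_le_pow_left₀ hΛ0.le (by linarith) 2
  have hsβ : 0 ≤ s * G.β := mul_nonneg s0 hβ.le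
  obtain ⟨σ, a1, a2, a3, a4, a5, a6⟩ := G.epoch hK hK1 (C := C) (Λ := Λ) (t := t) (p := p) (s := s)
    (N := N) (by linarith) ht t1 hp hpΛ s0 (by linarith)
    ((mul_le_mul_of_nonneg_left (hN1.trans hm1) hCp.le).trans hτ1.le) hcard
    (B := (2 * Λ) ^ C) (by positivity) hB hJ
    (fun σ b1 b2 b3 b4 => by
      obtain ⟨-, σ', r, c1, c2, c3, c4, c5, c6⟩ := st Λ t σ (by linarith) ht hΛC b1 b2 b3 b4
      exact ⟨σ', r, c1, c2, c3, c4, c5, fun z d1 d2 => c6 p z hp hpΛ d1 d2⟩)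
    hT (by linarith) hr1 hX (by linarith)
  have hNpos : τ ≤ m → 0 < N := by
    intro hmτ
    refine Nat.pos_of_ne_zero fun h0 => ?_
    rw [h0] at hN2
    simp only [Nat.cast_zero, zero_mul, zero_add] at hN2
    linarith
  generalize (N : ℝ) * t ^ 16 = w at *
  have c7 : (s + w) * G.β = s * G.β + w * G.β := by ring
  generalize G.a σ₀ + G.β * (1 / 4 - s) / G.ν * (G.J σ₀ + 2 * s) = Φ at *
  rcases le_total τ (1 / 4 - s) with hfull | hlast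
  · right
    have hmτ : m = τ := by rw [hm]; exact min_eq_left hfull
    refine ⟨s + w, σ, by linarith, by linarith, by linarith,
      G.mono σ _ _ ht' (a2 (hNpos hmτ.ge)), by linarith, a4, fun z hz => ?_, ?_⟩
    · rw [e4]
      exact a5 z hz
    · refine le_trans ?_ a6
      linarith
  · left
    have hms : m = 1 / 4 - s := by rw [hm]; exact min_eq_right hlast
    have hrad : 3 / 4 ≤ G.rad σ := by linarith
    refine game2_last (s' := s + w) hβ hν (by positivity) hu t3 t4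
      (G.ha σ _ a1 (by linarith)).2
      (hJ σ a1 hrad a4 fun z hz => (a5 z hz).trans e5) (by linarith) (by linarith)
      (le_trans ?_ a6)
    linarith

theorem game2_exp {m : ℕ} (hm : 0 < m) : (2 : ℝ) ^ m < Real.exp m := by
  rw [← Real.exp_one_pow]
  refine pow_lt_pow_left₀ ?_ (by norm_num) hm.ne'
  have h := Real.add_one_lt_exp (x := 1) one_ne_zero
  linarith

theorem game2_large (P R : ℝ) (hP : 0 < P) :
    ∃ k : ℕ, 24 ≤ k ∧ ∀ j : ℕ, k ≤ j → P * j ≤ 2 ^ j ∧ R ≤ 2 ^ j := by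
  have h1 := (tendsto_pow_const_div_const_pow_of_one_lt 1 (r := 2) one_lt_two).eventually
    (gt_mem_nhds (show (0 : ℝ) < 1 / P by positivity))
  have h2 := (tendsto_pow_atTop_atTop_of_one_lt (r := (2 : ℝ)) one_lt_two).eventually_ge_atTop R
  obtain ⟨k, hk⟩ := eventually_atTop.1 (h1.and h2)
  refine ⟨max 24 k, le_max_left _ _, fun j hj => ?_⟩
  obtain ⟨h3, h4⟩ := hk j ((le_max_right _ _).trans hj)
  refine ⟨?_, h4⟩
  rw [pow_one, div_lt_div_iff₀ (by positivity) hP] at h3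
  linarith

theorem game2_num {C Q j : ℕ} (hQ : Q = 17 + 100 * C) (hj : 24 ≤ j) {H β : ℝ} (hβ : 0 < β)
    (hH : |H| + 2 * β + 2 ≤ 2 ^ j) :
    (((2 * 2 ^ j : ℝ) ^ C)⁻¹) ^ 25 ≤ (((2 * 2 ^ (j + 1) : ℝ) ^ C)⁻¹) ^ 24 ∧
    (203 / (((2 * 2 ^ j : ℝ) ^ C)⁻¹) ^ 25) ^ 2 * 2 ^ j ≤ Real.exp (8 * Q * j / 8) ∧
    H + β * ((2 * 2 ^ j) ^ C + 1) + 2 < Real.exp (8 * Q * j / 8) := by
  have e0 : ((2 : ℝ) * 2 ^ j) ^ C = 2 ^ ((j + 1) * C) := by rw [pow_mul, pow_succ']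
  have e1 : ((2 : ℝ) * 2 ^ (j + 1)) ^ C = 2 ^ ((j + 2) * C) := by
    rw [pow_mul, ← pow_succ']
  have e2 : 8 * (Q : ℝ) * j / 8 = ((Q * j : ℕ) : ℝ) := by push_cast; ring
  have hex : (2 : ℝ) ^ (Q * j) < Real.exp (8 * Q * j / 8) := by
    rw [e2]
    exact game2_exp (Nat.mul_pos (by omega) (by omega))
  have h24 : 24 * C ≤ j * C := Nat.mul_le_mul_right _ hj
  have n1 : (j + 2) * C * 24 ≤ (j + 1) * C * 25 := by
    have : (j + 2) * C * 24 = 24 * (j * C) + 48 * C := by ring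
    have : (j + 1) * C * 25 = 25 * (j * C) + 25 * C := by ring
    omega
  have n0 : Q * j = 17 * j + 100 * (j * C) := by rw [hQ]; ring
  have n2 : 16 + (j + 1) * C * 25 * 2 + j ≤ Q * j := by
    have : (j + 1) * C * 25 * 2 = 50 * (j * C) + 50 * C := by ring
    omega
  have n3 : j + (j + 1) * C ≤ Q * j := by
    have : (j + 1) * C = j * C + C := by ring
    omega
  refine ⟨?_, le_trans ?_ hex.le, lt_of_le_of_lt ?_ hex⟩
  · rw [e0, e1, inv_pow, inv_pow, ← pow_mul, ← pow_mul]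
    exact inv_anti₀ (by positivity) (pow_le_pow_right₀ one_le_two n1)
  · rw [e0, inv_pow, div_inv_eq_mul, ← pow_mul, mul_pow, ← pow_mul]
    refine le_trans ?_ (pow_le_pow_right₀ one_le_two n2)
    rw [pow_add, pow_add]
    exact mul_le_mul_of_nonneg_right
      (mul_le_mul_of_nonneg_right (by norm_num) (by positivity)) (by positivity)
  · rw [e0]
    refine le_trans ?_ (pow_le_pow_right₀ one_le_two n3)
    rw [pow_add]
    have h1 : (1 : ℝ) ≤ 2 ^ ((j + 1) * C) := one_le_pow₀ one_le_two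
    refine le_trans ?_ (mul_le_mul_of_nonneg_right hH (by positivity))
    generalize (2 : ℝ) ^ ((j + 1) * C) = B at *
    nlinarith [le_abs_self H, abs_nonneg H,
      mul_le_mul_of_nonneg_left h1 (abs_nonneg H), mul_le_mul_of_nonneg_left h1 hβ.le]

theorem Game.bound {St κ : Type} [Fintype κ] [Nonempty κ] (G : Game St κ) : G.β ≤ 16 * G.H := by
  by_contra hcon
  have hβ := G.hβ
  obtain ⟨K, hKd⟩ : ∃ K : ℝ, K = 2 + 2 * |G.C₁| := ⟨_, rfl⟩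
  have hK : 2 ≤ K := by linarith [abs_nonneg G.C₁]
  have hK1 : 4 * G.C₁ ≤ K ^ 2 := by nlinarith [abs_nonneg G.C₁, le_abs_self G.C₁]
  obtain ⟨C, hC, st⟩ := G.step (K + 2) (by linarith)
  have hC' : (1 : ℝ) ≤ C := by exact_mod_cast hC
  obtain ⟨Q, hQ⟩ : ∃ Q : ℕ, Q = 17 + 100 * C := ⟨_, rfl⟩
  have hQ0 : (1 : ℝ) ≤ Q := by exact_mod_cast (by omega : 1 ≤ Q)
  obtain ⟨k, hk, hl⟩ := game2_large (8 * Q) (100 + 16 * C + (|G.H| + 2 * G.β + 2) + 200 / G.β)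
    (by positivity)
  have hk0 : (1 : ℝ) ≤ k := by exact_mod_cast (by omega : 1 ≤ k)
  have p1 : 0 ≤ |G.H| + 2 * G.β + 2 := by positivity
  have p2 : 0 < 200 / G.β := by positivity
  have hδ : 2 / (2 : ℝ) ^ k ≤ 1 := by
    rw [div_le_one (by positivity)]
    linarith [(hl k le_rfl).2]
  have hδ' : 2 / (2 : ℝ) ^ k ≤ G.β / 100 := by
    have h1 : 200 / G.β ≤ 2 ^ k := by linarith [(hl k le_rfl).2]
    rw [div_le_iff₀ hβ] at h1
    rw [div_le_div_iff₀ (by positivity) (by norm_num)]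
    linarith
  have main : ∀ m : ℕ, ∃ s σ, 1 / (128 * C * Q * k) * ∑ i ∈ Finset.range m, (1 / (i + 1) : ℝ) ≤ s ∧
      game2_inv G (2 / 2 ^ k) (2 ^ (k + m)) (((2 * 2 ^ (k + m)) ^ C)⁻¹) s σ := by
    intro m
    induction m with
    | zero =>
      obtain ⟨σ, a1, a2, a3, a4⟩ := G.init
      refine ⟨0, σ, by simp, le_rfl, by norm_num, G.mono σ _ _ (by positivity) a1, ?_, a2.le,
        fun z _ => ?_, ?_⟩
      · have h1 : 2 / (2 : ℝ) ^ k ≤ 1 / 4 := by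
          rw [div_le_div_iff₀ (by positivity) (by norm_num)]
          linarith [(hl k le_rfl).2]
        rw [a2, add_zero]
        linarith
      · rw [a4]
        positivity
      · have h1 := (G.ha σ 0 a1 (by rw [a2]; norm_num)).1
        rw [a3, add_zero]
        simpa using h1
    | succ m ih =>
      obtain ⟨s, σ, hs, hinv⟩ := ih
      obtain ⟨j, hj⟩ : ∃ j : ℕ, j = k + m := ⟨_, rfl⟩
      rw [← hj] at hinv
      obtain ⟨l1, l2⟩ := hl j (by omega)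
      have hj1 : (1 : ℝ) ≤ j := by exact_mod_cast (by omega : 1 ≤ j)
      obtain ⟨n1, n2, n3⟩ := game2_num (H := G.H) hQ (j := j) (by omega) hβ (by linarith)
      have n4 : (1 : ℝ) ≤ 8 * Q * j := one_le_mul_of_one_le_of_one_le (by linarith) hj1
      rcases game2_ep G hK hK1 hC st (Λ := 2 ^ j) (t := ((2 * 2 ^ j) ^ C)⁻¹)
        (t' := ((2 * 2 ^ (j + 1)) ^ C)⁻¹) (p := 8 * Q * j) hδ hδ' (by linarith) (by linarith)
        (by positivity) (inv_mul_cancel₀ (by positivity)) n1 n4 l1 n2 n3 hinv with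
        h | ⟨s', σ', h1, h2⟩
      · exact absurd h hcon
      · refine ⟨s', σ', ?_, ?_⟩
        · rw [Finset.sum_range_succ, mul_add]
          refine le_trans (add_le_add hs ?_) h1
          rw [div_mul_div_comm, one_mul]
          refine one_div_le_one_div_of_le (by positivity) ?_
          have h3 : (j : ℝ) ≤ k * (m + 1) := by
            have h5 := mul_le_mul_of_nonneg_right hk0 (Nat.cast_nonneg m : (0 : ℝ) ≤ m)
            rw [hj]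
            push_cast
            linarith
          have h4 := mul_le_mul_of_nonneg_left h3 (show (0 : ℝ) ≤ 128 * C * Q by positivity)
          linarith
        · rw [← add_assoc, ← hj, pow_succ' 2 j]
          rwa [pow_succ' 2 j] at h2
  have hdiv := (Real.tendsto_sum_range_one_div_nat_succ_atTop.const_mul_atTop
    (show (0 : ℝ) < 1 / (128 * C * Q * k) by positivity)).eventually_gt_atTop (1 / 4)
  obtain ⟨m, hm⟩ := hdiv.exists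
  obtain ⟨s, σ, hs, hinv⟩ := main m
  linarith [hinv.2.1]

end Vale.Agent.P272
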