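import Vale.Agent.P272.CoreS
import Vale.Agent.P272.Frame
import Vale.Agent.P272.Game2

/-! P272 Core (task). Helper names start with `core_`.
Plan. `core_step` collects `stepW`, `stepX1..3`, `stepY`, `lip_est` (with `d = t^24 / 2`), `J_up`, `J_cen`, `SW.cen` with `sum_pt_sq`; `C` is a large multiple of the exponent of `stepW`, above all constants. `core`: the game with `St = ℝ × (ℂ × E n → X)`, `κ = Fin n × Fin 4`, `T σ η = Bs σ.2 (closedBall 0 σ.1) ∧ σ.2 (0, 0) = x ∧ ∀ z, ‖z‖ = σ.1 → ‖Gr σ.2 z - 1‖ ≤ η`, `a σ = ‖dv j (ctr σ.2) 0‖^2`, `ν = n`, initial tube `(z, u) ↦ (e j).symm (e j x + S u)` with `star S * Γ * S = 1` (`exists_frame`: inverse of `CFC.sqrt`, or an orthonormal basis of eigenvectors). -/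

open Metric Set Filter Topology Complex

noncomputable section

namespace Vale.Agent.P272

variable {n : ℕ} {X : Type} [TopologicalSpace X] {A : Atl n X}

variable [T2Space X] {g : Met A}

omit [T2Space X] in
theorem core_init (v : Vol g) {j : Fin A.N} {x : X} (hx : A.In j 1 x) :
    ∃ F : ℂ × E n → X, A.Bs F (closedBall 0 1) ∧ F (0, 0) = x ∧ (∀ z, g.Gr F z = 1) ∧
      v.Jf F 1 = 0 ∧ ∀ z, g.sp (ctr F) z = 0 := by
  have h4 : ‖A.e j x‖ ≤ 4 := hx.2.trans (by norm_num)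
  obtain ⟨S, hS, hΓ⟩ := exists_frame (g.sa j _ h4) (fun w => g.lo j _ w h4) g.one
  set F : ℂ × E n → X := fun p => (A.e j).symm (A.e j x + S p.2) with hF
  have h0 : ∀ z, F (z, 0) = x := fun z => by
    simp only [hF, map_zero, add_zero]
    exact (A.e j).left_inv hx.1
  have hev : ∀ᶠ u in 𝓝 (0 : E n), A.e j x + S u ∈ (A.e j).target := by
    have hc : Continuous fun u : E n => A.e j x + S u := by fun_prop
    refine hc.continuousAt.eventually_mem ((A.e j).open_target.mem_nhds ?_)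
    simpa using (A.e j).map_source hx.1
  have hhol : ∀ z, A.Hol F (z, 0) := fun z =>
    ((continuous_snd.tendsto' (z, (0 : E n)) 0 rfl).eventually hev).mono fun p hp =>
      Atl.holAt_symm (φ := fun q : ℂ × E n => A.e j x + S q.2) hp (by fun_prop)
  have hfr : ∀ z, A.fr j F z = S := fun z => by
    have h1 : (fun u => A.e j (F (z, u))) =ᶠ[𝓝 0] fun u => A.e j x + S u :=
      hev.mono fun u hu => (A.e j).right_inv hu
    rw [Atl.fr, h1.fderiv_eq, fderiv_const_add, ContinuousLinearMap.fderiv]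
  have hin : ∀ z, A.In j 4 (F (z, 0)) := fun z => by
    rw [h0]
    exact ⟨hx.1, h4⟩
  have hbs : ∀ T, A.Bs F T := fun T z _ =>
    ⟨hhol z, fun k hk => Atl.unit_chg (hhol z).holAt hk (hin z).1 (by rw [hfr]; exact hS)⟩
  refine ⟨F, hbs _, h0 0, fun z => ?_, ?_, fun z => ?_⟩
  · rw [g.Gr_eq (hhol z).holAt (hin z), hfr, h0, hΓ]
  · have h1 : v.jf F = fun _ => v.ℓ j (A.e j x) + Real.log (‖S.det‖ ^ 2) := funext fun z => by
      rw [v.jf_eq (hbs univ) (mem_univ z) (hin z), hfr, h0]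
    rw [Vol.Jf, h1, Real.circleAverage_const, sub_self]
  · have h1 : ctr F = fun _ => x := funext h0
    have h2 : ∀ k, A.dv k (fun _ => x) z = 0 := fun k => deriv_const z (A.e k x)
    rw [h1, Met.sp, h2]
    simp [qf]

/-- The game. -/
def core_game (hn : 0 < n) {C₁ : ℝ} (hB : g.Br C₁) (v : Vol g) {H : ℝ} {j : Fin A.N} {x : X}
    (hx : A.In j 1 x) (hH : ∀ f : ℂ → X, (∀ w ∈ ball (0 : ℂ) (1 / 2), A.HolAt f w) → f 0 = x →
      ‖A.dv j f 0‖ ^ 2 ≤ H) : Game (ℝ × (ℂ × E n → X)) (Fin n × Fin 4) where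
  rad σ := σ.1
  a σ := ‖A.dv j (ctr σ.2) 0‖ ^ 2
  J σ := v.Jf σ.2 σ.1
  X σ z := g.sp (ctr σ.2) z
  T σ η := A.Bs σ.2 (closedBall 0 σ.1) ∧ σ.2 (0, 0) = x ∧ ∀ z, ‖z‖ = σ.1 → ‖g.Gr σ.2 z - 1‖ ≤ η
  β := cn n * Real.exp (-v.ℓ j (A.e j x) / n)
  ν := n
  H := H
  C₁ := C₁
  hβ := by
    unfold cn
    positivity
  hν := by exact_mod_cast hn
  mono σ η η' h hT := ⟨hT.1, hT.2.1, fun z hz => (hT.2.2 z hz).trans h⟩
  ha σ η hT hr := ⟨sq_nonneg _, hH _ (fun w hw => (hT.1 w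
    (ball_subset_closedBall.trans (closedBall_subset_closedBall hr) hw)).1.ctr.holAt) hT.2.1⟩
  hX σ η z hT hz := hB.2 _ z _ (sub_pos.2 hz) fun w hw => by
    refine (hT.1 w ?_).1.ctr.holAt
    rw [mem_ball, dist_eq_norm] at hw
    rw [mem_closedBall_zero_iff]
    linarith [norm_sub_norm_le w z]
  init := by
    obtain ⟨F, h1, h2, h3, h4, h5⟩ := core_init v hx
    exact ⟨(1, F), ⟨h1, h2, fun z _ => by simp [h3]⟩, rfl, h4, h5⟩
  step K hK := by
    obtain ⟨C, hC, hs⟩ := core_step hn hB v hK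
    refine ⟨C, by omega, fun Λ t σ hΛ ht htΛ hr hr1 hT hsp => ?_⟩
    have h2 : (2 : ℝ) ≤ Λ := le_trans (by exact_mod_cast hC) hΛ
    have h3 : Λ ≤ Λ ^ C := le_self_pow₀ (by linarith) (by omega)
    have h4 : t ≤ 1 / 2 := by nlinarith
    have h5 : t ^ 24 ≤ t := pow_le_of_le_one ht.le (by linarith) (by norm_num)
    obtain ⟨e1, F', r', e2, e3, e4, e5, e6, e7⟩ := hs σ.2 σ.1 Λ t j hΛ ht htΛ hr
      ⟨by linarith, hr1, by linarith, by positivity, by linarith, hT.1, hsp, hT.2.2⟩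
      (by rw [hT.2.1]; exact hx)
    have hc : (Fintype.card (Fin n × Fin 4) : ℝ) = 4 * n := by
      simp [mul_comm]
    rw [hT.2.1] at e4 e5
    rw [hc]
    exact ⟨e1, fun k => (r', F' k), r', e2, e3, fun k => ⟨rfl,
      ⟨(e4 k).1, (e4 k).2.1, (e4 k).2.2.1⟩, (e4 k).2.2.2⟩, e5, e6, e7⟩

theorem core (hn : 0 < n) {C₁ : ℝ} (hB : g.Br C₁) (v : Vol g) {H : ℝ} {j : Fin A.N} {x : X}
    (hx : A.In j 1 x) (hH : ∀ f : ℂ → X, (∀ w ∈ ball (0 : ℂ) (1 / 2), A.HolAt f w) → f 0 = x →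
      ‖A.dv j f 0‖ ^ 2 ≤ H) : cn n * Real.exp (-v.ℓ j (A.e j x) / n) ≤ 16 * H := by
  have : Nonempty (Fin n) := ⟨⟨0, hn⟩⟩
  exact (core_game hn hB v hx hH).bound

end Vale.Agent.P272
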