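import Vale.Agent.P272.AtlB

/-! P272 AtlC (task). Helper names start with `atlc_`.
Plan. `taylor3`: apply `taylor2` to `fderiv ℝ u` and the mean value inequality to `h ↦ u (y + h) - u y - D₁ h - D₂ h h / 2` (its derivative uses the symmetry of `D₂`, `ContDiffAt.isSymmSndFDerivAt`), or `taylor_mean_remainder_lagrange` on the segment. `bd`: `ℓ` is bounded, `log ‖det Γ‖` is bounded below by `ld` with `y' = 0`. `levi_aff`: chain rule twice near `y`. -/

open Metric Set Filter Topology Complex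

noncomputable section

namespace Vale.Agent.P272

variable {n : ℕ} {X : Type} [TopologicalSpace X] {A : Atl n X}

open scoped ContDiff

theorem taylor3 {u : E n → ℝ} {U : Set (E n)} (hU : IsOpen U) (h4 : closedBall 0 4 ⊆ U)
    (hu : ContDiffOn ℝ ∞ u U) : ∃ C : ℝ, 1 ≤ C ∧ ∀ y, ‖y‖ ≤ 4 →
      ‖fderiv ℝ (fderiv ℝ u) y‖ ≤ C ∧ ∀ h, ‖y + h‖ ≤ 4 →
        u (y + h) ≤ u y + fderiv ℝ u y h + fderiv ℝ (fderiv ℝ u) y h h / 2 + C * ‖h‖ ^ 3 := by
  obtain ⟨hd, hv⟩ := (contDiffOn_infty_iff_fderiv_of_isOpen hU).1 hu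
  obtain ⟨C, hC, hb⟩ := taylor2 hU h4 hv
  refine ⟨C, hC, fun y hy => ⟨(hb y hy).2.1, fun h hh => ?_⟩⟩
  have hmem : ∀ t ∈ Icc (0 : ℝ) 1, ‖y + t • h‖ ≤ 4 := by
    intro t ht
    have e : y + t • h = (1 - t) • y + t • (y + h) := by
      rw [smul_add, sub_smul, one_smul]; abel
    rw [e]
    have h1 : ‖(1 - t) • y‖ ≤ (1 - t) * 4 := by
      rw [norm_smul, Real.norm_of_nonneg (sub_nonneg.2 ht.2)]
      exact mul_le_mul_of_nonneg_left hy (sub_nonneg.2 ht.2)
    have h2 : ‖t • (y + h)‖ ≤ t * 4 := by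
      rw [norm_smul, Real.norm_of_nonneg ht.1]
      exact mul_le_mul_of_nonneg_left hh ht.1
    have := norm_add_le ((1 - t) • y) (t • (y + h))
    linarith
  have hder : ∀ t ∈ Icc (0 : ℝ) 1, HasDerivWithinAt
      (fun t : ℝ => u (y + t • h) - t * fderiv ℝ u y h -
        t ^ 2 / 2 * fderiv ℝ (fderiv ℝ u) y h h)
      ((fderiv ℝ u (y + t • h) - fderiv ℝ u y - fderiv ℝ (fderiv ℝ u) y (t • h)) h)
      (Icc (0 : ℝ) 1) t := by
    intro t ht
    have hU' : y + t • h ∈ U := h4 (mem_closedBall_zero_iff.2 (hmem t ht))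
    have h1 : HasFDerivAt u (fderiv ℝ u (y + t • h)) (y + t • h) :=
      (hd.differentiableAt (hU.mem_nhds hU')).hasFDerivAt
    have h2 : HasDerivAt (fun t : ℝ => y + t • h) h t := by
      simpa using ((hasDerivAt_id t).smul_const h).const_add y
    have h3 : HasDerivAt (fun t : ℝ => u (y + t • h)) (fderiv ℝ u (y + t • h) h) t :=
      h1.comp_hasDerivAt t h2
    have h5 : HasDerivAt (fun t : ℝ => t * fderiv ℝ u y h) (fderiv ℝ u y h) t := by
      simpa using (hasDerivAt_id t).mul_const (fderiv ℝ u y h)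
    have h6 : HasDerivAt (fun t : ℝ => t ^ 2 / 2 * fderiv ℝ (fderiv ℝ u) y h h)
        (t * fderiv ℝ (fderiv ℝ u) y h h) t := by
      have := ((hasDerivAt_pow 2 t).div_const 2).mul_const (fderiv ℝ (fderiv ℝ u) y h h)
      refine this.congr_deriv ?_
      norm_num
    refine ((h3.sub h5).sub h6).hasDerivWithinAt.congr_deriv ?_
    simp
  have hbd : ∀ t ∈ Ico (0 : ℝ) 1,
      ‖(fderiv ℝ u (y + t • h) - fderiv ℝ u y - fderiv ℝ (fderiv ℝ u) y (t • h)) h‖ ≤
        C * ‖h‖ ^ 3 := by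
    intro t ht
    have h1 := ((hb y hy).2.2 (t • h) (hmem t (Ico_subset_Icc_self ht))).2
    have h2 : ‖t • h‖ ≤ ‖h‖ := by
      rw [norm_smul, Real.norm_of_nonneg ht.1]
      exact mul_le_of_le_one_left (norm_nonneg _) ht.2.le
    have h3 : C * ‖t • h‖ ^ 2 ≤ C * ‖h‖ ^ 2 :=
      mul_le_mul_of_nonneg_left (pow_le_pow_left₀ (norm_nonneg _) h2 2) (by linarith)
    calc _ ≤ ‖fderiv ℝ u (y + t • h) - fderiv ℝ u y - fderiv ℝ (fderiv ℝ u) y (t • h)‖ * ‖h‖ :=
          ContinuousLinearMap.le_opNorm _ _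
      _ ≤ C * ‖h‖ ^ 2 * ‖h‖ := mul_le_mul_of_nonneg_right (h1.trans h3) (norm_nonneg _)
      _ = C * ‖h‖ ^ 3 := by ring
  have key := norm_image_sub_le_of_norm_deriv_le_segment_01' hder hbd
  have key2 := (abs_le.1 key).2
  simp only [one_smul, zero_smul, add_zero, one_mul, zero_mul, one_pow] at key2
  norm_num at key2
  linarith

theorem mk_vol (g : Met A) (ℓ : Fin A.N → E n → ℝ) (sm : ∀ j, ContDiffOn ℝ ∞ (ℓ j) (A.e j).target)
    (lv : ∀ j, ∀ y ∈ (A.e j).target, ∀ a, levi (ℓ j) y a ≤ qf (g.Γ j y) a)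
    (vol : ∀ j, ∀ y ∈ (A.e j).target, Real.log ‖(g.Γ j y).det‖ ≤ ℓ j y)
    (cmp : ∀ j k x, x ∈ (A.e j).source → x ∈ (A.e k).source →
      ℓ k (A.e k x) = ℓ j (A.e j x) + Real.log (‖(A.tr j k x).det‖ ^ 2)) :
    ∃ v : Vol g, v.ℓ = ℓ := by
  choose C₂ h₂ H₂ using fun j => taylor2 (A.e j).open_target (A.tgt j) (sm j)
  choose C₃ h₃ H₃ using fun j => taylor3 (A.e j).open_target (A.tgt j) (sm j)
  have hg := g.one
  have hK : ∀ j, C₂ j + C₃ j + 4 * g.C + |Real.log ‖(g.Γ j 0).det‖| ≤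
      1 + ∑ j, (C₂ j + C₃ j + 4 * g.C + |Real.log ‖(g.Γ j 0).det‖|) := by
    intro j
    have := Finset.single_le_sum (s := Finset.univ)
      (f := fun j => C₂ j + C₃ j + 4 * g.C + |Real.log ‖(g.Γ j 0).det‖|)
      (fun i _ => by
        have := h₂ i
        have := h₃ i
        have := abs_nonneg (Real.log ‖(g.Γ i 0).det‖)
        linarith) (Finset.mem_univ j)
    linarith
  have h1 : (1 : ℝ) ≤ 1 + ∑ j, (C₂ j + C₃ j + 4 * g.C + |Real.log ‖(g.Γ j 0).det‖|) := by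
    have : 0 ≤ ∑ j, (C₂ j + C₃ j + 4 * g.C + |Real.log ‖(g.Γ j 0).det‖|) :=
      Finset.sum_nonneg fun i _ => by
        have := h₂ i
        have := h₃ i
        have := abs_nonneg (Real.log ‖(g.Γ i 0).det‖)
        linarith
    linarith
  generalize 1 + ∑ j, (C₂ j + C₃ j + 4 * g.C + |Real.log ‖(g.Γ j 0).det‖|) = C at hK h1
  have k₂ : ∀ j, C₂ j ≤ C := fun j => by
    have := hK j
    have := h₃ j
    have := abs_nonneg (Real.log ‖(g.Γ j 0).det‖)
    linarith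
  have k₃ : ∀ j, C₃ j ≤ C := fun j => by
    have := hK j
    have := h₂ j
    have := abs_nonneg (Real.log ‖(g.Γ j 0).det‖)
    linarith
  have hm : ∀ j y, ‖y‖ ≤ 4 → y ∈ (A.e j).target := fun j y hy =>
    A.tgt j (mem_closedBall_zero_iff.2 hy)
  refine ⟨⟨ℓ, C, h1, ?_, ?_, ?_, fun j y hy => vol j y (hm j y hy),
    fun j k x hj hk => cmp j k x hj.1 hk.1⟩, rfl⟩
  · intro j y hy
    have a1 := (abs_le.1 (H₂ j y hy).1).2
    have a2 := (abs_le.1 (g.ld j y 0 hy (by simp))).1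
    rw [sub_zero] at a2
    have a3 : g.C * ‖y‖ ≤ g.C * 4 := mul_le_mul_of_nonneg_left hy (by linarith)
    have a4 := neg_abs_le (Real.log ‖(g.Γ j 0).det‖)
    have := hK j
    have := h₃ j
    linarith
  · intro j y y' hy hy'
    have e : y' + (y - y') = y := by abel
    have a1 := ((H₂ j y' hy').2.2 (y - y') (by rw [e]; exact hy)).1
    rw [e] at a1
    exact a1.trans (mul_le_mul_of_nonneg_right (k₂ j) (norm_nonneg _))
  · intro j y hy
    refine ⟨fderiv ℝ (ℓ j) y, fderiv ℝ (fderiv ℝ (ℓ j)) y, (H₂ j y hy).2.1.trans (k₂ j),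
      (H₃ j y hy).1.trans (k₃ j), fun a => ?_, fun h hh => ?_⟩
    · have := lv j y (hm j y hy) a
      unfold levi at this
      linarith
    · have a1 := (H₃ j y hy).2 h hh
      have a2 : C₃ j * ‖h‖ ^ 3 ≤ C * ‖h‖ ^ 3 :=
        mul_le_mul_of_nonneg_right (k₃ j) (by positivity)
      linarith

theorem levi_aff {u : E n → ℝ} {c y : E n} {ρ : ℝ} (b : ℝ) (hu : ContDiffAt ℝ ∞ u (c + ρ • y))
    (a : E n) : levi (fun y => u (c + ρ • y) + b) y a = ρ ^ 2 * levi u (c + ρ • y) a := by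
  have e1 : fderiv ℝ (fun y => u (c + ρ • y) + b) = ρ • fun y => fderiv ℝ u (c + ρ • y) := by
    funext z
    rw [fderiv_add_const, fderiv_comp_smul (f := fun w => u (c + w)), fderiv_comp_add_left]
    rfl
  have e2 : fderiv ℝ (fderiv ℝ (fun y => u (c + ρ • y) + b)) y =
      ρ • ρ • fderiv ℝ (fderiv ℝ u) (c + ρ • y) := by
    have e3 := fderiv_const_smul_field (𝕜 := ℝ) (f := fun y => fderiv ℝ u (c + ρ • y)) ρ
    have e4 := fderiv_comp_smul (𝕜 := ℝ) (f := fun w => fderiv ℝ u (c + w)) (x := y) ρ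
    have e5 := fderiv_comp_add_left (𝕜 := ℝ) (f := fderiv ℝ u) (x := ρ • y) c
    rw [e5] at e4
    rw [e1]
    exact (congrFun e3 y).trans (congrArg (ρ • ·) e4)
  have _ := hu
  unfold levi
  rw [e2]
  simp only [smul_apply, smul_eq_mul]
  ring

end Vale.Agent.P272
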