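import Vale.Agent.P272.Loc

/-! P272 Brody (task). Helper names start with `brody_`.
Plan (Zalcman). Otherwise there are `f k` holomorphic on `ball 0 1` with `sp (f k) 0 > k` (`sp_affine`). Maximise `(1/2 - ‖z‖)^2 sp (f k) z` on `closedBall 0 (1/2)` (`sp_cont`) at `z k`, rescale: `h k w = f k (z k + w / λ k)`, `λ k ^ 2 = sp (f k) (z k)`, holomorphic with `sp ≤ 4` on `ball 0 (R k)`, `R k → ∞`, `sp (h k) 0 = 1`. Let `𝒰 = hyperfilter ℕ` (or `Ultrafilter.of atTop`), `h w` the limit of `h k w` along `𝒰` (compactness). At `w₀` take `j = ch (h w₀)`; along `𝒰`, `In j 2 (h k w₀)`, so by `loc_ball` the maps `e j ∘ h k` are uniformly Lipschitz on `ball w₀ c` with values in the ball 4; `isClosed_in` puts `h w` in the chart; pointwise plus equi-Lipschitz gives `TendstoLocallyUniformlyOn` (or uniform on a smaller closed ball), `TendstoLocallyUniformlyOn.differentiableOn`, `holAt_of_chart`. `TendstoLocallyUniformlyOn.deriv`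 at `0` and `1 = sp ≤ C ‖dv‖^2` show that `h` is not constant. -/

open Metric Set Filter Topology Complex

noncomputable section

namespace Vale.Agent.P272

variable {n : ℕ} {X : Type} [TopologicalSpace X] {A : Atl n X}

theorem brody_unif {ι : Type} {p : Filter ι} [p.NeBot] {F : ι → ℂ → E n} {f : ℂ → E n} {s : Set ℂ}
    {L : ℝ} (hL : 0 < L) (h1 : ∀ x ∈ s, Tendsto (fun k => F k x) p (𝓝 (f x)))
    (h2 : ∀ᶠ k in p, ∀ x ∈ s, ∀ y ∈ s, ‖F k y - F k x‖ ≤ L * ‖y - x‖) :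
    TendstoLocallyUniformlyOn F f p s := by
  refine Metric.tendstoLocallyUniformlyOn_iff.2 fun ε hε x hx =>
    ⟨s ∩ ball x (ε / 3 / L), inter_mem_nhdsWithin s (ball_mem_nhds x (by positivity)), ?_⟩
  filter_upwards [h2, Metric.tendsto_nhds.1 (h1 x hx) (ε / 3) (by positivity)] with k a1 a2 y hy
  have b1 := le_of_tendsto ((h1 y hy.1).sub (h1 x hx)).norm (h2.mono fun k h => h x hx y hy.1)
  have b2 := a1 x hx y hy.1
  have b3 := (lt_div_iff₀' hL).1 (mem_ball_iff_norm.1 hy.2)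
  have b4 := dist_triangle4 (f y) (f x) (F k x) (F k y)
  rw [dist_comm (f x), dist_comm (F k x) (F k y), dist_eq_norm (f y) (f x),
    dist_eq_norm (F k y)] at b4
  linarith

theorem brody_zal (g : Met A) {f : ℂ → X} {z : ℂ} {d k : ℝ} (hd : 0 < d) (hk : 0 ≤ k)
    (hf : ∀ w ∈ ball z d, A.HolAt f w) (h : (16 * k ^ 2 + 1) / d ^ 2 < g.sp f z) :
    ∃ u : ℂ → X, (∀ w ∈ ball 0 k, A.HolAt u w ∧ g.sp u w ≤ 2 ^ 2) ∧
      (A.HolAt u 0 ∧ g.sp u 0 = 1) := by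
  have sb : closedBall z (d / 2) ⊆ ball z d := closedBall_subset_ball (half_lt_self hd)
  have z0 : z ∈ closedBall z (d / 2) := mem_closedBall_self (half_pos hd).le
  obtain ⟨w₀, h1, h2⟩ := (isCompact_closedBall z (d / 2)).exists_isMaxOn ⟨z, z0⟩
    (f := fun w => (d / 2 - ‖w - z‖) ^ 2 * g.sp f w) fun w hw =>
      ((show ContinuousAt (fun w : ℂ => (d / 2 - ‖w - z‖) ^ 2) w by fun_prop).mul
        (g.sp_cont (eventually_of_mem (isOpen_ball.mem_nhds (sb hw)) hf))).continuousWithinAt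
  obtain ⟨ρ, hρ⟩ : ∃ ρ, ρ = d / 2 - ‖w₀ - z‖ := ⟨_, rfl⟩
  obtain ⟨l, l0, hl⟩ : ∃ l, 0 ≤ l ∧ l ^ 2 = g.sp f w₀ :=
    ⟨_, Real.sqrt_nonneg _, Real.sq_sqrt (g.sp_nonneg f w₀)⟩
  have h3 : ∀ w ∈ closedBall z (d / 2), (d / 2 - ‖w - z‖) ^ 2 * g.sp f w ≤ (ρ * l) ^ 2 :=
    fun w hw => by
      rw [mul_pow, hl, hρ]
      exact h2 hw
  have ρ0 : 0 ≤ ρ := hρ ▸ sub_nonneg.2 (mem_closedBall_iff_norm.1 h1)
  have h4 := h3 z z0
  rw [sub_self, norm_zero, sub_zero] at h4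
  rw [div_lt_iff₀ (by positivity)] at h
  have h5 : 2 * k < ρ * l := lt_of_pow_lt_pow_left₀ 2 (by positivity) (by linarith)
  have l1 : 0 < l := l0.lt_of_ne fun e => by
    rw [← e] at h5
    linarith
  have ρ1 : 0 < ρ := pos_of_mul_pos_left (show 0 < ρ * l by linarith) l0
  have n1 : ‖((l : ℂ))⁻¹‖ = l⁻¹ := by rw [norm_inv, norm_real, Real.norm_of_nonneg l0]
  have key : ∀ w : ℂ, ‖w‖ ≤ k → A.HolAt (fun w => f ((l : ℂ)⁻¹ * w + w₀)) w ∧
      g.sp (fun w => f ((l : ℂ)⁻¹ * w + w₀)) w = l⁻¹ ^ 2 * g.sp f ((l : ℂ)⁻¹ * w + w₀) ∧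
      g.sp f ((l : ℂ)⁻¹ * w + w₀) ≤ 4 * l ^ 2 := fun w hw => by
    have a1 : ‖(l : ℂ)⁻¹ * w‖ ≤ ρ / 2 := by
      rw [norm_mul, n1, inv_mul_le_iff₀ l1]
      linarith
    have a2 := norm_add_le ((l : ℂ)⁻¹ * w) (w₀ - z)
    rw [← add_sub_assoc] at a2
    have a3 : (l : ℂ)⁻¹ * w + w₀ ∈ closedBall z (d / 2) := mem_closedBall_iff_norm.2 (by linarith)
    refine ⟨(hf _ (sb a3)).comp (φ := fun w => (l : ℂ)⁻¹ * w + w₀) (by fun_prop),
      n1 ▸ g.sp_affine _ _ (hf _ (sb a3)), ?_⟩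
    have a4 := mul_le_mul_of_nonneg_right (pow_le_pow_left₀ (half_pos ρ1).le
      (show ρ / 2 ≤ d / 2 - ‖(l : ℂ)⁻¹ * w + w₀ - z‖ by linarith) 2)
      (g.sp_nonneg f ((l : ℂ)⁻¹ * w + w₀))
    exact le_of_mul_le_mul_left (a := (ρ / 2) ^ 2) ((a4.trans (h3 _ a3)).trans_eq (by ring))
      (by positivity)
  refine ⟨_, fun w hw => ?_, (key 0 (by simpa using hk)).1, ?_⟩
  · obtain ⟨a1, a2, a3⟩ := key w (mem_ball_zero_iff.1 hw).le
    refine ⟨a1, a2.trans_le ((mul_le_mul_of_nonneg_left a3 (sq_nonneg _)).trans_eq ?_)⟩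
    field_simp
    norm_num
  · rw [(key 0 (by simpa using hk)).2.1, mul_zero, zero_add, ← hl]
    field_simp

theorem Met.brody [T2Space X] [CompactSpace X] (g : Met A) (hy : A.Hyp) : ∃ C₁, g.Br C₁ := by
  by_contra hn
  have key : ∀ k : ℕ, ∃ u : ℂ → X, (∀ w ∈ ball 0 (k : ℝ), A.HolAt u w ∧ g.sp u w ≤ 2 ^ 2) ∧
      (A.HolAt u 0 ∧ g.sp u 0 = 1) := fun k => by
    by_contra h
    exact hn ⟨16 * (k : ℝ) ^ 2 + 1, by nlinarith [sq_nonneg (k : ℝ)], fun f z d hd hf =>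
      not_lt.1 fun h' => h (brody_zal g hd k.cast_nonneg hf h')⟩
  choose u u1 u2 u3 using key
  have lim : ∀ w, ∃ x, Tendsto (fun k => u k w) (hyperfilter ℕ) (𝓝 x) := fun w =>
    (isCompact_univ.ultrafilter_le_nhds ((hyperfilter ℕ).map fun k => u k w) (by simp)).imp
      fun x h => h.2
  choose H hH using lim
  have C1 := g.one
  obtain ⟨c, c0, hc⟩ : ∃ c, 0 < c ∧ g.C * 2 * (2 * c) = 1 :=
    ⟨(4 * g.C)⁻¹, by positivity, by field_simp; norm_num⟩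
  have C2 : 0 < g.C * 2 := by positivity
  have loc : ∀ w₀ : ℂ, (∀ w ∈ ball w₀ c, H w ∈ (A.e (A.ch (H w₀))).source) ∧
      (∀ᶠ k in hyperfilter ℕ, A.In (A.ch (H w₀)) 4 (u k w₀) ∧
        DifferentiableOn ℂ (A.e (A.ch (H w₀)) ∘ u k) (ball w₀ c)) ∧
      TendstoLocallyUniformlyOn (fun k => A.e (A.ch (H w₀)) ∘ u k) (A.e (A.ch (H w₀)) ∘ H)
        (hyperfilter ℕ) (ball w₀ c) := fun w₀ => by
    obtain ⟨j1, j2⟩ := A.ch_in (H w₀)
    generalize A.ch (H w₀) = j at j1 j2 ⊢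
    have a1 : ∀ᶠ k in hyperfilter ℕ, (∀ w ∈ ball w₀ c, A.HolAt (u k) w ∧ g.sp (u k) w ≤ 2 ^ 2) ∧
        ∀ w ∈ ball w₀ c, A.In j 3 (u k w) := by
      filter_upwards [(hH w₀).eventually ((A.e j).open_source.mem_nhds j1),
        (((A.e j).continuousAt j1).tendsto.comp (hH w₀)).norm.eventually (gt_mem_nhds j2),
        Nat.hyperfilter_le_atTop (tendsto_natCast_atTop_atTop.eventually_ge_atTop (‖w₀‖ + c))]
        with k b1 b2 b3
      have b4 : ∀ w ∈ ball w₀ c, A.HolAt (u k) w ∧ g.sp (u k) w ≤ 2 ^ 2 := fun w hw =>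
        u1 k w (ball_subset_ball' (by rwa [dist_zero_right, add_comm]) hw)
      refine ⟨b4, fun w hw => ?_⟩
      have b2 : ‖A.e j (u k w₀)‖ < 1 := b2
      obtain ⟨b5, b6⟩ := g.loc_ball zero_le_two b4 ⟨b1, b2.le.trans (by norm_num)⟩
        (by nlinarith) hw
      have b7 := mul_lt_mul_of_pos_left (mem_ball_iff_norm.1 hw) C2
      have b8 := norm_le_insert' (A.e j (u k w)) (A.e j (u k w₀))
      exact ⟨b5.1, by nlinarith⟩
    have a2 : ∀ w ∈ ball w₀ c, H w ∈ (A.e j).source := fun w hw =>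
      ((A.isClosed_in j (a := 3) (by norm_num)).mem_of_tendsto (hH w)
        (a1.mono fun k h => h.2 w hw)).1
    refine ⟨a2, a1.mono fun k h => ⟨(h.2 w₀ (mem_ball_self c0)).mono (by norm_num), fun w hw =>
      ((h.1 w hw).1.2 j (h.2 w hw).1).differentiableWithinAt⟩, brody_unif C2
      (fun w hw => ((A.e j).continuousAt (a2 w hw)).tendsto.comp (hH w))
      (a1.mono fun k h x hx y hy => (g.loc zero_le_two (fun w hw =>
        h.1 w ((convex_ball w₀ c).segment_subset hx hy hw)) (h.2 x hx) ?_).2)⟩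
    rw [← hc]
    refine mul_lt_mul_of_pos_left ?_ C2
    have := dist_triangle_right y x w₀
    rw [dist_eq_norm] at this
    linarith [mem_ball.1 hx, mem_ball.1 hy]
  have hol := hy H fun w => by
    obtain ⟨a1, a2, a3⟩ := loc w
    exact Atl.holAt_of_chart (eventually_of_mem (ball_mem_nhds w c0) a1)
      ((a3.differentiableOn (a2.mono fun k h => h.2) isOpen_ball).differentiableAt
        (ball_mem_nhds w c0))
  obtain ⟨-, a2, a3⟩ := loc 0
  have a4 := (a3.deriv (a2.mono fun k h => h.2) isOpen_ball).tendsto_at (mem_ball_self c0)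
  rw [show A.e (A.ch (H 0)) ∘ H = fun _ => A.e (A.ch (H 0)) (H 0) from
    funext fun w => congrArg (A.e (A.ch (H 0))) (hol w 0), deriv_const] at a4
  have a5 := ge_of_tendsto ((a4.norm.pow 2).const_mul g.C) (b := 1) (a2.mono fun k h => by
    rw [← u3 k, g.sp_eq (u2 k) h.1]
    exact ((le_abs_self _).trans (qf_le _ _)).trans
      (mul_le_mul_of_nonneg_right (g.up _ _ h.1.2) (sq_nonneg _)))
  norm_num at a5

end Vale.Agent.P272
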