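import Vale.Agent.P272.Defs

/-! P272 AH. Helper names start with `ah_`.
Plan. `lin_diff`: the real derivative of `u ↦ W (z, u)` is complex linear, so it is the restriction of a complex derivative. `ah_limit`: (1) for `v = (a, b)`, `D (I • v) - I • D v` has norm `‖a‖ ‖db‖`. (2) On a complex line `ζ ↦ p + ζ • v` Green's formula `Complex.integral_boundary_rect_of_hasFDerivAt_real_off_countable` shows that the rectangle integrals of `W k` tend to `0`; so the limit is conservative and `Complex.isConservativeOn_and_continuousOn_iff_isDifferentiableOn` gives holomorphy on lines (or use Cauchy's formula). (3) `w` is continuous, bounded near `p`; `Λ p v = deriv (ζ ↦ w (p + ζ • v)) 0` satisfies `‖w (p + v) - w p - Λ p v‖ ≤ C ‖v‖^2` uniformly near `p` (Schwarz twice), is homogeneous, continuous in `p` (Cauchy estimate), hence additive in `v`; `HasFDerivAt`. -/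

open Metric Set Filter Topology Complex

noncomputable section

namespace Vale.Agent.P272

variable {n : ℕ}

section

variable {B F : Type*} [NormedAddCommGroup B] [NormedSpace ℂ B] [NormedAddCommGroup F]
  [NormedSpace ℂ F]

theorem ah_sch {f : ℂ → F} {ρ M : ℝ} (hρ : 1 < ρ) (hd : DifferentiableOn ℂ f (ball 0 ρ))
    (hM : ∀ ζ ∈ ball (0 : ℂ) ρ, ‖f ζ‖ ≤ M) : ‖deriv f 0‖ ≤ 2 * M / ρ ∧ ‖f 1 - f 0‖ ≤ 2 * M / ρ ∧
      ‖f 1 - f 0 - deriv f 0‖ ≤ 4 * M / ρ ^ 2 := by
  have ρ0 : 0 < ρ := by linarith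
  have h1 : (1 : ℂ) ∈ ball (0 : ℂ) ρ := by simpa using hρ
  have h2 : ∀ ζ ∈ ball (0 : ℂ) ρ, ‖f ζ - f 0‖ ≤ 2 * M := fun ζ hζ =>
    (norm_sub_le _ _).trans (by linarith [hM ζ hζ, hM 0 (mem_ball_self ρ0)])
  have hm : MapsTo f (ball 0 ρ) (closedBall (f 0) (2 * M)) := fun ζ hζ =>
    mem_closedBall_iff_norm.2 (h2 ζ hζ)
  have h3 := norm_deriv_le_div_of_mapsTo_ball hd hm ρ0
  refine ⟨h3, by simpa [dist_eq_norm] using dist_le_div_mul_dist_of_mapsTo_ball hd hm h1, ?_⟩
  have h4 := dist_le_mul_div_pow_of_mapsTo_ball_of_isLittleO (n := 1) (R₂ := 4 * M)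
    (f := fun ζ => f ζ - ζ • deriv f 0) (hd.sub (by fun_prop)) (fun ζ hζ => by
      rw [mem_closedBall_iff_norm, zero_smul, sub_zero, sub_right_comm]
      refine (norm_sub_le _ _).trans ?_
      rw [norm_smul]
      have e1 := mem_ball_zero_iff.1 hζ
      have e2 : ‖ζ‖ * ‖deriv f 0‖ ≤ ρ * (2 * M / ρ) := by gcongr
      rw [mul_div_cancel₀ _ ρ0.ne'] at e2
      linarith [h2 ζ hζ]) (by
      have e1 := hasDerivAt_iff_isLittleO.1
        (hd.differentiableAt (ball_mem_nhds _ ρ0)).hasDerivAt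
      simp only [pow_one, Asymptotics.isLittleO_norm_right]
      refine e1.congr_left fun ζ => ?_
      simp only [sub_zero, zero_smul]
      abel) h1
  simp only [dist_eq_norm, one_smul, zero_smul, sub_zero, norm_one] at h4
  rw [sub_right_comm]
  exact h4.trans_eq (by ring)

theorem ah_est {g : B → F} {q v : B} {r s M : ℝ} (h0 : 0 < s) (hs : s < r) (hv : ‖v‖ ≤ s)
    (hd : DifferentiableOn ℂ (fun ζ : ℂ => g (q + ζ • v)) {ζ | q + ζ • v ∈ ball q r})
    (hM : ∀ x ∈ ball q r, ‖g x‖ ≤ M) : ‖lineDeriv ℂ g q v‖ ≤ 2 * M / r * s ∧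
      ‖g (q + v) - g q‖ ≤ 2 * M / r * s ∧
        ‖g (q + v) - g q - lineDeriv ℂ g q v‖ ≤ 4 * M / r ^ 2 * s ^ 2 := by
  have h1 : ∀ ζ ∈ ball (0 : ℂ) (r / s), q + ζ • v ∈ ball q r := fun ζ hζ => by
    rw [add_mem_ball_iff_norm, norm_smul]
    have e1 := (lt_div_iff₀ h0).1 (mem_ball_zero_iff.1 hζ)
    exact (mul_le_mul_of_nonneg_left hv (norm_nonneg _)).trans_lt e1
  have h2 := ah_sch ((one_lt_div h0).2 hs) (hd.mono h1) fun ζ hζ => hM _ (h1 ζ hζ)
  simp only [one_smul, zero_smul, add_zero] at h2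
  have r0 : 0 < r := h0.trans hs
  refine ⟨h2.1.trans_eq ?_, h2.2.1.trans_eq ?_, h2.2.2.trans_eq ?_⟩ <;> field_simp

theorem ah_gat [FiniteDimensional ℂ B] {w : B → F} {p : B} {r M : ℝ} (hr : 0 < r)
    (hd : ∀ q v, DifferentiableOn ℂ (fun ζ : ℂ => w (q + ζ • v)) {ζ | q + ζ • v ∈ ball p (2 * r)})
    (hM : ∀ x ∈ ball p (2 * r), ‖w x‖ ≤ M) : DifferentiableAt ℂ w p := by
  have hb : ∀ q ∈ ball p r, ball q r ⊆ ball p (2 * r) := fun q hq =>
    ball_subset_ball' (by linarith [mem_ball.1 hq])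
  have h1 := fun q (hq : q ∈ ball p r) v s (h0 : 0 < s) (hs : s < r) (hv : ‖v‖ ≤ s) =>
    ah_est h0 hs hv ((hd q v).mono fun ζ hζ => hb q hq hζ) fun x hx => hM x (hb q hq hx)
  have hp := mem_ball_self (x := p) hr
  have hdf : ∀ q ∈ ball p r, ∀ v, DifferentiableAt ℂ (fun ζ : ℂ => w (q + ζ • v)) 0 :=
    fun q hq v => (hd q v).differentiableAt ((isOpen_ball.preimage
      (show Continuous fun ζ : ℂ => q + ζ • v by fun_prop)).mem_nhds
        (by simpa using hb q hq (mem_ball_self hr)))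
  have h2 : ∀ a b s, 0 < s → s < r → ‖a‖ ≤ s → ‖b‖ ≤ s →
      ‖lineDeriv ℂ w (p + a) b - lineDeriv ℂ w p b‖ ≤ 2 * (2 * M / r * s) / r * s := by
    intro a b s h0 hs ha hb'
    have hpa : p + a ∈ ball p r := add_mem_ball_iff_norm.2 (ha.trans_lt hs)
    have e1 := (ah_est (g := fun x => w (x + a) - w x) (q := p) h0 hs hb' (by
      refine DifferentiableOn.sub ?_ ((hd p b).mono fun ζ hζ => hb p hp hζ)
      simp only [add_right_comm p _ a]
      refine (hd (p + a) b).mono fun ζ hζ => hb _ hpa ?_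
      rw [add_mem_ball_iff_norm]
      exact add_mem_ball_iff_norm.1 hζ) fun x hx => (h1 x hx a s h0 hs ha).2.1).1
    rw [lineDeriv] at e1
    simp only [add_right_comm p _ a] at e1
    rwa [deriv_fun_sub (hdf _ hpa b) (hdf p hp b)] at e1
  have h3 : ∀ a b s, 0 < s → s < r → ‖a‖ ≤ s → ‖b‖ ≤ s → ‖a + b‖ ≤ s →
      ‖lineDeriv ℂ w p (a + b) - (lineDeriv ℂ w p a + lineDeriv ℂ w p b)‖ ≤
        16 * M / r ^ 2 * s ^ 2 := by
    intro a b s h0 hs ha hb' hab
    have e1 := (h1 p hp _ s h0 hs hab).2.2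
    have e2 := (h1 p hp _ s h0 hs ha).2.2
    have e3 := (h1 _ (add_mem_ball_iff_norm.2 (ha.trans_lt hs)) _ s h0 hs hb').2.2
    have e4 := h2 a b s h0 hs ha hb'
    have e5 : lineDeriv ℂ w p (a + b) - (lineDeriv ℂ w p a + lineDeriv ℂ w p b) =
        (w (p + a) - w p - lineDeriv ℂ w p a) + (w (p + a + b) - w (p + a) -
          lineDeriv ℂ w (p + a) b) + (lineDeriv ℂ w (p + a) b - lineDeriv ℂ w p b) -
            (w (p + (a + b)) - w p - lineDeriv ℂ w p (a + b)) := by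
      rw [add_assoc p]
      abel
    rw [e5]
    refine ((norm_sub_le _ _).trans (add_le_add (norm_add₃_le.trans
      (add_le_add (add_le_add e2 e3) e4)) e1)).trans_eq ?_
    field_simp
    ring
  have h4 : ∀ a b, lineDeriv ℂ w p (a + b) = lineDeriv ℂ w p a + lineDeriv ℂ w p b := by
    intro a b
    rw [← sub_eq_zero, ← norm_le_zero_iff]
    set s := ‖a‖ + ‖b‖ + 1 with hs
    have s0 : 0 < s := by positivity
    have e1 : Tendsto (fun t : ℝ => 16 * M / r ^ 2 * s ^ 2 * t) (𝓝[>] 0) (𝓝 0) := by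
      have : Continuous fun t : ℝ => 16 * M / r ^ 2 * s ^ 2 * t := by fun_prop
      simpa using (this.tendsto 0).mono_left nhdsWithin_le_nhds
    refine ge_of_tendsto e1 ?_
    filter_upwards [Ioo_mem_nhdsGT (div_pos hr s0)] with t ht
    have e2 : ∀ x : B, ‖x‖ ≤ s → ‖(t : ℂ) • x‖ ≤ t * s := fun x hx => by
      rw [norm_smul, norm_real, Real.norm_of_nonneg ht.1.le]
      exact mul_le_mul_of_nonneg_left hx ht.1.le
    have e3 := h3 ((t : ℂ) • a) ((t : ℂ) • b) (t * s) (mul_pos ht.1 s0) ((lt_div_iff₀ s0).1 ht.2)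
      (e2 a (by linarith [norm_nonneg b])) (e2 b (by linarith [norm_nonneg a]))
      (by rw [← smul_add]; exact e2 _ (by linarith [norm_add_le a b]))
    rw [← smul_add, lineDeriv_smul, lineDeriv_smul, lineDeriv_smul, ← smul_add, ← smul_sub,
      norm_smul, norm_real, Real.norm_of_nonneg ht.1.le] at e3
    refine le_of_mul_le_mul_left (e3.trans_eq (by ring)) ht.1
  let Λ : B →ₗ[ℂ] F := ⟨⟨lineDeriv ℂ w p, h4⟩, fun c x => lineDeriv_smul⟩
  refine (hasFDerivAt_iff_isLittleO_nhds_zero.2 (?_ : (fun h => w (p + h) - w p -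
    LinearMap.toContinuousLinearMap Λ h) =o[𝓝 0] fun h => h)).differentiableAt
  refine (Asymptotics.IsBigO.of_bound (4 * M / r ^ 2) ?_).trans_isLittleO
    (Asymptotics.isLittleO_norm_pow_id one_lt_two)
  filter_upwards [ball_mem_nhds 0 hr] with v hv
  rcases eq_or_ne v 0 with rfl | h0
  · simp
  · rw [norm_pow, norm_norm]
    exact (h1 p hp v _ (norm_pos_iff.2 h0) (mem_ball_zero_iff.1 hv) le_rfl).2.2

theorem ah_wedge {f g : ℂ → F} {z w : ℂ} {ε : ℝ} (hf : ContinuousOn f (Rectangle z w))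
    (hg : ContinuousOn g (Rectangle z w)) (h : ∀ x ∈ Rectangle z w, ‖f x - g x‖ ≤ ε) :
    ‖wedgeIntegral z w f - wedgeIntegral z w g‖ ≤ ε * |w.re - z.re| + ε * |w.im - z.im| := by
  have m1 : ∀ x ∈ uIcc z.re w.re, (x + z.im * I : ℂ) ∈ Rectangle z w := fun x hx =>
    ⟨by simpa using hx, by simp⟩
  have m2 : ∀ y ∈ uIcc z.im w.im, (w.re + y * I : ℂ) ∈ Rectangle z w := fun y hy =>
    ⟨by simp, by simpa using hy⟩
  have i1 : ∀ {f : ℂ → F}, ContinuousOn f (Rectangle z w) →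
      IntervalIntegrable (fun x : ℝ => f (x + z.im * I)) MeasureTheory.volume z.re w.re :=
    fun hf => (hf.comp (by fun_prop) m1).intervalIntegrable
  have i2 : ∀ {f : ℂ → F}, ContinuousOn f (Rectangle z w) →
      IntervalIntegrable (fun y : ℝ => f (w.re + y * I)) MeasureTheory.volume z.im w.im :=
    fun hf => (hf.comp (by fun_prop) m2).intervalIntegrable
  rw [wedgeIntegral, wedgeIntegral, add_sub_add_comm, ← smul_sub,
    ← intervalIntegral.integral_sub (i1 hf) (i1 hg), ← intervalIntegral.integral_sub (i2 hf) (i2 hg)]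
  refine (norm_add_le _ _).trans (add_le_add ?_ ?_)
  · exact intervalIntegral.norm_integral_le_of_norm_le_const fun x hx =>
      h _ (m1 x (uIoc_subset_uIcc hx))
  · rw [norm_smul, norm_I, one_mul]
    exact intervalIntegral.norm_integral_le_of_norm_le_const fun x hx =>
      h _ (m2 x (uIoc_subset_uIcc hx))

theorem ah_one [CompleteSpace F] {V : Set ℂ} (hV : IsOpen V) {g : ℕ → ℂ → F} {f : ℂ → F}
    {δ ε : ℕ → ℝ} (hδ : Tendsto δ atTop (𝓝 0)) (hε : Tendsto ε atTop (𝓝 0))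
    (hg : ∀ k, ContDiffOn ℝ 1 (g k) V) (hf : ContinuousOn f V)
    (h1 : ∀ k, ∀ z ∈ V, ‖I • fderiv ℝ (g k) z 1 - fderiv ℝ (g k) z I‖ ≤ δ k)
    (h2 : ∀ k, ∀ z ∈ V, ‖g k z - f z‖ ≤ ε k) : DifferentiableOn ℂ f V := by
  refine (isConservativeOn_and_continuousOn_iff_isDifferentiableOn hV).1 ⟨fun z w hzw => ?_, hf⟩
  rw [← add_eq_zero_iff_eq_neg, ← norm_le_zero_iff]
  have hwz : Rectangle w z ⊆ V := by
    simpa only [Rectangle, uIcc_comm w.re, uIcc_comm w.im] using hzw
  have e1 := ((hδ.mul_const |w.im - z.im|).mul_const |w.re - z.re|).add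
    (((hε.mul_const |w.re - z.re|).add (hε.mul_const |w.im - z.im|)).add
      ((hε.mul_const |z.re - w.re|).add (hε.mul_const |z.im - w.im|)))
  simp only [zero_mul, add_zero] at e1
  refine ge_of_tendsto' e1 fun k => ?_
  have e2 := ah_wedge ((hg k).continuousOn.mono hzw) (hf.mono hzw) fun x hx => h2 k x (hzw hx)
  have e3 := ah_wedge ((hg k).continuousOn.mono hwz) (hf.mono hwz) fun x hx => h2 k x (hwz hx)
  have e4 : ‖wedgeIntegral z w (g k) + wedgeIntegral w z (g k)‖ ≤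
      δ k * |w.im - z.im| * |w.re - z.re| := by
    have c1 := ((hg k).continuousOn_fderiv_of_isOpen hV le_rfl).mono hzw
    rw [wedgeIntegral_add_wedgeIntegral_eq, integral_boundary_rect_of_differentiableOn_real _ _ _
      (((hg k).differentiableOn one_ne_zero).mono hzw)
      (ContinuousOn.integrableOn_compact (isCompact_uIcc.reProdIm isCompact_uIcc)
        (((c1.clm_apply continuousOn_const).const_smul I).sub (c1.clm_apply continuousOn_const)))]
    refine intervalIntegral.norm_integral_le_of_norm_le_const fun x hx =>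
      intervalIntegral.norm_integral_le_of_norm_le_const fun y hy => h1 k _ (hzw ?_)
    exact ⟨by simpa using uIoc_subset_uIcc hx, by simpa using uIoc_subset_uIcc hy⟩
  have e5 : wedgeIntegral z w f + wedgeIntegral w z f =
      wedgeIntegral z w (g k) + wedgeIntegral w z (g k) -
        ((wedgeIntegral z w (g k) - wedgeIntegral z w f) +
          (wedgeIntegral w z (g k) - wedgeIntegral w z f)) := by abel
  rw [e5]
  exact (norm_sub_le _ _).trans (add_le_add e4 ((norm_add_le _ _).trans (add_le_add e2 e3)))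

end

theorem ah_part {W : ℂ × E n → E n} {z : ℂ} {u : E n} (h : DifferentiableAt ℝ W (z, u)) :
    HasFDerivAt (fun u => W (z, u))
      ((fderiv ℝ W (z, u)).comp (ContinuousLinearMap.inr ℝ ℂ (E n))) u :=
  h.hasFDerivAt.comp u (hasFDerivAt_prodMk_right z u)

theorem ah_smul {B : Type*} [AddCommGroup B] [Module ℂ B] (c : ℂ) (b : B) :
    c • b = c.re • b + c.im • I • b := by
  conv_lhs => rw [← re_add_im c]
  rw [add_smul, mul_smul, coe_smul, coe_smul]

theorem lin_diff {W : ℂ × E n → E n} {z : ℂ} {u : E n} (h : DifferentiableAt ℝ W (z, u))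
    (hl : Lin W (z, u)) : DifferentiableAt ℂ (fun u => W (z, u)) u ∧
      ∀ b, fderiv ℂ (fun u => W (z, u)) u b = fderiv ℝ W (z, u) (0, b) := by
  let D := (fderiv ℝ W (z, u)).comp (ContinuousLinearMap.inr ℝ ℂ (E n))
  have hD : ∀ b, D (I • b) = I • D b := hl
  let Λ : E n →L[ℂ] E n := ⟨⟨⟨D, D.map_add⟩, fun c b => by
    change D (c • b) = c • D b
    rw [ah_smul c b, ah_smul c (D b), map_add, map_smul, map_smul, hD]⟩, D.continuous⟩
  have h1 : HasFDerivAt (fun u => W (z, u)) Λ u :=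
    hasFDerivAt_of_restrictScalars ℝ (ah_part h) (by ext1; rfl)
  exact ⟨h1.differentiableAt, fun b => by rw [h1.fderiv]; rfl⟩

theorem lin_of_diff {W : ℂ × E n → E n} {z : ℂ} {u : E n} (h : DifferentiableAt ℝ W (z, u))
    (hl : DifferentiableAt ℂ (fun u => W (z, u)) u) : Lin W (z, u) := by
  have h1 := (ah_part h).unique (hl.hasFDerivAt.restrictScalars ℝ)
  have h2 : ∀ b, fderiv ℝ W (z, u) (0, b) = fderiv ℂ (fun u => W (z, u)) u b := fun b =>
    congrArg (fun D : E n →L[ℝ] E n => D b) h1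
  intro b
  rw [h2, h2, map_smul]

theorem ah_db {W : ℂ × E n → E n} {p : ℂ × E n} (hl : Lin W p) (v : ℂ × E n) :
    ‖I • fderiv ℝ W p v - fderiv ℝ W p (I • v)‖ = ‖v.1‖ * ‖db W p‖ := by
  obtain ⟨a, b⟩ := v
  have h1 : ∀ (a : ℂ) (b : E n), fderiv ℝ W p (a, b) =
      (a.re : ℂ) • fderiv ℝ W p (1, 0) + (a.im : ℂ) • fderiv ℝ W p (I, 0) + fderiv ℝ W p (0, b) := by
    intro a b
    rw [coe_smul, coe_smul, ← map_smul, ← map_smul, ← map_add, ← map_add]
    congr 1
    ext1 <;> simp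
  have h2 : I • fderiv ℝ W p (a, b) - fderiv ℝ W p (I • (a, b)) =
      (I * (starRingEnd ℂ) a) • db W p := by
    have e1 : I * (starRingEnd ℂ) a = a.im + a.re * I := by apply Complex.ext <;> simp
    rw [Prod.smul_mk, h1 a b, h1 (I • a) (I • b), hl b, db, e1]
    simp only [smul_eq_mul, I_mul_re, I_mul_im, ofReal_neg]
    match_scalars
    · ring
    · linear_combination (-a.re : ℂ) * I_mul_I
    · ring
  rw [h2, norm_smul, norm_mul, norm_I, one_mul, norm_conj]

theorem ah_limit {U : Set (ℂ × E n)} (hU : IsOpen U) {W : ℕ → ℂ × E n → E n} {w : ℂ × E n → E n}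
    {c : ℝ} (hW : ∀ k, ContDiffOn ℝ 1 (W k) U)
    (h1 : ∀ k, ∀ p ∈ U, Lin (W k) p ∧ ‖db (W k) p‖ ≤ c * (1 / 2) ^ k)
    (h2 : ∀ k, ∀ p ∈ U, ‖W k p - w p‖ ≤ c * (1 / 2) ^ k) : DifferentiableOn ℂ w U := by
  have hε : Tendsto (fun k : ℕ => c * (1 / 2 : ℝ) ^ k) atTop (𝓝 0) := by
    simpa using (tendsto_pow_atTop_nhds_zero_of_lt_one (r := (1 / 2 : ℝ)) (by norm_num)
      (by norm_num)).const_mul c
  have hc : ContinuousOn w U := by
    refine TendstoUniformlyOn.continuousOn (F := W) (p := atTop) ?_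
      (Eventually.of_forall fun k => (hW k).continuousOn).frequently
    refine Metric.tendstoUniformlyOn_iff.2 fun ε h0 => ?_
    filter_upwards [hε.eventually (gt_mem_nhds h0)] with k hk p hp
    rw [dist_comm, dist_eq_norm]
    exact (h2 k p hp).trans_lt hk
  have hl : ∀ q v : ℂ × E n,
      DifferentiableOn ℂ (fun ζ : ℂ => w (q + ζ • v)) {ζ | q + ζ • v ∈ U} := by
    intro q v
    have c1 : ContDiff ℝ 1 fun ζ : ℂ => q + ζ • v := by fun_prop
    have e1 := hε.const_mul ‖v.1‖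
    rw [mul_zero] at e1
    refine ah_one (g := fun k ζ => W k (q + ζ • v)) (hU.preimage c1.continuous) e1 hε
      (fun k => (hW k).comp c1.contDiffOn fun _ h => h) (hc.comp c1.continuous.continuousOn
        fun _ h => h) (fun k ζ hζ => ?_) fun k ζ hζ => h2 k _ hζ
    have d1 : HasFDerivAt (fun ζ : ℂ => q + ζ • v)
        ((ContinuousLinearMap.toSpanSingleton ℂ v).restrictScalars ℝ) ζ :=
      ((ContinuousLinearMap.toSpanSingleton ℂ v).restrictScalars ℝ).hasFDerivAt.const_add q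
    have d2 := (((hW k).differentiableOn one_ne_zero).differentiableAt
      (hU.mem_nhds hζ)).hasFDerivAt.comp ζ d1
    rw [show fderiv ℝ (fun ζ : ℂ => W k (q + ζ • v)) ζ = _ from d2.fderiv]
    simp only [ContinuousLinearMap.comp_apply, ContinuousLinearMap.coe_restrictScalars',
      ContinuousLinearMap.toSpanSingleton_apply, one_smul]
    rw [ah_db (h1 k _ hζ).1]
    exact mul_le_mul_of_nonneg_left (h1 k _ hζ).2 (norm_nonneg _)
  intro p hp
  have e1 : ∀ᶠ x in 𝓝 p, x ∈ U ∧ ‖w x‖ < ‖w p‖ + 1 := (hU.eventually_mem hp).and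
    ((hc.continuousAt (hU.mem_nhds hp)).norm.eventually (gt_mem_nhds (lt_add_one _)))
  obtain ⟨r, hr, h3⟩ := Metric.eventually_nhds_iff_ball.1 e1
  rw [← mul_div_cancel₀ r two_ne_zero] at h3
  exact (ah_gat (half_pos hr) (fun q v => (hl q v).mono fun ζ hζ => (h3 _ hζ).1)
    fun x hx => (h3 x hx).2.le).differentiableWithinAt

end Vale.Agent.P272
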