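import Vale.Agent.P272.Defs2

/-! P272 AtlA (task). Helper names start with `atla_`.
Plan. For each `x` choose `ρ x > 0` with `closedBall (chart x x) (4 ρ x) ⊆ target`; the open sets `source ∩ chart ⁻¹' ball (chart x x) (ρ x)` cover `X`; finite subcover (`CompactSpace.elim_nhds_subcover`), enumerate (`Finset.equivFin`). `e j` = chart followed by the homeomorphism `y ↦ ρ⁻¹ • (y - c)` (`OpenPartialHomeomorph.transHomeomorph`). Transition maps of the atlas are analytic (`IsManifold`, `contDiffGroupoid`, `StructureGroupoid.compatible`, `contDiffOn_ext_coord_change`). `hyp`: `HolAt` at `z` gives `MDifferentiableAt` (`mdifferentiableAt_iff_target_of_mem_source` or composition with the `MDifferentiableAt` inverse chart). -/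

open Metric Set Filter Topology Complex

noncomputable section

namespace Vale.Agent.P272

variable {n : ℕ} {X : Type} [TopologicalSpace X] {A : Atl n X}

open scoped Manifold ContDiff

variable [ChartedSpace (E n) X] [IsManifold 𝓘(ℂ, E n) ω X]

/-- The rescaling homeomorphism. -/
def atla_h (c : E n) (r : ℝ) (hr : r ≠ 0) : E n ≃ₜ E n where
  toFun y := r⁻¹ • (y - c)
  invFun y := c + r • y
  left_inv y := by simp [smul_smul, hr]
  right_inv y := by simp [smul_smul, hr]
  continuous_toFun := by fun_prop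
  continuous_invFun := by fun_prop

theorem atla_has {φ : E n → E n} {D : L n} (c c' y : E n) (r r' : ℝ)
    (hφ : HasFDerivAt φ D (c' + r' • y)) :
    HasFDerivAt (fun y => r⁻¹ • (φ (c' + r' • y) - c)) (((r' / r : ℝ) : ℂ) • D) y := by
  have h1 : HasFDerivAt (fun y : E n => c' + r' • y) ((r' : ℂ) • ContinuousLinearMap.id ℂ (E n)) y := by
    have := ((hasFDerivAt_id (𝕜 := ℂ) y).const_smul (r' : ℂ)).const_add c'
    refine this.congr_of_eventuallyEq (Eventually.of_forall fun w => ?_)
    simp only [Complex.coe_smul, Pi.smul_apply, id]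
  have h2 := ((hφ.comp y h1).sub_const c).const_smul ((r⁻¹ : ℝ) : ℂ)
  have e : ((r⁻¹ : ℝ) : ℂ) • D.comp ((r' : ℂ) • ContinuousLinearMap.id ℂ (E n)) =
      ((r' / r : ℝ) : ℂ) • D := by
    rw [ContinuousLinearMap.comp_smul, ContinuousLinearMap.comp_id, smul_smul]
    exact congrArg (· • D) (by push_cast; ring)
  rw [e] at h2
  refine h2.congr_of_eventuallyEq (Eventually.of_forall fun w => ?_)
  simp only [Complex.coe_smul, Pi.smul_apply, Function.comp]

theorem jac_diff {x x' p : X} (h : p ∈ (chartAt (E n) x).source)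
    (h' : p ∈ (chartAt (E n) x').source) :
    DifferentiableAt ℂ (chartAt (E n) x ∘ (chartAt (E n) x').symm) (chartAt (E n) x' p) := by
  have h1 : MDifferentiableAt 𝓘(ℂ, E n) 𝓘(ℂ, E n) (chartAt (E n) x) p :=
    mdifferentiableAt_atlas (chart_mem_atlas _ _) h
  have h2 : MDifferentiableAt 𝓘(ℂ, E n) 𝓘(ℂ, E n) (chartAt (E n) x').symm (chartAt (E n) x' p) :=
    mdifferentiableAt_atlas_symm (chart_mem_atlas _ _) ((chartAt (E n) x').map_source h')
  exact (h1.comp_of_eq _ h2 ((chartAt (E n) x').left_inv h')).differentiableAt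

theorem atla_tr {x x' p : X} {r r' : ℝ} {e e' : OpenPartialHomeomorph X (E n)} (hr : r ≠ 0)
    (h : p ∈ (chartAt (E n) x).source) (h' : p ∈ (chartAt (E n) x').source)
    (ha : ∀ q, chartAt (E n) x x + r • e q = chartAt (E n) x q)
    (ha' : chartAt (E n) x' x' + r' • e' p = chartAt (E n) x' p)
    (hs : ∀ y, e'.symm y = (chartAt (E n) x').symm (chartAt (E n) x' x' + r' • y)) :
    HasFDerivAt (e ∘ e'.symm) (((r' / r : ℝ) : ℂ) • jac n X x x' p) (e' p) := by
  have h1 := (jac_diff h h').hasFDerivAt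
  nth_rewrite 2 [← ha'] at h1
  refine (atla_has (chartAt (E n) x x) _ _ r r' h1).congr_of_eventuallyEq
    (Eventually.of_forall fun w => ?_)
  simp only [Function.comp, ← hs]
  rw [← ha (e'.symm w), add_sub_cancel_left, smul_smul, inv_mul_cancel₀ hr, one_smul]

theorem exists_atl (n : ℕ) (X : Type) [TopologicalSpace X] [CompactSpace X] [ChartedSpace (E n) X]
    [IsManifold 𝓘(ℂ, E n) ω X] : ∃ (A : Atl n X) (x : Fin A.N → X) (ρ : Fin A.N → ℝ),
      A.Res x ρ := by
  have h1 : ∀ x : X, ∃ r : ℝ, 0 < r ∧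
      closedBall (chartAt (E n) x x) (4 * r) ⊆ (chartAt (E n) x).target := by
    intro x
    obtain ⟨ε, hε, hb⟩ := nhds_basis_closedBall.mem_iff.1 (chart_target_mem_nhds (E n) x)
    exact ⟨ε / 4, by positivity, by rwa [show 4 * (ε / 4) = ε by ring]⟩
  choose r hr hb using h1
  obtain ⟨t, ht⟩ := CompactSpace.elim_nhds_subcover
    (fun x : X => (chartAt (E n) x).source ∩ chartAt (E n) x ⁻¹' ball (chartAt (E n) x x) (r x))
    fun x => inter_mem (chart_source_mem_nhds _ x)
      (((chartAt (E n) x).continuousAt (mem_chart_source _ x)).preimage_mem_nhds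
        (ball_mem_nhds _ (hr x)))
  let x : Fin t.card → X := fun j => (t.equivFin.symm j : X)
  let e : Fin t.card → OpenPartialHomeomorph X (E n) := fun j =>
    (chartAt (E n) (x j)).transHomeomorph (atla_h (chartAt (E n) (x j) (x j)) (r (x j)) (hr _).ne')
  have e1 : ∀ j p, e j p = (r (x j))⁻¹ • (chartAt (E n) (x j) p - chartAt (E n) (x j) (x j)) :=
    fun j p => rfl
  have e2 : ∀ j p, chartAt (E n) (x j) (x j) + r (x j) • e j p = chartAt (E n) (x j) p := by
    intro j p
    rw [e1, smul_smul, mul_inv_cancel₀ (hr _).ne', one_smul, add_sub_cancel]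
  have e3 : ∀ j y, (e j).symm y =
      (chartAt (E n) (x j)).symm (chartAt (E n) (x j) (x j) + r (x j) • y) := fun j y => rfl
  have e4 : ∀ j, (e j).source = (chartAt (E n) (x j)).source := fun j => rfl
  have e5 : ∀ j y, y ∈ (e j).target ↔
      chartAt (E n) (x j) (x j) + r (x j) • y ∈ (chartAt (E n) (x j)).target := fun j y => Iff.rfl
  refine ⟨⟨t.card, e, fun j y hy => (e5 j y).2 (hb _ ?_), fun p => ?_, fun j k p hj hk => ?_⟩,
    x, fun j => r (x j), ⟨fun j => hr _, e4, e5, e2, e3⟩⟩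
  · rw [mem_closedBall_zero_iff] at hy
    rw [mem_closedBall, dist_eq_norm, add_sub_cancel_left, norm_smul, Real.norm_eq_abs,
      abs_of_pos (hr _), mul_comm]
    exact mul_le_mul_of_nonneg_right hy (hr _).le
  · have hp : p ∈ ⋃ x ∈ t, (chartAt (E n) x).source ∩
        chartAt (E n) x ⁻¹' ball (chartAt (E n) x x) (r x) := by rw [ht]; trivial
    obtain ⟨q, hq, hp1, hp2⟩ := mem_iUnion₂.1 hp
    have hx : x (t.equivFin ⟨q, hq⟩) = q := by simp [x]
    refine ⟨t.equivFin ⟨q, hq⟩, by rw [e4, hx]; exact hp1, ?_⟩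
    rw [e1, hx, norm_smul, norm_inv, Real.norm_eq_abs, abs_of_pos (hr q), inv_mul_lt_iff₀ (hr q),
      mul_one]
    rwa [mem_preimage, mem_ball, dist_eq_norm] at hp2
  · exact (atla_tr (hr _).ne' hj hk (e2 j) (e2 k p) (e3 k)).differentiableAt

theorem Atl.Res.tr {x : Fin A.N → X} {ρ : Fin A.N → ℝ} (h : A.Res x ρ) {j k : Fin A.N} {p : X}
    (hj : p ∈ (A.e j).source) (hk : p ∈ (A.e k).source) :
    A.tr j k p = ((ρ k / ρ j : ℝ) : ℂ) • jac n X (x j) (x k) p := by
  rw [h.src] at hj hk
  exact (atla_tr (h.pos j).ne' hj hk (h.app j) (h.app k p) (h.symm k)).fderiv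

theorem Atl.Res.hyp {x : Fin A.N → X} {ρ : Fin A.N → ℝ} (h : A.Res x ρ)
    (hy : ∀ f : ℂ → X, MDifferentiable 𝓘(ℂ, ℂ) 𝓘(ℂ, E n) f → ∀ z w, f z = f w) : A.Hyp := by
  intro f hf
  refine hy f fun z => ?_
  obtain ⟨j, hj, -⟩ := A.cov (f z)
  have h1 := (hf z).2 j hj
  rw [h.src] at hj
  have h2 : DifferentiableAt ℂ (chartAt (E n) (x j) ∘ f) z := by
    refine ((h1.const_smul ((ρ j : ℝ) : ℂ)).const_add
      (chartAt (E n) (x j) (x j))).congr_of_eventuallyEq (Eventually.of_forall fun w => ?_)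
    simp only [Complex.coe_smul, Pi.smul_apply, Function.comp, h.app]
  have h3 : MDifferentiableAt 𝓘(ℂ, E n) 𝓘(ℂ, E n) (chartAt (E n) (x j)).symm
      (chartAt (E n) (x j) (f z)) :=
    mdifferentiableAt_atlas_symm (chart_mem_atlas _ _) ((chartAt (E n) (x j)).map_source hj)
  refine (h3.comp_of_eq z h2.mdifferentiableAt rfl).congr_of_eventuallyEq ?_
  filter_upwards [(hf z).1.preimage_mem_nhds ((chartAt (E n) (x j)).open_source.mem_nhds hj)]
    with w hw
  exact ((chartAt (E n) (x j)).left_inv hw).symm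

end Vale.Agent.P272
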