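import Vale.Agent.P272.Defs

/-! P272 Lin (task). Helper names start with `lin_`.
Plan. `qf_cs`: Cauchy-Schwarz for the positive form (discriminant, or `PreInnerProductSpace.Core`). `unit_of_lo`: injective hence bijective in finite dimension (`LinearMap.injective_iff_surjective`, `ContinuousLinearEquiv.ofBijective` / `ContinuousLinearMap.isUnit_iff_bijective`).
`det_le`: matrix of `V` in the standard basis, `Matrix.det_le`, entries bounded by `‖V (eb i)‖`. `log_det`: `det` is differentiable (polynomial; `ContinuousLinearMap.continuous_det`, or expand with `Matrix.det_apply` and bound `|∏ (1 + x) - 1|`); on `‖T - 1‖ ≤ 1 / 2` (compact, units) `log ‖det‖` is `C^1` hence Lipschitz; any proof is fine. `det_star`: `LinearMap.det_adjoint` or `Matrix.det_conjTranspose`. -/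

open Metric Set Filter Topology Complex

noncomputable section

namespace Vale.Agent.P272

variable {n : ℕ}

theorem lin_sym {Γ : L n} (h : IsSelfAdjoint Γ) (a b : E n) :
    inner ℂ (Γ a) b = inner ℂ a (Γ b) := by
  rw [← ContinuousLinearMap.adjoint_inner_right, h.adjoint_eq]

theorem lin_det (V : L n) : V.det = (Matrix.of fun i j => V (eb j) i).det := by
  rw [ContinuousLinearMap.det, ← LinearMap.det_toMatrix (EuclideanSpace.basisFun (Fin n) ℂ).toBasis]
  congr 1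

theorem lin_det_le (V : L n) {x : ℝ} (h : ∀ i j, ‖V (eb j) i‖ ≤ x) :
    ‖V.det‖ ≤ n.factorial * x ^ n := by
  rw [lin_det, Matrix.det_apply']
  refine (norm_sum_le _ _).trans ?_
  have h1 : ∀ σ : Equiv.Perm (Fin n), ‖((Equiv.Perm.sign σ : ℤ) : ℂ) *
      ∏ i, (Matrix.of fun i j => V (eb j) i) (σ i) i‖ ≤ x ^ n := fun σ => by
    have h2 : ‖((Equiv.Perm.sign σ : ℤ) : ℂ)‖ = 1 := by
      rcases Int.units_eq_one_or (Equiv.Perm.sign σ) with e | e <;> simp [e]
    rw [norm_mul, h2, one_mul, norm_prod]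
    refine (Finset.prod_le_prod (fun i _ => norm_nonneg _) (g := fun _ => x)
      fun i _ => h (σ i) i).trans ?_
    simp
  refine (Finset.sum_le_sum fun σ _ => h1 σ).trans ?_
  simp [Fintype.card_perm]

theorem lin_entry (V : L n) (i j : Fin n) : ‖V (eb j) i‖ ≤ ‖V (eb j)‖ :=
  PiLp.norm_apply_le _ i

theorem lin_eb (i : Fin n) : ‖eb i‖ = 1 := by
  simp [eb]

theorem qf_sa {Γ : L n} (h : IsSelfAdjoint Γ) (w : E n) : inner ℂ w (Γ w) = (qf Γ w : ℂ) := by
  refine (Complex.conj_eq_iff_re.1 ?_).symm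
  rw [inner_conj_symm, lin_sym h]

theorem qf_le (Γ : L n) (w : E n) : |qf Γ w| ≤ ‖Γ‖ * ‖w‖ ^ 2 := by
  refine (Complex.abs_re_le_norm _).trans ((norm_inner_le_norm _ _).trans ?_)
  calc ‖w‖ * ‖Γ w‖ ≤ ‖w‖ * (‖Γ‖ * ‖w‖) :=
        mul_le_mul_of_nonneg_left (Γ.le_opNorm w) (norm_nonneg _)
    _ = ‖Γ‖ * ‖w‖ ^ 2 := by ring

theorem qf_sub (Γ Γ' : L n) (w : E n) : qf (Γ - Γ') w = qf Γ w - qf Γ' w := by
  simp only [qf, sub_apply, inner_sub_right, Complex.sub_re]

theorem qf_one (w : E n) : qf 1 w = ‖w‖ ^ 2 := by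
  exact inner_self_eq_norm_sq (𝕜 := ℂ) w

theorem qf_smul (Γ : L n) (c : ℂ) (w : E n) : qf Γ (c • w) = ‖c‖ ^ 2 * qf Γ w := by
  rw [qf, qf, map_smul, inner_smul_left, inner_smul_right, ← mul_assoc, Complex.conj_mul',
    ← Complex.ofReal_pow, Complex.re_ofReal_mul]

theorem qf_conj (Γ V : L n) (w : E n) : qf (star V * Γ * V) w = qf Γ (V w) := by
  rw [qf, qf, ← ContinuousLinearMap.adjoint_inner_right]
  rfl

theorem qf_add {Γ : L n} (h : IsSelfAdjoint Γ) (a b : E n) :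
    qf Γ (a + b) = qf Γ a + 2 * (inner ℂ a (Γ b)).re + qf Γ b := by
  have h1 : (inner ℂ b (Γ a)).re = (inner ℂ a (Γ b)).re := by
    rw [← lin_sym h, ← inner_conj_symm, Complex.conj_re]
  simp only [qf, map_add, inner_add_left, inner_add_right, Complex.add_re, h1]
  ring

theorem qf_cs {Γ : L n} (h : IsSelfAdjoint Γ) (h0 : ∀ w, 0 ≤ qf Γ w) (a b : E n) :
    ‖inner ℂ a (Γ b)‖ ^ 2 ≤ qf Γ a * qf Γ b := by
  set z : ℂ := inner ℂ a (Γ b) with hz
  have h1 : ∀ t : ℝ, 0 ≤ (‖z‖ ^ 2 * qf Γ a) * (t * t) + (2 * ‖z‖ ^ 2) * t + qf Γ b := fun t => by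
    have h2 := h0 (((t : ℂ) * z) • a + b)
    rw [qf_add h, qf_smul, inner_smul_left, ← hz, map_mul, Complex.conj_ofReal, mul_assoc (t : ℂ),
      Complex.conj_mul', ← Complex.ofReal_pow, ← Complex.ofReal_mul, Complex.ofReal_re, norm_mul,
      Complex.norm_real, mul_pow, Real.norm_eq_abs, sq_abs] at h2
    linarith
  have h3 := discrim_le_zero h1
  rw [discrim] at h3
  rcases (norm_nonneg z).eq_or_lt with e | e
  · rw [← e]
    simpa using mul_nonneg (h0 a) (h0 b)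
  · have h4 : 0 < ‖z‖ ^ 2 := by positivity
    refine le_of_mul_le_mul_left ?_ h4
    nlinarith

theorem unit_of_lo {V : L n} {c : ℝ} (hc : 0 ≤ c) (h : ∀ w, ‖w‖ ≤ c * ‖V w‖) :
    IsUnit V ∧ ‖Ring.inverse V‖ ≤ c := by
  have hi : Function.Injective V := by
    refine (injective_iff_map_eq_zero V).2 fun w hw => ?_
    have := h w
    rw [hw, norm_zero, mul_zero] at this
    exact norm_le_zero_iff.1 this
  have hu : IsUnit V := ContinuousLinearMap.isUnit_iff_bijective.2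
    ⟨hi, (LinearMap.injective_iff_surjective (f := (V : E n →ₗ[ℂ] E n))).1 hi⟩
  refine ⟨hu, ContinuousLinearMap.opNorm_le_bound _ hc fun w => ?_⟩
  have h1 : V (Ring.inverse V w) = w := by
    rw [← mul_apply_eq_comp, Ring.mul_inverse_cancel _ hu]
    rfl
  have h2 := h (Ring.inverse V w)
  rwa [h1] at h2

theorem det_ne {V : L n} (h : IsUnit V) : V.det ≠ 0 := by
  obtain ⟨u, rfl⟩ := h
  intro h0
  have h1 : LinearMap.det (((u : L n) * (u⁻¹ : (L n)ˣ) : L n) : E n →ₗ[ℂ] E n) = 1 := by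
    rw [u.mul_inv]
    exact map_one _
  have h2 : LinearMap.det (((u : L n) * (u⁻¹ : (L n)ˣ) : L n) : E n →ₗ[ℂ] E n) =
      (u : L n).det * ((u⁻¹ : (L n)ˣ) : L n).det := map_mul LinearMap.det _ _
  rw [h2, h0, zero_mul] at h1
  exact zero_ne_one h1

theorem det_mul' (S T : L n) : (S * T).det = S.det * T.det := by
  exact map_mul LinearMap.det (S : E n →ₗ[ℂ] E n) (T : E n →ₗ[ℂ] E n)

theorem norm_det_star (T : L n) : ‖(star T).det‖ = ‖T.det‖ := by
  have h1 : (Matrix.of fun i j => (star T) (eb j) i) =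
      (Matrix.of fun i j => T (eb j) i).conjTranspose := by
    ext i j
    have h2 : inner ℂ (eb i) ((star T) (eb j)) = inner ℂ (T (eb i)) (eb j) :=
      ContinuousLinearMap.adjoint_inner_right T (eb i) (eb j)
    rw [eb, EuclideanSpace.inner_single_left, eb, EuclideanSpace.inner_single_right] at h2
    simpa [eb] using h2
  rw [lin_det, lin_det, h1, Matrix.det_conjTranspose, norm_star]

theorem det_le (V : L n) :
    ‖V.det‖ ^ 2 ≤ (n.factorial : ℝ) ^ 2 * (∑ i, ‖V (eb i)‖ ^ 2) ^ n := by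
  have h0 : 0 ≤ ∑ i, ‖V (eb i)‖ ^ 2 := Finset.sum_nonneg fun i _ => sq_nonneg _
  have h1 := lin_det_le V (x := √(∑ i, ‖V (eb i)‖ ^ 2)) fun i j => (lin_entry V i j).trans
    (Real.le_sqrt_of_sq_le (Finset.single_le_sum (f := fun i => ‖V (eb i)‖ ^ 2)
      (fun i _ => sq_nonneg _) (Finset.mem_univ j)))
  refine (pow_le_pow_left₀ (norm_nonneg _) h1 2).trans_eq ?_
  rw [mul_pow, ← pow_mul, mul_comm n 2, pow_mul, Real.sq_sqrt h0]

theorem det_le_norm (V : L n) : ‖V.det‖ ≤ n.factorial * ‖V‖ ^ n := by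
  refine lin_det_le V fun i j => (lin_entry V i j).trans ?_
  have := V.le_opNorm (eb j)
  rwa [lin_eb, mul_one] at this

theorem analyticAt_det (T : L n) : AnalyticAt ℂ (fun S : L n => S.det) T := by
  have e : (fun S : L n => S.det) = fun S : L n => ∑ σ : Equiv.Perm (Fin n),
      ((Equiv.Perm.sign σ : ℤ) : ℂ) * ∏ i, S (eb i) (σ i) := funext fun S => by
    rw [lin_det, Matrix.det_apply']
    rfl
  rw [e]
  refine Finset.analyticAt_fun_sum _ fun σ _ => analyticAt_const.mul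
    (Finset.analyticAt_fun_prod _ fun i _ => ?_)
  exact ((EuclideanSpace.proj (σ i) : E n →L[ℂ] ℂ).comp
    (ContinuousLinearMap.apply ℂ (E n) (eb i))).analyticAt T

theorem log_det (n : ℕ) : ∃ C : ℝ, 1 ≤ C ∧ ∀ T : L n, ‖T - 1‖ ≤ 1 / 2 →
    ‖T.det - 1‖ ≤ C * ‖T - 1‖ ∧ |Real.log ‖T.det‖| ≤ C * ‖T - 1‖ := by
  have : ProperSpace (L n) := FiniteDimensional.proper ℂ (L n)
  have hc : Continuous (fderiv ℂ fun S : L n => S.det) :=
    continuous_iff_continuousAt.2 fun T => (analyticAt_det T).fderiv.continuousAt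
  obtain ⟨C₁, hC⟩ := (isCompact_closedBall (1 : L n) (1 / 2)).exists_bound_of_continuousOn
    (f := fderiv ℂ fun S : L n => S.det) hc.continuousOn
  have h1m : (1 : L n) ∈ closedBall (1 : L n) (1 / 2) := mem_closedBall_self (by norm_num)
  have hC0 : 0 ≤ C₁ := (norm_nonneg _).trans (hC 1 h1m)
  have hB : (1 : ℝ) ≤ n.factorial * 2 ^ n :=
    one_le_mul_of_one_le_of_one_le (by exact_mod_cast n.factorial_pos) (one_le_pow₀ one_le_two)
  set B : ℝ := n.factorial * 2 ^ n with hBdef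
  refine ⟨B * (C₁ + 1), one_le_mul_of_one_le_of_one_le hB (by linarith), fun T hT => ?_⟩
  have h0 := norm_nonneg (T - 1)
  have h1 : ‖T.det - 1‖ ≤ C₁ * ‖T - 1‖ := by
    have h2 := (convex_closedBall (1 : L n) (1 / 2)).norm_image_sub_le_of_norm_fderiv_le
      (f := fun S : L n => S.det) (fun S _ => (analyticAt_det S).differentiableAt) hC h1m
      (mem_closedBall_iff_norm.2 hT)
    have h3 : (1 : L n).det = 1 := map_one LinearMap.det
    simpa only [h3] using h2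
  obtain ⟨hu, hi⟩ := unit_of_lo (V := T) (c := 2) zero_le_two fun w => by
    have h2 : ‖(T - 1) w‖ ≤ 1 / 2 * ‖w‖ :=
      ((T - 1).le_opNorm w).trans (mul_le_mul_of_nonneg_right hT (norm_nonneg _))
    have h3 : w = T w - (T - 1) w := by simp
    have h4 := norm_sub_le (T w) ((T - 1) w)
    rw [← h3] at h4
    linarith
  have h5 : 1 ≤ ‖T.det‖ * B := by
    have h6 := det_mul' T (Ring.inverse T)
    have h3 : (1 : L n).det = 1 := map_one LinearMap.det
    rw [Ring.mul_inverse_cancel _ hu, h3] at h6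
    have h7 : ‖(Ring.inverse T).det‖ ≤ B := (det_le_norm _).trans
      (mul_le_mul_of_nonneg_left (pow_le_pow_left₀ (norm_nonneg _) hi n) (Nat.cast_nonneg _))
    calc (1 : ℝ) = ‖T.det‖ * ‖(Ring.inverse T).det‖ := by rw [← norm_mul, ← h6, norm_one]
      _ ≤ ‖T.det‖ * B := mul_le_mul_of_nonneg_left h7 (norm_nonneg _)
  have hx : 0 < ‖T.det‖ := norm_pos_iff.2 (det_ne hu)
  have h8 : |‖T.det‖ - 1| ≤ ‖T.det - 1‖ := by
    have := abs_norm_sub_norm_le T.det 1
    rwa [norm_one] at this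
  have h9 : C₁ * ‖T - 1‖ ≤ (C₁ + 1) * ‖T - 1‖ := by nlinarith
  have h10 : 0 ≤ (C₁ + 1) * ‖T - 1‖ := by positivity
  have h11 : (C₁ + 1) * ‖T - 1‖ ≤ B * ((C₁ + 1) * ‖T - 1‖) := le_mul_of_one_le_left h10 hB
  rw [mul_assoc]
  refine ⟨by linarith, abs_le.2 ⟨?_, ?_⟩⟩
  · have h12 := Real.one_sub_inv_le_log_of_pos hx
    have h13 : ‖T.det‖⁻¹ ≤ B := by
      rw [inv_le_iff_one_le_mul₀' hx]
      exact h5
    have h14 : ‖T.det‖⁻¹ - 1 = ‖T.det‖⁻¹ * (1 - ‖T.det‖) := by
      field_simp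
    have h15 : ‖T.det‖⁻¹ * (1 - ‖T.det‖) ≤ B * ((C₁ + 1) * ‖T - 1‖) :=
      (mul_le_mul_of_nonneg_left (show 1 - ‖T.det‖ ≤ (C₁ + 1) * ‖T - 1‖ by
        linarith [(abs_le.1 h8).1]) (inv_nonneg.2 hx.le)).trans
        (mul_le_mul_of_nonneg_right h13 h10)
    linarith
  · have h12 := Real.log_le_sub_one_of_pos hx
    linarith [(abs_le.1 h8).2]

end Vale.Agent.P272
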