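import Vale.Agent.P272.Defs2
import Vale.Agent.P272.Lin

/-! P272 AtlB (task). Helper names start with `atlb_`.
Plan. On the compact convex ball `closedBall 0 4 ⊆ target` (open) the derivatives of order `≤ 3` are bounded; mean value inequality (`Convex.norm_image_sub_le_of_norm_fderiv_le`, applied repeatedly) gives `taylor2`, `taylor3`. `mk_met`: `lo` by compactness of ball times sphere; `Γ⁻¹` bounded (`unit_of_lo`); with `D = fderiv ℝ Γ y` (self-adjoint values), `b h = (D h - I • D (I • h)) / 2` is complex linear, `D h = b h + star (b h)`, `a h = Γ⁻¹ * b h`, and `star (1 + a h) Γ (1 + a h) = Γ + D h + star (a h) Γ (a h)` (`qf_conj`). `ld`: `log ‖det Γ‖` is `C^1` near the ball (`analyticAt_det`, `det_ne`; use `log ‖d‖ = log (‖d‖^2) / 2`). Finite maximum over `j`. -/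

open Metric Set Filter Topology Complex

noncomputable section

namespace Vale.Agent.P272

variable {n : ℕ} {X : Type} [TopologicalSpace X] {A : Atl n X}

open scoped ContDiff

theorem atlb_lip {V : Type} [NormedAddCommGroup V] [NormedSpace ℝ V] {u : E n → V} {U : Set (E n)}
    (hU : IsOpen U) (h4 : closedBall 0 4 ⊆ U) (hu : ContDiffOn ℝ ∞ u U) : ∃ C : ℝ, 1 ≤ C ∧
      ∀ y ∈ closedBall (0 : E n) 4, ‖u y‖ ≤ C ∧ ‖fderiv ℝ u y‖ ≤ C ∧
        ∀ y' ∈ closedBall (0 : E n) 4, ‖u y' - u y‖ ≤ C * ‖y' - y‖ := by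
  obtain ⟨a, ha⟩ := (isCompact_closedBall (0 : E n) 4).exists_bound_of_continuousOn
    (hu.continuousOn.mono h4)
  obtain ⟨b, hb⟩ := (isCompact_closedBall (0 : E n) 4).exists_bound_of_continuousOn
    ((hu.continuousOn_fderiv_of_isOpen hU (by simp)).mono h4)
  have hb' : ∀ y ∈ closedBall (0 : E n) 4, ‖fderiv ℝ u y‖ ≤ max 1 (max a b) := fun y hy =>
    (hb y hy).trans ((le_max_right _ _).trans (le_max_right _ _))
  exact ⟨max 1 (max a b), le_max_left _ _, fun y hy =>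
    ⟨(ha y hy).trans ((le_max_left _ _).trans (le_max_right _ _)), hb' y hy, fun y' hy' =>
      (convex_closedBall 0 4).norm_image_sub_le_of_norm_fderiv_le (fun x hx =>
        (hu.contDiffAt (hU.mem_nhds (h4 hx))).differentiableAt (by simp)) hb' hy hy'⟩⟩

theorem taylor2 {V : Type} [NormedAddCommGroup V] [NormedSpace ℝ V] {u : E n → V} {U : Set (E n)}
    (hU : IsOpen U) (h4 : closedBall 0 4 ⊆ U) (hu : ContDiffOn ℝ ∞ u U) : ∃ C : ℝ, 1 ≤ C ∧
      ∀ y, ‖y‖ ≤ 4 → ‖u y‖ ≤ C ∧ ‖fderiv ℝ u y‖ ≤ C ∧ ∀ h, ‖y + h‖ ≤ 4 →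
        ‖u (y + h) - u y‖ ≤ C * ‖h‖ ∧ ‖u (y + h) - u y - fderiv ℝ u y h‖ ≤ C * ‖h‖ ^ 2 := by
  obtain ⟨a, ha1, ha⟩ := atlb_lip hU h4 hu
  obtain ⟨b, -, hb⟩ := atlb_lip hU h4 (hu.fderiv_of_isOpen (m := ∞) hU (by simp))
  refine ⟨max a b, ha1.trans (le_max_left _ _), fun y hy => ?_⟩
  have hy' := mem_closedBall_zero_iff.2 hy
  obtain ⟨h1, h2, h3⟩ := ha y hy'
  refine ⟨h1.trans (le_max_left _ _), h2.trans (le_max_left _ _), fun h hh => ⟨?_, ?_⟩⟩
  · have := h3 _ (mem_closedBall_zero_iff.2 hh)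
    rw [add_sub_cancel_left] at this
    exact this.trans (mul_le_mul_of_nonneg_right (le_max_left _ _) (norm_nonneg _))
  · have h5 := ((convex_closedBall (0 : E n) 4).inter
      (convex_closedBall y ‖h‖)).norm_image_sub_le_of_norm_fderiv_le' (𝕜 := ℝ) (f := u)
      (C := max a b * ‖h‖) (φ := fderiv ℝ u y) (fun x hx =>
        (hu.contDiffAt (hU.mem_nhds (h4 hx.1))).differentiableAt (by simp))
      (fun x hx => ((hb y hy').2.2 x hx.1).trans (mul_le_mul (le_max_right _ _)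
        (mem_closedBall_iff_norm.1 hx.2) (norm_nonneg _) (by positivity)))
      ⟨hy', mem_closedBall_self (norm_nonneg _)⟩
      ⟨mem_closedBall_zero_iff.2 hh, mem_closedBall_iff_norm.2 (by rw [add_sub_cancel_left])⟩
    rw [add_sub_cancel_left] at h5
    exact h5.trans_eq (by ring)

theorem atlb_lo {G : E n → L n} {K : Set (E n)} (hK : IsCompact K) (hG : ContinuousOn G K)
    (pos : ∀ y ∈ K, ∀ a, a ≠ 0 → 0 < qf (G y) a) :
    ∃ c : ℝ, 0 < c ∧ ∀ y ∈ K, ∀ w, ‖w‖ ^ 2 ≤ c * qf (G y) w := by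
  have hc : ContinuousOn (fun p : E n × E n => qf (G p.1) p.2) (K ×ˢ sphere 0 1) :=
    continuous_re.comp_continuousOn (ContinuousOn.inner (𝕜 := ℂ) continuousOn_snd
      ((hG.comp continuousOn_fst fun _ hp => (mem_prod.1 hp).1).clm_apply continuousOn_snd))
  obtain ⟨a, ha, h⟩ := (hK.prod (isCompact_sphere (0 : E n) 1)).exists_forall_le' hc (a := 0)
    fun p hp => pos _ hp.1 _ (ne_zero_of_mem_unit_sphere ⟨_, hp.2⟩)
  refine ⟨a⁻¹, inv_pos.2 ha, fun y hy w => ?_⟩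
  rcases eq_or_ne w 0 with rfl | hw
  · simp [qf]
  have hn : (‖w‖ : ℂ) ≠ 0 := ofReal_ne_zero.2 (norm_ne_zero_iff.2 hw)
  have h1 := h (y, (‖w‖ : ℂ)⁻¹ • w) ⟨hy, by
    rw [mem_sphere_zero_iff_norm, norm_smul, norm_inv, norm_real, norm_norm,
      inv_mul_cancel₀ (norm_ne_zero_iff.2 hw)]⟩
  have h2 := qf_smul (G y) ‖w‖ ((‖w‖ : ℂ)⁻¹ • w)
  rw [smul_inv_smul₀ hn, norm_real, norm_norm] at h2
  rw [h2, le_inv_mul_iff₀ ha, mul_comm]
  exact mul_le_mul_of_nonneg_left h1 (sq_nonneg _)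

theorem atlb_unit {T : L n} {c : ℝ} (hc : 0 < c) (h : ∀ w, ‖w‖ ^ 2 ≤ c * qf T w) :
    IsUnit T ∧ ‖Ring.inverse T‖ ≤ c := by
  refine unit_of_lo hc.le fun w => ?_
  rcases eq_or_ne w 0 with rfl | hw
  · simp
  have h1 : qf T w ≤ ‖w‖ * ‖T w‖ := (re_le_norm _).trans (norm_inner_le_norm _ _)
  have h2 := (h w).trans (mul_le_mul_of_nonneg_left h1 hc.le)
  rw [sq, mul_left_comm] at h2
  exact le_of_mul_le_mul_left h2 (norm_pos_iff.2 hw)

theorem atlb_lin (D : E n →L[ℝ] L n) : ∃ b : E n →L[ℂ] L n, (∀ h, ‖b h‖ ≤ ‖D‖ * ‖h‖) ∧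
    ∀ h, b h = (1 / 2 : ℂ) • (D h - I • D (I • h)) := by
  have hb : ∀ h, ‖(1 / 2 : ℂ) • (D h - I • D (I • h))‖ ≤ ‖D‖ * ‖h‖ := fun h => by
    have h1 := D.le_opNorm h
    have h2 := D.le_opNorm (I • h)
    have h3 := norm_sub_le (D h) (I • D (I • h))
    rw [norm_smul, norm_I, one_mul] at h2 h3
    rw [norm_smul, norm_div, norm_one, Complex.norm_two]
    linarith
  refine ⟨LinearMap.mkContinuous ⟨⟨fun h => (1 / 2 : ℂ) • (D h - I • D (I • h)), fun h h' => ?_⟩,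
    fun c h => ?_⟩ _ hb, hb, fun _ => rfl⟩
  · simp only [smul_add, map_add, smul_sub]
    abel
  · have e : ∀ v : E n, c • v = c.re • v + c.im • I • v := fun v => by
      rw [← coe_smul, ← coe_smul, smul_smul, ← add_smul, re_add_im]
    have e2 : I • I • h = -h := by rw [smul_smul, I_mul_I, neg_one_smul]
    show (1 / 2 : ℂ) • (D (c • h) - I • D (I • c • h)) =
      (RingHom.id ℂ) c • (1 / 2 : ℂ) • (D h - I • D (I • h))
    rw [smul_comm I c h, e h, e (I • h), e2, map_add, map_add, D.map_smul, D.map_smul, D.map_smul,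
      D.map_smul, map_neg, ← coe_smul, ← coe_smul, ← coe_smul, ← coe_smul, RingHom.id_apply]
    conv_rhs => rw [← re_add_im c]
    match_scalars
    · ring
    · linear_combination (1 / 2 : ℂ) * c.im * I_mul_I

theorem atlb_nf {G : E n → L n} {U : Set (E n)} (hU : IsOpen U) (sm : ContDiffOn ℝ ∞ G U)
    (sa : ∀ y ∈ U, IsSelfAdjoint (G y)) {y : E n} (hy : y ∈ U) {c C : ℝ} (hc : 0 < c)
    (lo : ∀ w, ‖w‖ ^ 2 ≤ c * qf (G y) w) (h1 : ‖G y‖ ≤ C) (h2 : ‖fderiv ℝ G y‖ ≤ C) :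
    ∃ a : E n →L[ℂ] L n, ‖a‖ ≤ c * C ∧ ∀ h w,
      ‖G (y + h) - G y - fderiv ℝ G y h‖ ≤ C * ‖h‖ ^ 2 →
      |qf (G (y + h)) w - qf (G y) ((1 + a h) w)| ≤
        (C + C * (c * C) ^ 2) * ‖h‖ ^ 2 * ‖w‖ ^ 2 := by
  have hC : 0 ≤ C := (norm_nonneg _).trans h1
  obtain ⟨hu, hi⟩ := atlb_unit hc lo
  obtain ⟨b, hb, hb'⟩ := atlb_lin (fderiv ℝ G y)
  have hd := ((sm.contDiffAt (hU.mem_nhds hy)).differentiableAt (by simp)).hasFDerivAt
  have hs : ∀ h, IsSelfAdjoint (fderiv ℝ G y h) := fun h => by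
    have e : G =ᶠ[𝓝 y] fun x => star (G x) :=
      (Filter.eventually_of_mem (hU.mem_nhds hy) fun x hx => (sa x hx).star_eq.symm)
    exact congrArg (fun T : E n →L[ℝ] L n => T h) ((hd.star.congr_of_eventuallyEq e).unique hd)
  set a := (ContinuousLinearMap.mul ℂ (L n) (Ring.inverse (G y))).comp b with ha
  have ha1 : ∀ h, ‖a h‖ ≤ c * C * ‖h‖ := fun h => by
    calc ‖a h‖ ≤ ‖Ring.inverse (G y)‖ * ‖b h‖ := norm_mul_le _ _
      _ ≤ c * (C * ‖h‖) := mul_le_mul hi ((hb h).trans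
          (mul_le_mul_of_nonneg_right h2 (norm_nonneg _))) (norm_nonneg _) hc.le
      _ = _ := (mul_assoc _ _ _).symm
  refine ⟨a, a.opNorm_le_bound (by positivity) ha1, fun h w h3 => ?_⟩
  have e1 : G y (a h w) = b h w :=
    congrArg (fun T : L n => T w) (Ring.mul_inverse_cancel_left (G y) (b h) hu)
  have e2 : 2 * (inner ℂ w (b h w)).re = qf (fderiv ℝ G y h) w := by
    rw [hb', ContinuousLinearMap.smul_apply, ContinuousLinearMap.sub_apply,
      ContinuousLinearMap.smul_apply, inner_smul_right, inner_sub_right, inner_smul_right,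
      qf_sa (hs _), qf_sa (hs _)]
    simp
  have e3 : qf (G (y + h)) w - qf (G y) ((1 + a h) w) =
      qf (G (y + h) - G y - fderiv ℝ G y h) w - qf (G y) (a h w) := by
    rw [ContinuousLinearMap.add_apply, ContinuousLinearMap.one_apply, qf_add (sa y hy), e1, e2,
      qf_sub, qf_sub]
    ring
  have h4 := (qf_le _ w).trans (mul_le_mul_of_nonneg_right h3 (sq_nonneg _))
  have h5 : |qf (G y) (a h w)| ≤ C * (c * C * ‖h‖ * ‖w‖) ^ 2 :=
    (qf_le _ _).trans (mul_le_mul h1 (pow_le_pow_left₀ (norm_nonneg _)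
      ((a h).le_of_opNorm_le (ha1 h) w) 2) (sq_nonneg _) hC)
  rw [e3]
  exact (abs_sub _ _).trans ((add_le_add h4 h5).trans_eq (by ring))

theorem atlb_one {G : E n → L n} {U : Set (E n)} (hU : IsOpen U) (h4 : closedBall 0 4 ⊆ U)
    (sm : ContDiffOn ℝ ∞ G U) (sa : ∀ y ∈ U, IsSelfAdjoint (G y))
    (pos : ∀ y ∈ U, ∀ a, a ≠ 0 → 0 < qf (G y) a) : ∀ᶠ C : ℝ in atTop, ∀ y, ‖y‖ ≤ 4 →
      (∀ w, ‖w‖ ^ 2 ≤ C * qf (G y) w) ∧ ‖G y‖ ≤ C ∧
      (∀ y', ‖y'‖ ≤ 4 → ‖G y - G y'‖ ≤ C * ‖y - y'‖) ∧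
      (∃ a : E n →L[ℂ] L n, ‖a‖ ≤ C ∧ ∀ h w, ‖y + h‖ ≤ 4 →
        |qf (G (y + h)) w - qf (G y) ((1 + a h) w)| ≤ C * ‖h‖ ^ 2 * ‖w‖ ^ 2) ∧
      ∀ y', ‖y'‖ ≤ 4 → |Real.log ‖(G y).det‖ - Real.log ‖(G y').det‖| ≤ C * ‖y - y'‖ := by
  obtain ⟨c, hc, lo⟩ := atlb_lo (isCompact_closedBall (0 : E n) 4) (sm.continuousOn.mono h4)
    fun y hy => pos y (h4 hy)
  obtain ⟨B, hB, hG⟩ := taylor2 hU h4 sm
  have hdet : ContDiffOn ℝ ∞ (fun y => Real.log ‖(G y).det‖) U := by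
    have h0 : ∀ y ∈ U, (G y).det ≠ 0 := fun y hy => by
      obtain ⟨c', hc', h⟩ := atlb_lo isCompact_singleton (continuousOn_singleton G y)
        fun x hx => pos x (by rw [mem_singleton_iff.1 hx]; exact hy)
      exact det_ne (atlb_unit hc' (h y rfl)).1
    have h1 : ContDiffOn ℝ ∞ (fun y => (G y).det) U := fun y hy =>
      ((analyticAt_det (G y)).contDiffAt.restrict_scalars ℝ).comp_contDiffWithinAt y (sm y hy)
    exact (h1.norm ℂ h0).log fun y hy => norm_ne_zero_iff.2 (h0 y hy)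
  obtain ⟨B', -, hL⟩ := taylor2 hU h4 hdet
  filter_upwards [eventually_ge_atTop c, eventually_ge_atTop B, eventually_ge_atTop B',
    eventually_ge_atTop (c * B), eventually_ge_atTop (B + B * (c * B) ^ 2)]
    with C a1 a2 a3 a4 a5 y hy
  have hy' := mem_closedBall_zero_iff.2 hy
  obtain ⟨b1, b2, b3⟩ := hG y hy
  refine ⟨fun w => (lo y hy' w).trans (mul_le_mul_of_nonneg_right a1 ?_), b1.trans a2,
    fun y' h' => ?_, ?_, fun y' h' => ?_⟩
  · exact nonneg_of_mul_nonneg_right ((sq_nonneg _).trans (lo y hy' w)) hc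
  · have := ((hG y' h').2.2 (y - y') (by rwa [add_sub_cancel])).1
    rw [add_sub_cancel] at this
    exact this.trans (mul_le_mul_of_nonneg_right a2 (norm_nonneg _))
  · obtain ⟨a, h1, h2⟩ := atlb_nf hU sm sa (h4 hy') hc (lo y hy') b1 b2
    exact ⟨a, h1.trans a4, fun h w hh => (h2 h w (b3 h hh).2).trans (by gcongr)⟩
  · have := ((hL y' h').2.2 (y - y') (by rwa [add_sub_cancel])).1
    rw [add_sub_cancel] at this
    exact this.trans (mul_le_mul_of_nonneg_right a3 (norm_nonneg _))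

theorem mk_met (A : Atl n X) (Γ : Fin A.N → E n → L n)
    (sm : ∀ j, ContDiffOn ℝ ∞ (Γ j) (A.e j).target)
    (sa : ∀ j, ∀ y ∈ (A.e j).target, IsSelfAdjoint (Γ j y))
    (pos : ∀ j, ∀ y ∈ (A.e j).target, ∀ a, a ≠ 0 → 0 < qf (Γ j y) a)
    (cmp : ∀ j k x, x ∈ (A.e j).source → x ∈ (A.e k).source →
      Γ k (A.e k x) = star (A.tr j k x) * Γ j (A.e j x) * A.tr j k x) :
    ∃ g : Met A, g.Γ = Γ := by
  obtain ⟨C, h1, h⟩ := ((eventually_ge_atTop (1 : ℝ)).and (eventually_all.2 fun j =>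
    atlb_one (A.e j).open_target (A.tgt j) (sm j) (sa j) (pos j))).exists
  exact ⟨⟨Γ, C, h1, fun j y hy => sa j y (A.tgt j (mem_closedBall_zero_iff.2 hy)),
    fun j y w hy => (h j y hy).1 w, fun j y hy => (h j y hy).2.1,
    fun j y y' hy => (h j y hy).2.2.1 y', fun j y hy => (h j y hy).2.2.2.1,
    fun j y y' hy => (h j y hy).2.2.2.2 y', fun j k x hj hk => cmp j k x hj.1 hk.1⟩, rfl⟩

end Vale.Agent.P272
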