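import Vale.Agent.P272.Defs2

/-! P272 BasA0 (task; part of BasA). Helper names start with `basa0_`.
Plan. Near `p`, `e j ∘ F = (e j ∘ (e k).symm) ∘ (e k ∘ F)` (`left_inv`, open source); chain rule. `P278.osgood_at` gives analyticity; `fr j F z' = (fderiv (e j ∘ F) (z', 0)).comp (inr ..)` near `z`, `AnalyticAt.fderiv`. -/

open Metric Set Filter Topology Complex

noncomputable section

namespace Vale.Agent.P272

variable {n : ℕ} {X : Type} [TopologicalSpace X] {A : Atl n X}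

variable {B : Type} [NormedAddCommGroup B] [NormedSpace ℂ B]

theorem Atl.ch_in (x : X) : x ∈ (A.e (A.ch x)).source ∧ ‖A.e (A.ch x) x‖ < 1 := by
  exact (A.cov x).choose_spec

theorem Atl.in_ch (x : X) {a : ℝ} (h : 1 ≤ a) : A.In (A.ch x) a x := by
  exact ⟨(Atl.ch_in x).1, (Atl.ch_in x).2.le.trans h⟩

theorem Atl.In.mono {j : Fin A.N} {a b : ℝ} {x : X} (h : A.In j a x) (hab : a ≤ b) :
    A.In j b x := by
  exact ⟨h.1, h.2.trans hab⟩

theorem Atl.holAt_of_chart {F : B → X} {p : B} {k : Fin A.N}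
    (h : ∀ᶠ q in 𝓝 p, F q ∈ (A.e k).source) (hd : DifferentiableAt ℂ (A.e k ∘ F) p) :
    A.HolAt F p := by
  have hp : F p ∈ (A.e k).source := h.self_of_nhds
  have h1 : F =ᶠ[𝓝 p] (A.e k).symm ∘ (A.e k ∘ F) :=
    h.mono fun q hq => ((A.e k).left_inv hq).symm
  refine ⟨?_, fun j hj => ?_⟩
  · have h2 : ContinuousAt (A.e k).symm ((A.e k ∘ F) p) :=
      (A.e k).continuousAt_symm ((A.e k).map_source hp)
    exact (h2.comp hd.continuousAt).congr h1.symm
  · have h2 : A.e j ∘ F =ᶠ[𝓝 p] (A.e j ∘ (A.e k).symm) ∘ (A.e k ∘ F) :=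
      h1.mono fun q hq => congrArg (A.e j) hq
    have h3 : DifferentiableAt ℂ (A.e j ∘ (A.e k).symm) ((A.e k ∘ F) p) := A.hol j k _ hj hp
    exact (h3.comp p hd).congr_of_eventuallyEq h2

theorem Atl.holAt_symm {φ : B → E n} {p : B} {k : Fin A.N} (h : φ p ∈ (A.e k).target)
    (hd : DifferentiableAt ℂ φ p) : A.HolAt (fun q => (A.e k).symm (φ q)) p := by
  have h1 : ∀ᶠ q in 𝓝 p, φ q ∈ (A.e k).target :=
    hd.continuousAt.preimage_mem_nhds ((A.e k).open_target.mem_nhds h)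
  refine Atl.holAt_of_chart (k := k) (h1.mono fun q hq => (A.e k).map_target hq) ?_
  exact hd.congr_of_eventuallyEq (h1.mono fun q hq => (A.e k).right_inv hq)

theorem Atl.HolAt.comp {B' : Type} [NormedAddCommGroup B'] [NormedSpace ℂ B'] {F : B → X}
    {φ : B' → B} {p : B'} (h : A.HolAt F (φ p)) (hφ : DifferentiableAt ℂ φ p) :
    A.HolAt (fun q => F (φ q)) p := by
  exact ⟨ContinuousAt.comp (g := F) h.1 hφ.continuousAt,
    fun j hj => DifferentiableAt.comp (g := A.e j ∘ F) p (h.2 j hj) hφ⟩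

theorem Atl.Hol.comp {B' : Type} [NormedAddCommGroup B'] [NormedSpace ℂ B'] {F : B → X}
    {φ : B' → B} {p : B'} (h : A.Hol F (φ p)) (hφ : ∀ᶠ q in 𝓝 p, DifferentiableAt ℂ φ q) :
    A.Hol (fun q => F (φ q)) p := by
  have h1 : ∀ᶠ q in 𝓝 p, A.HolAt F (φ q) :=
    hφ.self_of_nhds.continuousAt.tendsto.eventually h
  filter_upwards [h1, hφ] with q h2 h3
  exact h2.comp h3

theorem Atl.Hol.holAt {F : B → X} {p : B} (h : A.Hol F p) : A.HolAt F p := by
  exact Filter.Eventually.self_of_nhds h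

theorem Atl.Hol.analyticAt [FiniteDimensional ℂ B] {F : B → X} {p : B} (h : A.Hol F p)
    {j : Fin A.N} (hj : F p ∈ (A.e j).source) : AnalyticAt ℂ (A.e j ∘ F) p := by
  have h1 : ∀ᶠ q in 𝓝 p, F q ∈ (A.e j).source :=
    h.holAt.1.preimage_mem_nhds ((A.e j).open_source.mem_nhds hj)
  have h2 : ∀ᶠ q in 𝓝 p, A.HolAt F q := h
  refine P278.osgood_at ?_
  filter_upwards [h1, h2] with q h3 h4
  exact h4.2 j h3

theorem Atl.Hol.ctr {F : ℂ × E n → X} {z : ℂ} (h : A.Hol F (z, 0)) : A.Hol (ctr F) z := by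
  exact Atl.Hol.comp (φ := fun w : ℂ => ((w, 0) : ℂ × E n)) h
    (Eventually.of_forall fun q => differentiableAt_id.prodMk (differentiableAt_const _))

end Vale.Agent.P272
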