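import Vale.Agent.P272.Defs2
import Vale.Agent.P272.BasA0

/-! P272 BasA1 (task; part of BasA). Helper names start with `basa1_`.
Plan. Near `p`, `e j ∘ F = (e j ∘ (e k).symm) ∘ (e k ∘ F)` (`left_inv`, open source); chain rule. `P278.osgood_at` gives analyticity; `fr j F z' = (fderiv (e j ∘ F) (z', 0)).comp (inr ..)` near `z`, `AnalyticAt.fderiv`. -/

open Metric Set Filter Topology Complex

noncomputable section

namespace Vale.Agent.P272

variable {n : ℕ} {X : Type} [TopologicalSpace X] {A : Atl n X}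

variable {B : Type} [NormedAddCommGroup B] [NormedSpace ℂ B]

theorem basa1_ev {F : B → X} {p : B} (hc : ContinuousAt F p) (j : Fin A.N) {k : Fin A.N}
    (hk : F p ∈ (A.e k).source) :
    (A.e j ∘ F) =ᶠ[𝓝 p] ((A.e j ∘ (A.e k).symm) ∘ (A.e k ∘ F)) := by
  have h1 : ∀ᶠ q in 𝓝 p, F q ∈ (A.e k).source :=
    hc.eventually ((A.e k).open_source.mem_nhds hk)
  filter_upwards [h1] with q hq
  simp only [Function.comp_apply]
  rw [(A.e k).left_inv hq]

theorem basa1_chg {F : B → X} {p : B} (h : A.HolAt F p) {j k : Fin A.N}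
    (hj : F p ∈ (A.e j).source) (hk : F p ∈ (A.e k).source) :
    fderiv ℂ (A.e j ∘ F) p = (A.tr j k (F p)).comp (fderiv ℂ (A.e k ∘ F) p) := by
  rw [(basa1_ev h.1 j hk).fderiv_eq]
  exact fderiv_comp (g := A.e j ∘ (A.e k).symm) (f := A.e k ∘ F) p (A.hol j k (F p) hj hk)
    (h.2 k hk)

theorem Atl.tr_analytic {j k : Fin A.N} {x : X} (hj : x ∈ (A.e j).source)
    (hk : x ∈ (A.e k).source) : AnalyticAt ℂ (A.e j ∘ (A.e k).symm) (A.e k x) := by
  refine P278.osgood_at ?_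
  have ht : A.e k x ∈ (A.e k).target := (A.e k).map_source hk
  have h1 : ∀ᶠ y in 𝓝 (A.e k x), y ∈ (A.e k).target := (A.e k).open_target.mem_nhds ht
  have hc : ContinuousAt (A.e k).symm (A.e k x) := (A.e k).continuousAt_symm ht
  have hj' : (A.e k).symm (A.e k x) ∈ (A.e j).source := by
    rw [(A.e k).left_inv hk]
    exact hj
  have h2 : ∀ᶠ y in 𝓝 (A.e k x), (A.e k).symm y ∈ (A.e j).source :=
    hc.eventually ((A.e j).open_source.mem_nhds hj')
  filter_upwards [h1, h2] with y hy1 hy2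
  have h3 := A.hol j k ((A.e k).symm y) hy2 ((A.e k).map_target hy1)
  rwa [(A.e k).right_inv hy1] at h3

theorem Atl.tr_mul {j k : Fin A.N} {x : X} (hj : x ∈ (A.e j).source) (hk : x ∈ (A.e k).source) :
    A.tr j k x * A.tr k j x = 1 := by
  have ht : A.e j x ∈ (A.e j).target := (A.e j).map_source hj
  have hx : (A.e j).symm (A.e j x) = x := (A.e j).left_inv hj
  have hH : A.HolAt (fun q : E n => (A.e j).symm (id q)) (A.e j x) :=
    Atl.holAt_symm (φ := id) ht differentiableAt_id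
  have hH' : A.HolAt (A.e j).symm (A.e j x) := hH
  have h1 := basa1_chg hH' (j := j) (k := k) (by rw [hx]; exact hj) (by rw [hx]; exact hk)
  rw [hx] at h1
  have h2 : (A.e j ∘ (A.e j).symm) =ᶠ[𝓝 (A.e j x)] id := by
    have h3 : ∀ᶠ y in 𝓝 (A.e j x), y ∈ (A.e j).target := (A.e j).open_target.mem_nhds ht
    filter_upwards [h3] with y hy
    exact (A.e j).right_inv hy
  rw [h2.fderiv_eq, fderiv_id] at h1
  exact h1.symm

theorem Atl.tr_unit {j k : Fin A.N} {x : X} (hj : x ∈ (A.e j).source) (hk : x ∈ (A.e k).source) :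
    IsUnit (A.tr j k x) := by
  exact ⟨⟨A.tr j k x, A.tr k j x, Atl.tr_mul hj hk, Atl.tr_mul hk hj⟩, rfl⟩

theorem Atl.dv_chg {f : ℂ → X} {z : ℂ} (h : A.HolAt f z) {j k : Fin A.N}
    (hj : f z ∈ (A.e j).source) (hk : f z ∈ (A.e k).source) :
    A.dv j f z = A.tr j k (f z) (A.dv k f z) := by
  have h1 := basa1_chg h hj hk
  unfold Atl.dv
  rw [← fderiv_apply_one_eq_deriv, ← fderiv_apply_one_eq_deriv, h1]
  rfl

theorem Atl.fr_chg {F : ℂ × E n → X} {z : ℂ} (h : A.HolAt F (z, 0)) {j k : Fin A.N}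
    (hj : F (z, 0) ∈ (A.e j).source) (hk : F (z, 0) ∈ (A.e k).source) :
    A.fr j F z = A.tr j k (F (z, 0)) * A.fr k F z := by
  have hφ : DifferentiableAt ℂ (fun u : E n => ((z, u) : ℂ × E n)) 0 :=
    (differentiableAt_const z).prodMk differentiableAt_id
  have hH : A.HolAt (fun u : E n => F (z, u)) 0 :=
    Atl.HolAt.comp (F := F) (φ := fun u : E n => ((z, u) : ℂ × E n)) (p := 0) h hφ
  exact basa1_chg hH hj hk

theorem Atl.unit_chg {F : ℂ × E n → X} {z : ℂ} (h : A.HolAt F (z, 0)) {j k : Fin A.N}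
    (hj : F (z, 0) ∈ (A.e j).source) (hk : F (z, 0) ∈ (A.e k).source) (hu : IsUnit (A.fr k F z)) :
    IsUnit (A.fr j F z) := by
  rw [Atl.fr_chg h hj hk]
  exact (Atl.tr_unit hj hk).mul hu

end Vale.Agent.P272
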