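import Vale.Agent.P272.Defs2
import Vale.Agent.P272.BasA1

/-! P272 BasA (task). Helper names start with `basa_`.
Plan. Near `p`, `e j ∘ F = (e j ∘ (e k).symm) ∘ (e k ∘ F)` (`left_inv`, open source); chain rule. `P278.osgood_at` gives analyticity; `fr j F z' = (fderiv (e j ∘ F) (z', 0)).comp (inr ..)` near `z`, `AnalyticAt.fderiv`. -/

open Metric Set Filter Topology Complex

noncomputable section

namespace Vale.Agent.P272

variable {n : ℕ} {X : Type} [TopologicalSpace X] {A : Atl n X}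

variable {B : Type} [NormedAddCommGroup B] [NormedSpace ℂ B]

theorem basa_fr_eq {F : ℂ × E n → X} {z : ℂ} {j : Fin A.N}
    (h : DifferentiableAt ℂ (A.e j ∘ F) (z, 0)) :
    HasFDerivAt (fun u : E n => A.e j (F (z, u)))
      ((fderiv ℂ (A.e j ∘ F) (z, 0)).comp (ContinuousLinearMap.inr ℂ ℂ (E n))) 0 :=
  HasFDerivAt.comp (0 : E n) (g := A.e j ∘ F) (f := fun u : E n => ((z, u) : ℂ × E n))
    h.hasFDerivAt (hasFDerivAt_prodMk_right z (0 : E n))

theorem Atl.Hol.fr_analytic {F : ℂ × E n → X} {z : ℂ} (h : A.Hol F (z, 0)) {j : Fin A.N}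
    (hj : F (z, 0) ∈ (A.e j).source) : AnalyticAt ℂ (A.fr j F) z := by
  have ha := h.analyticAt hj
  have hi : AnalyticAt ℂ (fun w : ℂ => ((w, 0) : ℂ × E n)) z :=
    analyticAt_id.prod analyticAt_const
  have h1 : AnalyticAt ℂ (fun w : ℂ => fderiv ℂ (A.e j ∘ F) (w, 0)) z :=
    AnalyticAt.comp (g := fderiv ℂ (A.e j ∘ F)) (f := fun w : ℂ => ((w, 0) : ℂ × E n)) ha.fderiv hi
  have h2 : AnalyticAt ℂ (fun w : ℂ =>
      (fderiv ℂ (A.e j ∘ F) (w, 0)).comp (ContinuousLinearMap.inr ℂ ℂ (E n))) z :=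
    (((ContinuousLinearMap.compL ℂ (E n) (ℂ × E n) (E n)).flip
      (ContinuousLinearMap.inr ℂ ℂ (E n))).analyticAt _).comp h1
  refine h2.congr ?_
  have h3 : ∀ᶠ w : ℂ in 𝓝 z, AnalyticAt ℂ (A.e j ∘ F) (w, 0) :=
    hi.continuousAt.eventually ha.eventually_analyticAt
  filter_upwards [h3] with w hw
  exact (basa_fr_eq hw.differentiableAt).fderiv.symm

theorem Atl.fr_reparam {F : ℂ × E n → X} {z : ℂ} (h : A.HolAt F (z, 0)) {j : Fin A.N}
    (hj : F (z, 0) ∈ (A.e j).source) (S : ℂ → L n) :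
    A.fr j (fun p => F (p.1, S p.1 p.2)) z = A.fr j F z * S z := by
  have h1 := basa_fr_eq (h.2 j hj)
  have h2 : HasFDerivAt (fun u : E n => A.e j (F (z, u))) (A.fr j F z) (S z 0) := by
    rw [map_zero]
    exact h1.differentiableAt.hasFDerivAt
  exact (h2.comp (0 : E n) (S z).hasFDerivAt).fderiv

theorem Atl.Bs.mono {F : ℂ × E n → X} {S S' : Set ℂ} (h : A.Bs F S) (hS : S' ⊆ S) : A.Bs F S' := by
  exact fun z hz => h z (hS hz)

theorem Atl.isOpen_dom {f : ℂ → X} {r : ℝ} (h : ∀ z, ‖z‖ < r → ContinuousAt f z) (k : Fin A.N) :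
    IsOpen (A.dom f r k) := by
  refine isOpen_iff_mem_nhds.2 fun z hz => ?_
  obtain ⟨h1, h2, h3⟩ := hz
  have hc := h z h1
  have e1 : ∀ᶠ w in 𝓝 z, ‖w‖ < r := continuous_norm.continuousAt.eventually_lt continuousAt_const h1
  have e2 : ∀ᶠ w in 𝓝 z, f w ∈ (A.e k).source := hc.eventually ((A.e k).open_source.mem_nhds h2)
  have hc2 : ContinuousAt (fun w => ‖A.e k (f w)‖) z :=
    (ContinuousAt.comp (g := A.e k) ((A.e k).continuousAt h2) hc).norm
  have e3 : ∀ᶠ w in 𝓝 z, ‖A.e k (f w)‖ < 3 := hc2.eventually_lt continuousAt_const h3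
  filter_upwards [e1, e2, e3] with w a b c
  exact ⟨a, b, c⟩

theorem Atl.isClosed_in [T2Space X] (j : Fin A.N) {a : ℝ} (ha : a ≤ 4) :
    IsClosed {x | A.In j a x} := by
  have hs : closedBall (0 : E n) a ⊆ (A.e j).target :=
    (closedBall_subset_closedBall ha).trans (A.tgt j)
  have e : {x | A.In j a x} = (A.e j).symm '' closedBall 0 a := by
    ext x
    constructor
    · rintro ⟨h1, h2⟩
      exact ⟨A.e j x, mem_closedBall_zero_iff.2 h2, (A.e j).left_inv h1⟩
    · rintro ⟨y, hy, rfl⟩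
      refine ⟨(A.e j).map_target (hs hy), ?_⟩
      rw [(A.e j).right_inv (hs hy)]
      exact mem_closedBall_zero_iff.1 hy
  rw [e]
  exact ((isCompact_closedBall (0 : E n) a).image_of_continuousOn
    ((A.e j).continuousOn_symm.mono hs)).isClosed

end Vale.Agent.P272
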