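import Vale.Agent.P272.BasA
import Vale.Agent.P272.Lin

/-! P272 BasB0 (task; part of BasB). Helper names start with `basb0_`.
Plan. `cmp` with `dv_chg`, `fr_chg`, `qf_conj`, `det_mul'`. Continuity: near `z` use the fixed chart `j = ch (f z)` (`In j 4` holds near `z`), `lip` gives continuity of `Γ j` and `ℓ j` on the ball. -/

open Metric Set Filter Topology Complex

noncomputable section

namespace Vale.Agent.P272

variable {n : ℕ} {X : Type} [TopologicalSpace X] {A : Atl n X}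

variable (g : Met A) {f : ℂ → X} {F : ℂ × E n → X} {z : ℂ} {j : Fin A.N}

theorem Met.qf_nonneg {y : E n} (hy : ‖y‖ ≤ 4) (w : E n) : 0 ≤ qf (g.Γ j y) w :=
  nonneg_of_mul_nonneg_right ((sq_nonneg _).trans (g.lo j y w hy)) (one_pos.trans_le g.one)

theorem Met.unit {y : E n} (hy : ‖y‖ ≤ 4) : IsUnit (g.Γ j y) := by
  have hC : 0 ≤ g.C := zero_le_one.trans g.one
  refine (unit_of_lo hC fun w => ?_).1
  have h1 := g.lo j y w hy
  have h2 : qf (g.Γ j y) w ≤ ‖w‖ * ‖g.Γ j y w‖ :=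
    (re_le_norm _).trans (norm_inner_le_norm _ _)
  rcases (norm_nonneg w).eq_or_lt with h | h
  · rw [← h]
    positivity
  · refine le_of_mul_le_mul_left ?_ h
    nlinarith [mul_le_mul_of_nonneg_left h2 hC]

theorem Met.sp_eq (h : A.HolAt f z) (hj : A.In j 4 (f z)) :
    g.sp f z = qf (g.Γ j (A.e j (f z))) (A.dv j f z) := by
  have hk : A.In (A.ch (f z)) 4 (f z) := Atl.in_ch _ (by norm_num)
  rw [Met.sp, g.cmp j _ _ hj hk, qf_conj, ← Atl.dv_chg h hj.1 hk.1]

theorem Met.Gr_eq (h : A.HolAt F (z, 0)) (hj : A.In j 4 (F (z, 0))) :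
    g.Gr F z = star (A.fr j F z) * g.Γ j (A.e j (F (z, 0))) * A.fr j F z := by
  have hk : A.In (A.ch (F (z, 0))) 4 (F (z, 0)) := Atl.in_ch _ (by norm_num)
  rw [Met.Gr, g.cmp j _ _ hj hk, Atl.fr_chg h hj.1 hk.1, star_mul]
  simp only [mul_assoc]

theorem Met.sp_nonneg (f : ℂ → X) (z : ℂ) : 0 ≤ g.sp f z :=
  g.qf_nonneg (Atl.in_ch (f z) (by norm_num)).2 _

theorem Met.Gr_sa (F : ℂ × E n → X) (z : ℂ) : IsSelfAdjoint (g.Gr F z) :=
  (g.sa _ _ (Atl.in_ch (F (z, 0)) (by norm_num)).2).conjugate' _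

theorem Met.sp_congr {f' : ℂ → X} (h : f =ᶠ[𝓝 z] f') : g.sp f z = g.sp f' z := by
  have h1 : ∀ k, A.dv k f z = A.dv k f' z := fun k => (h.fun_comp (A.e k)).deriv_eq
  rw [Met.sp, Met.sp, h1, h.eq_of_nhds]

theorem Met.sp_affine (a b : ℂ) (h : A.HolAt f (a * z + b)) :
    g.sp (fun w => f (a * w + b)) z = ‖a‖ ^ 2 * g.sp f (a * z + b) := by
  have h1 : HasDerivAt (fun w => a * w + b) a z := by
    simpa using ((hasDerivAt_id z).const_mul a).add_const b
  have h2 : A.dv (A.ch (f (a * z + b))) (fun w => f (a * w + b)) z =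
      a • A.dv (A.ch (f (a * z + b))) f (a * z + b) := by
    have h3 := (h.2 _ (Atl.ch_in _).1).hasDerivAt
    have h4 := HasDerivAt.scomp z (h := fun w => a * w + b) h3 h1
    exact h4.deriv
  rw [Met.sp, Met.sp, h2, qf_smul]

end Vale.Agent.P272
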