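import Vale.Agent.P272.BasA
import Vale.Agent.P272.Lin
import Vale.Agent.P272.BasB0

/-! P272 BasB1 (task; part of BasB). Helper names start with `basb1_`.
Plan. `cmp` with `dv_chg`, `fr_chg`, `qf_conj`, `det_mul'`. Continuity: near `z` use the fixed chart `j = ch (f z)` (`In j 4` holds near `z`), `lip` gives continuity of `Γ j` and `ℓ j` on the ball. -/

open Metric Set Filter Topology Complex

noncomputable section

namespace Vale.Agent.P272

variable {n : ℕ} {X : Type} [TopologicalSpace X] {A : Atl n X}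

variable (g : Met A) {f : ℂ → X} {F : ℂ × E n → X} {z : ℂ} {j : Fin A.N}

theorem basb1_sq {a b c : ℝ} (ha : 0 ≤ a) (hb : 0 ≤ b) (hc : 1 ≤ c) (h : a ^ 2 ≤ c * b ^ 2) :
    a ≤ c * b := by
  refine (pow_le_pow_iff_left₀ ha (by positivity) two_ne_zero).1 (h.trans ?_)
  rw [mul_pow]
  exact mul_le_mul_of_nonneg_right (by nlinarith) (sq_nonneg b)

theorem basb1_in (h : ContinuousAt f z) : ∀ᶠ w in 𝓝 z, A.In (A.ch (f z)) 4 (f w) := by
  obtain ⟨h1, h2⟩ := Atl.ch_in (A := A) (f z)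
  have h3 : ContinuousAt (fun w => ‖A.e (A.ch (f z)) (f w)‖) z :=
    (((A.e _).continuousAt h1).comp h).norm
  filter_upwards [h.eventually ((A.e _).open_source.mem_nhds h1),
    h3.eventually_lt continuousAt_const (h2.trans (by norm_num : (1 : ℝ) < 4))] with w h4 h5
  exact ⟨h4, h5.le⟩

theorem basb1_cont (h : ContinuousAt f z) :
    ContinuousAt (fun w => g.Γ (A.ch (f z)) (A.e (A.ch (f z)) (f w))) z := by
  obtain ⟨h1, h2⟩ := Atl.ch_in (A := A) (f z)
  have h3 : ContinuousOn (g.Γ (A.ch (f z))) (closedBall 0 4) :=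
    (LipschitzOnWith.of_dist_le' (K := g.C) fun y hy y' hy' => by
      rw [dist_eq_norm, dist_eq_norm]
      exact g.lip _ y y' (mem_closedBall_zero_iff.1 hy) (mem_closedBall_zero_iff.1 hy')).continuousOn
  have h4 := h3.continuousAt (closedBall_mem_nhds_of_mem
    (mem_ball_zero_iff.2 (h2.trans (by norm_num : (1 : ℝ) < 4))))
  exact h4.comp (f := fun w => A.e (A.ch (f z)) (f w)) (((A.e _).continuousAt h1).comp h)

theorem Met.dv_le (h : A.HolAt f z) (hj : A.In j 4 (f z)) {Λ : ℝ} (h0 : 0 ≤ Λ)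
    (hs : g.sp f z ≤ Λ ^ 2) : ‖A.dv j f z‖ ≤ g.C * Λ := by
  rw [g.sp_eq h hj] at hs
  exact basb1_sq (norm_nonneg _) h0 g.one ((g.lo j _ _ hj.2).trans
    (mul_le_mul_of_nonneg_left hs (zero_le_one.trans g.one)))

theorem Met.fr_le (h : A.HolAt F (z, 0)) (hj : A.In j 4 (F (z, 0))) {M : ℝ} (h1 : 1 ≤ M)
    (hs : ‖g.Gr F z‖ ≤ M) : ‖A.fr j F z‖ ≤ g.C * M := by
  have hC := g.one
  refine ContinuousLinearMap.opNorm_le_bound _ (by positivity) fun ξ =>
    basb1_sq (norm_nonneg _) (norm_nonneg _) (one_le_mul_of_one_le_of_one_le hC h1) ?_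
  refine (g.lo j _ _ hj.2).trans ?_
  rw [← qf_conj, ← g.Gr_eq h hj, mul_assoc]
  exact mul_le_mul_of_nonneg_left ((le_abs_self _).trans ((qf_le _ _).trans
    (mul_le_mul_of_nonneg_right hs (sq_nonneg _)))) (by positivity)

theorem Met.fr_unit (h : A.HolAt F (z, 0)) (hj : A.In j 4 (F (z, 0))) {M : ℝ} (h1 : 1 ≤ M)
    (hs : ∀ ξ, ‖ξ‖ ^ 2 ≤ M * qf (g.Gr F z) ξ) :
    IsUnit (A.fr j F z) ∧ ‖Ring.inverse (A.fr j F z)‖ ≤ g.C * M := by
  have hC := g.one
  refine unit_of_lo (by positivity) fun ξ =>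
    basb1_sq (norm_nonneg _) (norm_nonneg _) (one_le_mul_of_one_le_of_one_le hC h1) ?_
  refine (hs ξ).trans ?_
  rw [g.Gr_eq h hj, qf_conj, mul_comm g.C, mul_assoc]
  exact mul_le_mul_of_nonneg_left ((le_abs_self _).trans ((qf_le _ _).trans
    (mul_le_mul_of_nonneg_right (g.up j _ hj.2) (sq_nonneg _)))) (by positivity)

theorem Met.sp_cont (h : A.Hol f z) : ContinuousAt (g.sp f) z := by
  have h1 := h.holAt.1
  have h2 : ContinuousAt (A.dv (A.ch (f z)) f) z :=
    (h.analyticAt (Atl.ch_in (f z)).1).deriv.continuousAt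
  have h3 : ContinuousAt (fun w => qf (g.Γ (A.ch (f z)) (A.e (A.ch (f z)) (f w)))
      (A.dv (A.ch (f z)) f w)) z :=
    Complex.continuous_re.continuousAt.comp
      (ContinuousAt.inner (𝕜 := ℂ) h2 ((basb1_cont g h1).clm_apply h2))
  refine h3.congr ?_
  filter_upwards [h, basb1_in (A := A) h1] with w h4 h5
  exact (g.sp_eq h4 h5).symm

theorem Met.Gr_cont (h : A.Hol F (z, 0)) : ContinuousAt (g.Gr F) z := by
  have h1 : ContinuousAt (ctr F) z := h.ctr.holAt.1
  have h2 : ContinuousAt (A.fr (A.ch (F (z, 0))) F) z :=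
    (h.fr_analytic (Atl.ch_in (F (z, 0))).1).continuousAt
  have h3 := (((star_isometry (E := L n)).continuous.continuousAt.comp h2).mul
    (basb1_cont g h1)).mul h2
  have h4 : ContinuousAt (fun w : ℂ => ((w, 0) : ℂ × E n)) z := by fun_prop
  refine h3.congr ?_
  filter_upwards [h4.eventually h, basb1_in (A := A) h1] with w h5 h6
  exact (g.Gr_eq h5 h6).symm

theorem Met.Gr_reparam (h : A.HolAt F (z, 0)) (S : ℂ → L n) :
    g.Gr (fun p => F (p.1, S p.1 p.2)) z = star (S z) * g.Gr F z * S z := by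
  simp only [Met.Gr, map_zero]
  rw [Atl.fr_reparam h (Atl.ch_in _).1 S, star_mul]
  simp only [mul_assoc]

end Vale.Agent.P272
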