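import Vale.Agent.P272.BasA
import Vale.Agent.P272.Lin
import Vale.Agent.P272.BasB1

/-! P272 BasB (task). Helper names start with `basb_`.
Plan. `cmp` with `dv_chg`, `fr_chg`, `qf_conj`, `det_mul'`. Continuity: near `z` use the fixed chart `j = ch (f z)` (`In j 4` holds near `z`), `lip` gives continuity of `Γ j` and `ℓ j` on the ball. -/

open Metric Set Filter Topology Complex

noncomputable section

namespace Vale.Agent.P272

variable {n : ℕ} {X : Type} [TopologicalSpace X] {A : Atl n X}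

variable (g : Met A) {f : ℂ → X} {F : ℂ × E n → X} {z : ℂ} {j : Fin A.N}

variable {g} (v : Vol g) {S : Set ℂ}

theorem basb_eq (h : A.HolAt F (z, 0)) (hj : A.In j 4 (F (z, 0))) (hd : (A.fr j F z).det ≠ 0) :
    v.jf F z = v.ℓ j (A.e j (F (z, 0))) + Real.log (‖(A.fr j F z).det‖ ^ 2) := by
  have hc := A.in_ch (F (z, 0)) (a := 4) (by norm_num)
  rw [Atl.fr_chg h hj.1 hc.1, det_mul'] at hd ⊢
  rw [Vol.jf, v.cmp j _ _ hj hc, norm_mul, mul_pow,
    Real.log_mul (pow_ne_zero 2 (norm_ne_zero_iff.2 (left_ne_zero_of_mul hd)))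
      (pow_ne_zero 2 (norm_ne_zero_iff.2 (right_ne_zero_of_mul hd))), add_assoc]

theorem basb_cont {y : E n} (hy : ‖y‖ < 4) : ContinuousAt (v.ℓ j) y := by
  have h1 : LipschitzOnWith (Real.toNNReal v.C) (v.ℓ j) (closedBall 0 4) :=
    LipschitzOnWith.of_dist_le' fun a ha b hb => by
      rw [Real.dist_eq, dist_eq_norm]
      exact v.lip j a b (mem_closedBall_zero_iff.1 ha) (mem_closedBall_zero_iff.1 hb)
  exact h1.continuousOn.continuousAt
    (mem_of_superset (isOpen_ball.mem_nhds (mem_ball_zero_iff.2 hy)) ball_subset_closedBall)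

theorem Vol.jf_eq (h : A.Bs F S) (hz : z ∈ S) (hj : A.In j 4 (F (z, 0))) :
    v.jf F z = v.ℓ j (A.e j (F (z, 0))) + Real.log (‖(A.fr j F z).det‖ ^ 2) := by
  exact basb_eq v (h z hz).1.holAt hj (det_ne ((h z hz).2 j hj.1))

theorem Vol.jf_gram (h : A.Bs F S) (hz : z ∈ S) (hj : A.In j 4 (F (z, 0))) :
    v.jf F z = v.ℓ j (A.e j (F (z, 0))) - Real.log ‖(g.Γ j (A.e j (F (z, 0)))).det‖ +
      Real.log ‖(g.Gr F z).det‖ := by
  have h1 := norm_ne_zero_iff.2 (det_ne ((h z hz).2 j hj.1))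
  have h2 := norm_ne_zero_iff.2 (det_ne (g.unit (j := j) hj.2))
  rw [v.jf_eq h hz hj, g.Gr_eq (h z hz).1.holAt hj, det_mul', det_mul', norm_mul, norm_mul,
    norm_det_star, Real.log_mul (mul_ne_zero h1 h2) h1, Real.log_mul h1 h2, Real.log_pow]
  push_cast
  ring

theorem Vol.jf_cont (h : A.Bs F S) (hz : z ∈ S) : ContinuousAt (v.jf F) z := by
  obtain ⟨h1, h2⟩ := h z hz
  obtain ⟨c1, c2⟩ := A.ch_in (F (z, 0))
  generalize A.ch (F (z, 0)) = j at c1 c2
  have hd := det_ne (h2 j c1)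
  have a1 : ContinuousAt (fun w => A.e j (F (w, 0))) z :=
    (h1.ctr.analyticAt (j := j) c1).continuousAt
  have a2 : ContinuousAt (fun w => (A.fr j F w).det) z :=
    (analyticAt_det _).continuousAt.comp (h1.fr_analytic c1).continuousAt
  have a3 : ContinuousAt
      (fun w => v.ℓ j (A.e j (F (w, 0))) + Real.log (‖(A.fr j F w).det‖ ^ 2)) z :=
    (ContinuousAt.comp (f := fun w => A.e j (F (w, 0))) (basb_cont v (by linarith)) a1).add
      ((a2.norm.pow 2).log (pow_ne_zero 2 (norm_ne_zero_iff.2 hd)))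
  refine a3.congr ?_
  have e1 : ∀ᶠ w in 𝓝 z, A.HolAt F (w, 0) :=
    (continuous_id.prodMk continuous_const).continuousAt.eventually h1
  have e2 : ∀ᶠ w in 𝓝 z, ctr F w ∈ (A.e j).source :=
    h1.ctr.holAt.1.eventually ((A.e j).open_source.mem_nhds c1)
  have e3 : ∀ᶠ w in 𝓝 z, ‖A.e j (F (w, 0))‖ < 4 := a1.norm.eventually_lt_const (by linarith)
  filter_upwards [e1, e2, e3, a2.eventually_ne hd] with w b1 b2 b3 b4
  exact (basb_eq v b1 ⟨b2, b3.le⟩ b4).symm

theorem Vol.jf_int {r : ℝ} (hr : 0 ≤ r) (h : A.Bs F (closedBall 0 r)) :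
    CircleIntegrable (v.jf F) 0 r := by
  refine ContinuousOn.circleIntegrable hr fun w hw => ?_
  exact (v.jf_cont h (sphere_subset_closedBall hw)).continuousWithinAt

theorem Vol.jf_reparam (h : A.Bs F S) (hz : z ∈ S) (T : ℂ → L n) (hT : IsUnit (T z)) :
    v.jf (fun p => F (p.1, T p.1 p.2)) z = v.jf F z + Real.log (‖(T z).det‖ ^ 2) := by
  have hc := (A.ch_in (F (z, 0))).1
  have h1 := norm_ne_zero_iff.2 (det_ne ((h z hz).2 _ hc))
  have h2 := norm_ne_zero_iff.2 (det_ne hT)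
  simp only [Vol.jf, map_zero]
  rw [Atl.fr_reparam (h z hz).1.holAt hc, det_mul', norm_mul, mul_pow,
    Real.log_mul (pow_ne_zero 2 h1) (pow_ne_zero 2 h2), add_assoc]

end Vale.Agent.P272
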