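import Vale.Agent.P272.Defs
import Vale.Agent.P136.TInt

/-! P272 CTa (task). Helper names start with `cta_`.
Plan. `P136.inv_norm_integrableOn`, `TInt_int`, `integrableOn_ball_of_norm_le_rpow`. Bound: for `‖z‖ ≤ 2` the integrand lives in `‖ζ‖ ≤ 3`; for `‖z‖ > 2` it lives in `ball z 1` where `‖ζ‖⁻¹ ≤ 1`. Hoelder: translate (`integral_sub_left_eq_self`) to `∫ (1 / (2π (z - ζ))) • q ζ`; with `a = ‖z - ζ‖`, `b = ‖z' - ζ‖`: `‖z - z'‖ / (a b) ≤ 2 ‖z - z'‖^(3/4) (a^(-7/4) + b^(-7/4))` off the null set `{z, z'}` (since `‖z - z'‖ ≤ 2 max a b`), and `∫_{‖ζ‖<1} ‖z - ζ‖^(-7/4) ≤ C` uniformly in `z` (same case split). -/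

open Metric Set Filter Topology Complex

noncomputable section

namespace Vale.Agent.P272

variable {n : ℕ}

open MeasureTheory

theorem cta_maj {α : ℝ} (h0 : 0 ≤ α) (h2 : α < 2) : ∃ A : ℝ, 0 ≤ A ∧ ∀ z : ℂ, ∃ m : ℂ → ℝ,
    Integrable m ∧ ∫ ζ, m ζ = A ∧ (∀ ζ, 0 ≤ m ζ) ∧ ∀ ζ, ‖ζ‖ < 1 → ‖z - ζ‖ ^ (-α) ≤ m ζ := by
  have h1 : Integrable ((ball (0 : ℂ) 1).indicator fun u => ‖u‖ ^ (-α)) := by
    refine IntegrableOn.integrable_indicator ?_ measurableSet_ball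
    refine integrableOn_ball_of_norm_le_rpow (C := 1) (α := α) (by simp) (by simpa using h2)
      (ae_of_all _ fun x => ?_) (by fun_prop : Measurable _).aestronglyMeasurable
    rw [one_mul, Real.norm_of_nonneg (by positivity)]
  have h3 : Integrable ((ball (0 : ℂ) 1).indicator fun _ => (1 : ℝ)) :=
    IntegrableOn.integrable_indicator (integrableOn_const measure_ball_lt_top.ne) measurableSet_ball
  have p1 : ∀ u, 0 ≤ (ball (0 : ℂ) 1).indicator (fun u => ‖u‖ ^ (-α)) u := fun u =>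
    indicator_nonneg (fun _ _ => by positivity) u
  have p3 : ∀ u, 0 ≤ (ball (0 : ℂ) 1).indicator (fun _ => (1 : ℝ)) u := fun u =>
    indicator_nonneg (fun _ _ => zero_le_one) u
  refine ⟨_, add_nonneg (integral_nonneg (μ := volume) p1) (integral_nonneg (μ := volume) p3), fun z =>
    ⟨fun ζ => (ball (0 : ℂ) 1).indicator (fun u => ‖u‖ ^ (-α)) (z - ζ) +
      (ball (0 : ℂ) 1).indicator (fun _ => (1 : ℝ)) ζ, (h1.comp_sub_left z).add h3, ?_,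
      fun ζ => add_nonneg (p1 _) (p3 _), fun ζ hζ => ?_⟩⟩
  · rw [integral_add (h1.comp_sub_left z) h3, integral_sub_left_eq_self]
  · by_cases h : z - ζ ∈ ball (0 : ℂ) 1
    · exact le_add_of_le_of_nonneg (indicator_of_mem h fun u => ‖u‖ ^ (-α)).ge (p3 _)
    · refine le_add_of_nonneg_of_le (p1 _) ?_
      rw [indicator_of_mem (mem_ball_zero_iff.2 hζ)]
      exact Real.rpow_le_one_of_one_le_of_nonpos (by simpa using h) (by linarith)

theorem cta_eq (q : ℂ → E n) (z : ℂ) :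
    CT q z = ∫ ζ : ℂ, (1 / (2 * Real.pi * (z - ζ)) : ℂ) • q ζ := by
  rw [← integral_sub_left_eq_self _ volume z]
  simp only [CT, sub_sub_cancel]

theorem cta_int {q : ℂ → E n} (h : Continuous q) (hs : ∀ z, 1 ≤ ‖z‖ → q z = 0) (z : ℂ) :
    Integrable fun ζ : ℂ => (1 / (2 * Real.pi * ζ) : ℂ) • q (z - ζ) :=
  P136.TInt_int (g := fun ζ => q (z - ζ)) (R := ‖z‖ + 1) (by fun_prop) fun u hu => hs _ (by
    have := norm_sub_norm_le u z
    rw [norm_sub_rev] at this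
    linarith)

theorem cta_int' {q : ℂ → E n} (h : Continuous q) (hs : ∀ z, 1 ≤ ‖z‖ → q z = 0) (z : ℂ) :
    Integrable fun ζ : ℂ => (1 / (2 * Real.pi * (z - ζ)) : ℂ) • q ζ := by
  simpa only [sub_sub_cancel] using (cta_int h hs z).comp_sub_left z

theorem ct_sub {q q' : ℂ → E n} (h : Continuous q) (h' : Continuous q')
    (hs : ∀ z, 1 ≤ ‖z‖ → q z = 0) (hs' : ∀ z, 1 ≤ ‖z‖ → q' z = 0) (z : ℂ) :
    CT (fun z => q z - q' z) z = CT q z - CT q' z := by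
  simp only [CT, smul_sub]
  exact integral_sub (cta_int h hs z) (cta_int h' hs' z)

theorem cta_pow {t : ℝ} (ht : 0 ≤ t) (k : ℕ) : (t ^ (1 / 4 : ℝ)) ^ k = t ^ ((k : ℝ) / 4) := by
  rw [← Real.rpow_natCast, ← Real.rpow_mul ht]
  congr 1
  ring

theorem cta_ineq {a b d : ℝ} (ha : 0 < a) (hab : a ≤ b) (hd : 0 ≤ d) (h : d ≤ 2 * b) :
    d / (a * b) ≤ 2 * d ^ (3 / 4 : ℝ) * a ^ (-(7 / 4) : ℝ) := by
  have hb : 0 < b := ha.trans_le hab
  have e4 : ∀ {t : ℝ}, 0 ≤ t → (t ^ (1 / 4 : ℝ)) ^ 4 = t := fun ht => by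
    rw [cta_pow ht]
    norm_num
  have e3 := cta_pow hd 3
  have e7 := cta_pow ha.le 7
  push_cast at e3 e7
  have hxy : a ^ (1 / 4 : ℝ) ≤ b ^ (1 / 4 : ℝ) := Real.rpow_le_rpow ha.le hab (by norm_num)
  have hx : 0 < a ^ (1 / 4 : ℝ) := Real.rpow_pos_of_pos ha _
  have hw : 0 ≤ d ^ (1 / 4 : ℝ) := Real.rpow_nonneg hd _
  have ea := e4 ha.le
  have eb := e4 hb.le
  have ed := e4 hd
  rw [Real.rpow_neg ha.le, ← e3, ← e7]
  generalize a ^ (1 / 4 : ℝ) = x at *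
  generalize b ^ (1 / 4 : ℝ) = y at *
  generalize d ^ (1 / 4 : ℝ) = w at *
  subst ea eb ed
  have hy : 0 < y := hx.trans_le hxy
  have hwy : w ≤ 2 * y := by
    refine le_of_pow_le_pow_left₀ (n := 4) (by norm_num) (by positivity) ?_
    nlinarith
  rw [← div_eq_mul_inv, div_le_div_iff₀ (by positivity) (by positivity)]
  have h1 : w * x ^ 3 ≤ 2 * y * y ^ 3 := by gcongr
  calc w ^ 4 * x ^ 7 = w ^ 3 * x ^ 4 * (w * x ^ 3) := by ring
    _ ≤ w ^ 3 * x ^ 4 * (2 * y * y ^ 3) := by gcongr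
    _ = _ := by ring

theorem cta_pi {u : ℂ} : ‖(1 / (2 * Real.pi * u) : ℂ)‖ ≤ ‖u‖⁻¹ := by
  rw [one_div, mul_inv, norm_mul, norm_inv, norm_inv]
  refine mul_le_of_le_one_left (by positivity) (inv_le_one_of_one_le₀ ?_)
  rw [norm_mul, Complex.norm_real, Real.norm_of_nonneg Real.pi_pos.le, Complex.norm_ofNat]
  linarith [Real.pi_gt_three]

theorem cta_ker {u v : ℂ} (hu : u ≠ 0) (hv : v ≠ 0) :
    ‖(1 / (2 * Real.pi * u) : ℂ) - 1 / (2 * Real.pi * v)‖ ≤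
      2 * ‖u - v‖ ^ (3 / 4 : ℝ) * (‖u‖ ^ (-(7 / 4) : ℝ) + ‖v‖ ^ (-(7 / 4) : ℝ)) := by
  have hπ : (Real.pi : ℂ) ≠ 0 := ofReal_ne_zero.2 Real.pi_ne_zero
  have e : (1 / (2 * Real.pi * u) : ℂ) - 1 / (2 * Real.pi * v) =
      (v - u) * (1 / (2 * Real.pi * (u * v))) := by
    field_simp
  have h1 : ‖(1 / (2 * Real.pi * u) : ℂ) - 1 / (2 * Real.pi * v)‖ ≤ ‖u - v‖ / (‖u‖ * ‖v‖) := by
    rw [e, norm_mul, norm_sub_rev, div_eq_mul_inv ‖u - v‖, ← norm_mul u v]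
    exact mul_le_mul_of_nonneg_left cta_pi (norm_nonneg (u - v))
  have h2 := norm_sub_le u v
  refine h1.trans ?_
  rcases le_total ‖u‖ ‖v‖ with h | h
  · refine (cta_ineq (norm_pos_iff.2 hu) h (norm_nonneg (u - v)) (by linarith)).trans ?_
    gcongr
    exact le_add_of_nonneg_right (by positivity)
  · rw [mul_comm ‖u‖]
    refine (cta_ineq (norm_pos_iff.2 hv) h (norm_nonneg (u - v)) (by linarith)).trans ?_
    gcongr
    exact le_add_of_nonneg_left (by positivity)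

theorem ct_bound (n : ℕ) : ∃ C : ℝ, 1 ≤ C ∧ ∀ (q : ℂ → E n) (b : ℝ), Continuous q →
    (∀ z, 1 ≤ ‖z‖ → q z = 0) → (∀ z, ‖q z‖ ≤ b) → (∀ z, ‖CT q z‖ ≤ C * b) ∧
      ∀ z z', ‖CT q z - CT q z'‖ ≤ C * b * ‖z - z'‖ ^ (3 / 4 : ℝ) := by
  obtain ⟨A, hA, h1⟩ := cta_maj zero_le_one one_lt_two
  obtain ⟨B, hB, h2⟩ := cta_maj (α := 7 / 4) (by norm_num) (by norm_num)
  refine ⟨1 + A + 4 * B, by linarith, fun q b hq hs hb => ?_⟩
  have b0 : 0 ≤ b := (norm_nonneg _).trans (hb 0)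
  have key : ∀ (c : ℂ) (ζ : ℂ) (M : ℝ), 0 ≤ M → (‖ζ‖ < 1 → ‖c‖ ≤ M) → ‖c • q ζ‖ ≤ M * b := by
    intro c ζ M hM h
    rcases lt_or_ge ‖ζ‖ 1 with h3 | h3
    · rw [norm_smul]
      exact mul_le_mul (h h3) (hb ζ) (norm_nonneg _) hM
    · rw [hs ζ h3, smul_zero, norm_zero]
      exact mul_nonneg hM b0
  refine ⟨fun z => ?_, fun z z' => ?_⟩
  · obtain ⟨m, i1, i2, i3, i4⟩ := h1 z
    rw [cta_eq]
    refine (norm_integral_le_of_norm_le (i1.mul_const b) (ae_of_all _ fun ζ =>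
      key _ ζ _ (i3 ζ) fun h => cta_pi.trans ?_)).trans ?_
    · simpa only [Real.rpow_neg_one] using i4 ζ h
    · rw [integral_mul_const, i2]
      exact mul_le_mul_of_nonneg_right (by linarith) b0
  · obtain ⟨m, i1, i2, i3, i4⟩ := h2 z
    obtain ⟨m', j1, j2, j3, j4⟩ := h2 z'
    have d0 : 0 ≤ ‖z - z'‖ ^ (3 / 4 : ℝ) := by positivity
    rw [cta_eq, cta_eq, ← integral_sub (cta_int' hq hs z) (cta_int' hq hs z')]
    refine (norm_integral_le_of_norm_le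
      (((i1.add j1).const_mul (2 * ‖z - z'‖ ^ (3 / 4 : ℝ))).mul_const b) ?_).trans ?_
    · filter_upwards [Measure.ae_ne volume z, Measure.ae_ne volume z'] with ζ h3 h4
      rw [← sub_smul]
      refine key _ ζ _ (mul_nonneg (by positivity) (add_nonneg (i3 ζ) (j3 ζ))) fun h => ?_
      refine (cta_ker (sub_ne_zero.2 h3.symm) (sub_ne_zero.2 h4.symm)).trans ?_
      rw [sub_sub_sub_cancel_right]
      exact mul_le_mul_of_nonneg_left (add_le_add (i4 ζ h) (j4 ζ h)) (by positivity)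
    · rw [integral_mul_const, integral_const_mul, integral_add' i1 j1, i2, j2]
      nlinarith [mul_nonneg b0 d0, mul_nonneg hA (mul_nonneg b0 d0)]

end Vale.Agent.P272
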