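import Vale.Agent.P272.Defs
import Vale.Agent.P136.TInt

/-! P272 CTb (task). Helper names start with `ctb_`.
Plan. `CT` is a convolution with the locally integrable kernel `1 / (2π ζ)` (bilinear map `ContinuousLinearMap.lsmul ℝ ℂ`): `contDiffOn_convolution_right_with_param` and `hasFDerivAt_convolution_right_with_param` (parameter first: compose with `Prod.swap`), or copy the proof of `P136.TInt_gen` (`hasFDerivAt_integral_of_dominated_of_fderiv_le`). The derivative in direction `v` is the transform of the derivative of `q` in direction `v`; this gives `Lin`, and `db` by `P136.cauchy_pompeiu` applied to `h ζ = q (z - ζ, s)`. -/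

open Metric Set Filter Topology Complex

noncomputable section

namespace Vale.Agent.P272

variable {n : ℕ}

open MeasureTheory in
theorem ctb_li : LocallyIntegrable (fun ζ : ℂ => (1 / (2 * Real.pi * ζ) : ℂ)) volume := by
  refine locallyIntegrable_iff.2 fun K hK => ?_
  obtain ⟨R, hR⟩ := hK.isBounded.subset_closedBall 0
  refine IntegrableOn.mono_set ?_ hR
  refine Integrable.mono' ((P136.inv_norm_integrableOn R).const_mul ‖((2 * Real.pi : ℂ))⁻¹‖)
    (Measurable.aestronglyMeasurable (by fun_prop)) (ae_of_all _ fun u => le_of_eq ?_)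
  rw [one_div, mul_inv, norm_mul, norm_inv u]

variable {q : ℂ × E n → E n} {U : Set (E n)}

theorem ctb_at (hU : IsOpen U) (hq : ContDiffOn ℝ 1 q (univ ×ˢ U)) {p : ℂ × E n} (hp : p.2 ∈ U) :
    ContDiffAt ℝ 1 q p :=
  hq.contDiffAt ((isOpen_univ.prod hU).mem_nhds ⟨mem_univ _, hp⟩)

theorem ctb_cont (hU : IsOpen U) (hq : ContDiffOn ℝ 1 q (univ ×ˢ U)) {s : E n} (hp : s ∈ U)
    (z : ℂ) : Continuous fun ζ : ℂ => fderiv ℝ q (z - ζ, s) :=
  (hq.continuousOn_fderiv_of_isOpen (isOpen_univ.prod hU) le_rfl).comp_continuous (by fun_prop)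
    fun _ => ⟨mem_univ _, hp⟩

theorem ctb_zero (hU : IsOpen U) (hs : ∀ z s, s ∈ U → 1 ≤ ‖z‖ → q (z, s) = 0) {s : E n}
    (hp : s ∈ U) {z ζ : ℂ} (h : ‖z‖ + 2 ≤ ‖ζ‖) : fderiv ℝ q (z - ζ, s) = 0 := by
  have h1 : 1 < ‖z - ζ‖ := by
    have := norm_sub_norm_le ζ z
    rw [norm_sub_rev] at this
    linarith
  have h2 : q =ᶠ[𝓝 (z - ζ, s)] fun _ => 0 :=
    mem_of_superset (((isOpen_lt continuous_const continuous_norm).prod hU).mem_nhds ⟨h1, hp⟩)
      fun p hp => hs p.1 p.2 hp.2 (le_of_lt hp.1)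
  rw [h2.fderiv_eq]
  exact fderiv_const_apply _

open MeasureTheory in
theorem ctb_der (hU : IsOpen U) (hq : ContDiffOn ℝ 1 q (univ ×ˢ U))
    (hs : ∀ z s, s ∈ U → 1 ≤ ‖z‖ → q (z, s) = 0) {p : ℂ × E n} (hp : p.2 ∈ U) (v : ℂ × E n) :
    (Integrable fun ζ : ℂ => (1 / (2 * Real.pi * ζ) : ℂ) • fderiv ℝ q (p.1 - ζ, p.2) v) ∧
      fderiv ℝ (fun p : ℂ × E n => CT (fun z => q (z, p.2)) p.1) p v =
        ∫ ζ : ℂ, (1 / (2 * Real.pi * ζ) : ℂ) • fderiv ℝ q (p.1 - ζ, p.2) v := by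
  obtain ⟨ε, hε, h0⟩ := nhds_basis_closedBall.mem_iff.1 (inter_mem
    ((isOpen_univ.prod hU).mem_nhds (⟨mem_univ _, hp⟩ : p ∈ univ ×ˢ U)) (ball_mem_nhds p one_pos))
  have h1 : ∀ y : ℂ × E n, y.2 ∈ U → ∀ ζ : ℂ, HasFDerivAt (fun y : ℂ × E n => q (y.1 - ζ, y.2))
      (fderiv ℝ q (y.1 - ζ, y.2)) y := fun y hy ζ => by
    have e1 : (fun y : ℂ × E n => q (y.1 - ζ, y.2)) = fun y => q (y - (ζ, 0)) := by
      funext y
      exact congrArg q (Prod.ext rfl (sub_zero _).symm)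
    have e2 : (y.1 - ζ, y.2) = y - (ζ, 0) := Prod.ext rfl (sub_zero _).symm
    rw [e1, hasFDerivAt_comp_sub, ← e2]
    exact ((ctb_at hU hq (p := (y.1 - ζ, y.2)) hy).differentiableAt one_ne_zero).hasFDerivAt
  have h2 : ∀ y ∈ closedBall p ε, ‖y.1‖ + 2 ≤ ‖p.1‖ + 3 := fun y hy => by
    have a1 := norm_le_norm_add_norm_sub' y.1 p.1
    have a2 : ‖y.1 - p.1‖ ≤ ‖y - p‖ := norm_fst_le (y - p)
    have a3 := mem_ball_iff_norm.1 (h0 hy).2
    linarith
  have h3 : ContinuousOn (fun r : (ℂ × E n) × ℂ => fderiv ℝ q (r.1.1 - r.2, r.1.2))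
      (closedBall p ε ×ˢ closedBall 0 (‖p.1‖ + 3)) :=
    (hq.continuousOn_fderiv_of_isOpen (isOpen_univ.prod hU) le_rfl).comp (by fun_prop)
      fun r hr => ⟨mem_univ _, (h0 hr.1).1.2⟩
  obtain ⟨C, hC⟩ := ((isCompact_closedBall p ε).prod
    (isCompact_closedBall (0 : ℂ) (‖p.1‖ + 3))).exists_bound_of_continuousOn h3
  have h4 := P136.TInt_int (ctb_cont hU hq hp p.1) fun ζ hζ => ctb_zero hU hs hp hζ
  have h6 : ∀ y : ℂ × E n, y.2 ∈ U → Continuous fun ζ : ℂ => q (y.1 - ζ, y.2) := fun y hy =>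
    hq.continuousOn.comp_continuous (by fun_prop) fun _ => ⟨mem_univ _, hy⟩
  have h5 := hasFDerivAt_integral_of_dominated_of_fderiv_le (μ := volume) (𝕜 := ℝ)
    (F := fun (y : ℂ × E n) (ζ : ℂ) => (1 / (2 * Real.pi * ζ) : ℂ) • q (y.1 - ζ, y.2))
    (F' := fun y (ζ : ℂ) => (1 / (2 * Real.pi * ζ) : ℂ) • fderiv ℝ q (y.1 - ζ, y.2))
    (closedBall_mem_nhds p hε)
    (mem_of_superset (closedBall_mem_nhds p hε) fun y hy => P136.TInt_meas (h6 y (h0 hy).1.2))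
    (P136.TInt_int (h6 p hp) (R := ‖p.1‖ + 1) fun ζ hζ => hs _ _ hp (by
      have := norm_sub_norm_le ζ p.1
      rw [norm_sub_rev] at this
      linarith))
    (P136.TInt_meas (ctb_cont hU hq hp p.1))
    (ae_of_all _ fun ζ y hy => P136.TInt_bd (fun hζ => hC (y, ζ) ⟨hy, hζ⟩)
      fun hζ => ctb_zero hU hs (h0 hy).1.2 ((h2 y hy).trans hζ))
    (P136.TInt_bint (‖p.1‖ + 3) C)
    (ae_of_all _ fun ζ y hy => (h1 y (h0 hy).1.2 ζ).fun_const_smul
      (1 / (2 * Real.pi * ζ) : ℂ))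
  refine ⟨h4.apply_continuousLinearMap v, ?_⟩
  exact (DFunLike.congr_fun h5.fderiv v).trans (ContinuousLinearMap.integral_apply h4 v)

open MeasureTheory in
theorem ct_param {q : ℂ × E n → E n} {U : Set (E n)} (hU : IsOpen U)
    (hq : ContDiffOn ℝ 1 q (univ ×ˢ U)) (hs : ∀ z s, s ∈ U → 1 ≤ ‖z‖ → q (z, s) = 0)
    (hl : ∀ p, p.2 ∈ U → Lin q p) :
    ContDiffOn ℝ 1 (fun p : ℂ × E n => CT (fun z => q (z, p.2)) p.1) (univ ×ˢ U) ∧
      ∀ p : ℂ × E n, p.2 ∈ U → Lin (fun p : ℂ × E n => CT (fun z => q (z, p.2)) p.1) p ∧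
        db (fun p : ℂ × E n => CT (fun z => q (z, p.2)) p.1) p = q p := by
  refine ⟨?_, fun p hp => ⟨fun b => ?_, ?_⟩⟩
  · have h := contDiffOn_convolution_right_with_param (n := 1) (μ := volume)
      (ContinuousLinearMap.lsmul ℝ ℂ : ℂ →L[ℝ] E n →L[ℝ] E n) (g := fun s z => q (z, s)) hU
      (isCompact_closedBall (0 : ℂ) 1) (fun s z h1 h2 => hs z s h1 (le_of_lt (by simpa using h2)))
      ctb_li (hq.comp (contDiff_snd.prodMk contDiff_fst).contDiffOn fun r hr => ⟨hr.2, hr.1⟩)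
    exact h.comp (contDiff_snd.prodMk contDiff_fst).contDiffOn fun r hr => ⟨hr.2, hr.1⟩
  · rw [(ctb_der hU hq hs hp _).2, (ctb_der hU hq hs hp _).2, ← integral_smul]
    refine integral_congr_ae (ae_of_all _ fun ζ => ?_)
    exact (congrArg _ (hl (p.1 - ζ, p.2) hp b)).trans (smul_comm _ _ _)
  · obtain ⟨i1, d1⟩ := ctb_der hU hq hs hp (1, 0)
    obtain ⟨i2, d2⟩ := ctb_der hU hq hs hp (I, 0)
    have i3 : Integrable fun ζ : ℂ => I • (1 / (2 * Real.pi * ζ) : ℂ) •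
        fderiv ℝ q (p.1 - ζ, p.2) (I, 0) := i2.smul I
    have h1 : ContDiff ℝ 1 fun ζ : ℂ => q (p.1 - ζ, p.2) :=
      hq.comp_contDiff (by fun_prop) fun _ => ⟨mem_univ _, hp⟩
    have h2 := P136.cauchy_pompeiu _ h1
      (HasCompactSupport.intro (isCompact_closedBall 0 (‖p.1‖ + 1)) fun ζ hζ => hs _ _ hp (by
        have a1 := norm_sub_norm_le ζ p.1
        have a2 : ‖p.1‖ + 1 < ‖ζ‖ := by simpa using hζ
        rw [norm_sub_rev] at a1
        linarith))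
    have h3 : ∀ ζ v : ℂ, fderiv ℝ (fun ζ : ℂ => q (p.1 - ζ, p.2)) ζ v =
        -fderiv ℝ q (p.1 - ζ, p.2) (v, 0) := fun ζ v => by
      have a0 : HasFDerivAt (fun ζ : ℂ => (p.1 - ζ, p.2))
          ((-ContinuousLinearMap.id ℝ ℂ).prod 0) ζ :=
        ((hasFDerivAt_id ζ).const_sub p.1).prodMk (hasFDerivAt_const p.2 ζ)
      have a1 := (HasFDerivAt.comp ζ (f := fun ζ : ℂ => (p.1 - ζ, p.2))
        ((ctb_at hU hq (p := (p.1 - ζ, p.2)) hp).differentiableAt one_ne_zero).hasFDerivAt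
        a0).fderiv
      refine (DFunLike.congr_fun a1 v).trans ?_
      rw [← map_neg, Prod.neg_mk, neg_zero]
      rfl
    rw [sub_zero] at h2
    rw [db, d1, d2, ← integral_smul, ← integral_add i1 i3, ← neg_neg (q p), ← h2, ← integral_neg]
    refine integral_congr_ae (ae_of_all _ fun ζ => ?_)
    simp only [h3]
    rw [smul_comm I, ← smul_add, ← smul_neg, smul_neg I, ← neg_add, neg_neg]

end Vale.Agent.P272
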