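import Vale.Agent.P272.Lin

/-! P272 CorA (task; part of Cor). Helper names start with `cora_`.
Plan. `exists_min`: the ratio `q p = μ p (chart p p) / ‖det (Γ p (chart p p))‖` equals the ratio computed in any chart at `p` (`compat`, `det_mul'`, `norm_det_star`; the determinants are nonzero), so it is continuous and positive; minimum on the compact space. `entire`: for `ε` with `ε^n < c` take `m`, `s`; the metric `ε g₀` and the volume form `(ε^n / s) μ` satisfy the hypotheses of `schwarz_vol` (`log` changes by a constant; `LinearMap.det_smul`), which at the minimum gives `c ≤ ε^n`. -/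

open Metric Set Filter Topology Complex

noncomputable section

namespace Vale.Agent.P272

variable {n : ℕ} {X : Type} [TopologicalSpace X] {A : Atl n X}

open scoped Manifold ContDiff

variable [ChartedSpace (E n) X] [IsManifold 𝓘(ℂ, E n) ω X] [T2Space X] [CompactSpace X]

omit [IsManifold 𝓘(ℂ, E n) ω X] [T2Space X] [CompactSpace X] in
theorem cora_pos (g : HermMetric n X) (x : X) {y : E n} (hy : y ∈ (chartAt (E n) x).target) :
    0 < ‖(g.Γ x y).det‖ := by
  have hi : Function.Injective (g.Γ x y) := by
    refine (injective_iff_map_eq_zero _).2 fun w hw => ?_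
    by_contra h
    have := g.pos x y hy w h
    rw [qf, hw, inner_zero_right, Complex.zero_re] at this
    exact lt_irrefl _ this
  exact norm_pos_iff.2 (det_ne (ContinuousLinearMap.isUnit_iff_bijective.2
    ⟨hi, (LinearMap.injective_iff_surjective (f := (g.Γ x y : E n →ₗ[ℂ] E n))).1 hi⟩))

omit [IsManifold 𝓘(ℂ, E n) ω X] [T2Space X] [CompactSpace X] in
theorem cora_eq (g : HermMetric n X) (m : VolForm n X) (x p : X)
    (hp : p ∈ (chartAt (E n) x).source) :
    m.μ p (chartAt (E n) p p) / ‖(g.Γ p (chartAt (E n) p p)).det‖ =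
      m.μ x (chartAt (E n) x p) / ‖(g.Γ x (chartAt (E n) x p)).det‖ := by
  have h0 := mem_chart_source (E n) p
  have h1 := cora_pos g p ((chartAt (E n) p).map_source h0)
  have h2 := cora_pos g x ((chartAt (E n) x).map_source hp)
  rw [g.compat x p p hp h0, det_mul', det_mul', norm_mul, norm_mul, norm_det_star] at h1
  rw [g.compat x p p hp h0, m.compat x p p hp h0, det_mul', det_mul', norm_mul, norm_mul,
    norm_det_star]
  have h3 : ‖(jac n X x p p).det‖ ≠ 0 := fun h => by
    rw [h, mul_zero] at h1
    exact lt_irrefl _ h1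
  field_simp

theorem exists_min [Nonempty X] (g : HermMetric n X) (m : VolForm n X) : ∃ s : ℝ, 0 < s ∧
    VolGe m s g ∧ ∃ p, 0 < ‖(g.Γ p (chartAt (E n) p p)).det‖ ∧
      m.μ p (chartAt (E n) p p) = s * ‖(g.Γ p (chartAt (E n) p p)).det‖ := by
  have hc : Continuous fun p : X =>
      m.μ p (chartAt (E n) p p) / ‖(g.Γ p (chartAt (E n) p p)).det‖ := by
    refine continuous_iff_continuousAt.2 fun x => ?_
    have h0 := mem_chart_source (E n) x
    have h1 := (chartAt (E n) x).map_source h0
    have h2 := (chartAt (E n) x).open_target.mem_nhds h1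
    have h3 := (chartAt (E n) x).continuousAt h0
    have h4 : ContinuousAt (fun p : X => m.μ x (chartAt (E n) x p) /
        ‖(g.Γ x (chartAt (E n) x p)).det‖) x :=
      (ContinuousAt.comp (f := chartAt (E n) x)
        ((m.smooth x).continuousOn.continuousAt h2) h3).div
        (ContinuousLinearMap.continuous_det.continuousAt.comp (ContinuousAt.comp
          (f := chartAt (E n) x) ((g.smooth x).continuousOn.continuousAt h2) h3)).norm
        (cora_pos g x h1).ne'
    refine h4.congr ?_
    filter_upwards [(chartAt (E n) x).open_source.mem_nhds h0] with p hp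
    exact (cora_eq g m x p hp).symm
  obtain ⟨p, -, hp⟩ := isCompact_univ.exists_isMinOn univ_nonempty hc.continuousOn
  have h1 := (chartAt (E n) p).map_source (mem_chart_source (E n) p)
  have h2 := cora_pos g p h1
  refine ⟨_, div_pos (m.pos p _ h1) h2, fun x y hy => ?_, p, h2, (div_mul_cancel₀ _ h2.ne').symm⟩
  have h3 : m.μ p (chartAt (E n) p p) / ‖(g.Γ p (chartAt (E n) p p)).det‖ ≤ _ :=
    hp (mem_univ ((chartAt (E n) x).symm y))
  beta_reduce at h3
  rw [cora_eq g m x _ ((chartAt (E n) x).map_target hy), (chartAt (E n) x).right_inv hy] at h3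
  exact (le_div_iff₀ (cora_pos g x hy)).1 h3

end Vale.Agent.P272
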