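import Vale.Agent.P272.Main
import Vale.Agent.P272.CorA

/-! P272 Cor (task). Helper names start with `cor_`.
Plan. `exists_min`: the ratio `q p = μ p (chart p p) / ‖det (Γ p (chart p p))‖` equals the ratio computed in any chart at `p` (`compat`, `det_mul'`, `norm_det_star`; the determinants are nonzero), so it is continuous and positive; minimum on the compact space. `entire`: for `ε` with `ε^n < c` take `m`, `s`; the metric `ε g₀` and the volume form `(ε^n / s) μ` satisfy the hypotheses of `schwarz_vol` (`log` changes by a constant; `LinearMap.det_smul`), which at the minimum gives `c ≤ ε^n`. -/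

open Metric Set Filter Topology Complex

noncomputable section

namespace Vale.Agent.P272

variable {n : ℕ} {X : Type} [TopologicalSpace X] {A : Atl n X}

theorem cor_qf (c : ℝ) (Γ : L n) (w : E n) : qf ((c : ℂ) • Γ) w = c * qf Γ w := by
  simp only [qf, ContinuousLinearMap.smul_apply, inner_smul_right, Complex.re_ofReal_mul]

theorem cor_det {c : ℝ} (hc : 0 < c) (Γ : L n) : ‖((c : ℂ) • Γ).det‖ = c ^ n * ‖Γ.det‖ := by
  have h : ((c : ℂ) • Γ).det = (c : ℂ) ^ n * Γ.det := by
    have h1 := LinearMap.det_smul (c : ℂ) (Γ : E n →ₗ[ℂ] E n)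
    rw [finrank_euclideanSpace_fin] at h1
    exact h1
  rw [h, norm_mul, norm_pow, Complex.norm_real, Real.norm_of_nonneg hc.le]

theorem cor_levi {u v : E n → ℝ} {y : E n} (c : ℝ) (h : u =ᶠ[𝓝 y] fun z => c + v z) (a : E n) :
    levi u y a = levi v y a := by
  have h1 : fderiv ℝ u =ᶠ[𝓝 y] fderiv ℝ v := by
    refine h.fderiv.trans (Eventually.of_forall fun z => ?_)
    exact fderiv_const_add c
  simp only [levi, h1.fderiv_eq]

open scoped Manifold ContDiff

variable [ChartedSpace (E n) X]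

/-- A constant multiple of a metric. -/
def cor_met (g : HermMetric n X) {c : ℝ} (hc : 0 < c) : HermMetric n X where
  Γ x y := (c : ℂ) • g.Γ x y
  smooth x := (g.smooth x).const_smul (c : ℂ)
  sa x y hy := by
    refine IsSelfAdjoint.smul ?_ (g.sa x y hy)
    exact Complex.conj_ofReal c
  pos x y hy a ha := by
    rw [cor_qf]
    exact mul_pos hc (g.pos x y hy a ha)
  compat x x' p hp hp' := by
    rw [g.compat x x' p hp hp', mul_smul_comm, smul_mul_assoc]

/-- A constant multiple of a volume form. -/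
def cor_vol (m : VolForm n X) {c : ℝ} (hc : 0 < c) : VolForm n X where
  μ x y := c * m.μ x y
  smooth x := contDiffOn_const.mul (m.smooth x)
  pos x y hy := mul_pos hc (m.pos x y hy)
  compat x x' p hp hp' := by
    rw [m.compat x x' p hp hp', mul_assoc]

variable [IsManifold 𝓘(ℂ, E n) ω X] [T2Space X] [CompactSpace X]

theorem entire [Nonempty X] (hn : 0 < n) (g₀ : HermMetric n X)
    (h : ∀ ε : ℝ, 0 < ε → ∃ m : VolForm n X, CurvLe m ε g₀) :
    ∃ f : ℂ → X, MDifferentiable 𝓘(ℂ, ℂ) 𝓘(ℂ, E n) f ∧ ∃ z w, f z ≠ f w := by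
  by_contra hcon
  have hy : ∀ f : ℂ → X, MDifferentiable 𝓘(ℂ, ℂ) 𝓘(ℂ, E n) f → ∀ z w, f z = f w := by
    intro f hf z w
    by_contra hne
    exact hcon ⟨f, hf, z, w, hne⟩
  obtain ⟨c, hc, hS⟩ := schwarz_vol hn hy g₀
  obtain ⟨ε, hε, hεc⟩ : ∃ ε : ℝ, 0 < ε ∧ ε ^ n < c := by
    refine ⟨min 1 (c / 2), lt_min one_pos (half_pos hc), ?_⟩
    have h0 : 0 ≤ min 1 (c / 2) := (lt_min one_pos (half_pos hc)).le
    have h1 := pow_le_of_le_one h0 (min_le_left _ _) hn.ne'
    have h2 := min_le_right 1 (c / 2)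
    linarith
  obtain ⟨m, hm⟩ := h ε hε
  obtain ⟨s, hs, hv, p, hp, hp'⟩ := exists_min g₀ m
  have hk : 0 < ε ^ n / s := div_pos (pow_pos hε n) hs
  have h1 : CurvLe (cor_vol m hk) 1 (cor_met g₀ hε) := by
    intro x y hy a
    have e1 : (fun y => Real.log ((cor_vol m hk).μ x y)) =ᶠ[𝓝 y]
        fun z => Real.log (ε ^ n / s) + Real.log (m.μ x z) := by
      filter_upwards [(chartAt (E n) x).open_target.mem_nhds hy] with z hz
      exact Real.log_mul hk.ne' (m.pos x z hz).ne'
    rw [cor_levi _ e1, one_mul]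
    exact (hm x y hy a).trans (cor_qf ε _ a).ge
  have h2 : VolGe (cor_vol m hk) 1 (cor_met g₀ hε) := by
    intro x y hy
    have e1 : ‖((cor_met g₀ hε).Γ x y).det‖ = ε ^ n * ‖(g₀.Γ x y).det‖ := cor_det hε _
    have e2 : (cor_vol m hk).μ x y = ε ^ n / s * m.μ x y := rfl
    have e3 : ε ^ n * ‖(g₀.Γ x y).det‖ = ε ^ n / s * (s * ‖(g₀.Γ x y).det‖) := by
      field_simp
    rw [e1, e2, one_mul, e3]
    exact mul_le_mul_of_nonneg_left (hv x y hy) hk.le
  have h3 := hS _ _ h1 h2 p _ (mem_chart_target (E n) p)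
  have e2 : (cor_vol m hk).μ p (chartAt (E n) p p) =
      ε ^ n * ‖(g₀.Γ p (chartAt (E n) p p)).det‖ := by
    change ε ^ n / s * m.μ p (chartAt (E n) p p) = _
    rw [hp']
    field_simp
  rw [e2] at h3
  exact absurd (le_of_mul_le_mul_right h3 hp) (not_le.2 hεc)

end Vale.Agent.P272
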