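import Vale.Agent.P272.Loc

/-! P272 JCen (task; part of JEst). Helper names start with `jcen_`.
Plan. `jf_gram` in the chart `ch`, `vol`, `bd`, `log_det`, `det_le_norm`; `Real.circleAverage_mono..` with `jf_int`. `J_rad`: `circleAverage` is an interval integral of `jf (circleMap 0 r θ)`; compare the points `circleMap 0 r θ` and `circleMap 0 r' θ` by `loc` (radial segment), `lip`, `ld`, `log_det`. `J_cen`: `log ‖det V‖^2 = Jf + avg jf - ℓ ≥ Jf - 1 - ℓ` (`jf_eq`), `det_le`, take `n`-th roots (`exp`, `log`, `pow_le_pow_left₀`), `(n!)^(2/n) ≤ (n!)^2`, `exp (1 / n) ≤ 3`, `1 + x ≤ exp x`. -/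

open Metric Set Filter Topology Complex

noncomputable section

namespace Vale.Agent.P272

variable {n : ℕ} {X : Type} [TopologicalSpace X] {A : Atl n X}

theorem jcen_num (hn : 0 < n) {D s J l : ℝ} (hD : 0 < D) (hs : 0 ≤ s)
    (h1 : D ≤ (n.factorial : ℝ) ^ 2 * s ^ n) (h2 : J - 1 - l ≤ Real.log D) :
    n * (cn n * Real.exp (-l / n) * (1 + J / n)) ≤ s := by
  have hn1 : (1 : ℝ) ≤ n := by exact_mod_cast hn
  have hf : (1 : ℝ) ≤ (n.factorial : ℝ) ^ 2 := one_le_pow₀ (by exact_mod_cast n.factorial_pos)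
  have h3 : Real.exp ((J - 1 - l) / n) ≤ (n.factorial : ℝ) ^ 2 * s := by
    refine le_of_pow_le_pow_left₀ hn.ne' (by positivity) ?_
    rw [← Real.exp_nat_mul, mul_div_cancel₀ _ (by positivity), mul_pow]
    exact ((Real.le_log_iff_exp_le hD).1 h2).trans (h1.trans
      (mul_le_mul_of_nonneg_right (le_self_pow₀ hf hn.ne') (by positivity)))
  have h4 : Real.exp (1 / n) ≤ 3 :=
    (Real.exp_le_exp.2 ((div_le_one (by positivity)).2 hn1)).trans Real.exp_one_lt_three.le
  have h5 : Real.exp (-l / n) * (1 + J / n) ≤ 3 * ((n.factorial : ℝ) ^ 2 * s) :=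
    calc _ ≤ Real.exp (-l / n) * Real.exp (J / n) :=
          mul_le_mul_of_nonneg_left (by linarith [Real.add_one_le_exp (J / n)]) (by positivity)
      _ = Real.exp (1 / n) * Real.exp ((J - 1 - l) / n) := by
          rw [← Real.exp_add, ← Real.exp_add]
          exact congrArg _ (by ring)
      _ ≤ _ := mul_le_mul h4 h3 (by positivity) (by norm_num)
  have e : n * (cn n * Real.exp (-l / n) * (1 + J / n)) =
      Real.exp (-l / n) * (1 + J / n) / (3 * (n.factorial : ℝ) ^ 2) := by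
    rw [cn]
    field_simp
  rw [e, div_le_iff₀ (by positivity)]
  linarith

variable [T2Space X] {g : Met A} (v : Vol g)

theorem Vol.J_cen (hn : 0 < n) : ∃ η₀ : ℝ, 0 < η₀ ∧ ∀ (F : ℂ × E n → X) (r Λ η : ℝ) (j : Fin A.N),
    g.Gd F r Λ η → η ≤ η₀ → A.In j 4 (F (0, 0)) →
      n * (cn n * Real.exp (-v.ℓ j (A.e j (F (0, 0))) / n) * (1 + v.Jf F r / n)) ≤
        ∑ i, ‖A.fr j F 0 (eb i)‖ ^ 2 := by
  obtain ⟨C, hC, h⟩ := log_det n
  refine ⟨1 / C, by positivity, fun F r Λ η j hF hη hj => ?_⟩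
  have hr : 0 ≤ r := by linarith [hF.lo]
  have h0 : (0 : ℂ) ∈ closedBall (0 : ℂ) r := mem_closedBall_self hr
  have h1 : -1 ≤ Real.circleAverage (v.jf F) 0 r := by
    rw [← Real.circleAverage_const (-1 : ℝ) 0 r]
    refine Real.circleAverage_mono (circleIntegrable_const _ _ _) (v.jf_int hr hF.bs)
      fun z hz => ?_
    rw [abs_of_nonneg hr, mem_sphere_zero_iff_norm] at hz
    have h2 := A.in_ch (F (z, 0)) (a := 4) (by norm_num)
    have h3 := hF.tol z hz
    have h4 := (abs_le.1 (h _ (h3.trans hF.half)).2).1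
    have h5 := mul_le_mul_of_nonneg_left (h3.trans hη) (by linarith : 0 ≤ C)
    rw [mul_one_div_cancel (by positivity)] at h5
    rw [v.jf_gram hF.bs (mem_closedBall_zero_iff.2 hz.le) h2]
    linarith [v.vol (A.ch (F (z, 0))) _ h2.2]
  refine jcen_num hn (pow_pos (norm_pos_iff.2 (det_ne ((hF.bs 0 h0).2 j hj.1))) 2)
    (Finset.sum_nonneg fun i _ => sq_nonneg _) (det_le _) ?_
  rw [Vol.Jf, v.jf_eq hF.bs h0 hj]
  linarith

end Vale.Agent.P272
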