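import Vale.Agent.P272.Loc

/-! P272 JRad (task; part of JEst). Helper names start with `jrad_`.
Plan. `jf_gram` in the chart `ch`, `vol`, `bd`, `log_det`, `det_le_norm`; `Real.circleAverage_mono..` with `jf_int`. `J_rad`: `circleAverage` is an interval integral of `jf (circleMap 0 r θ)`; compare the points `circleMap 0 r θ` and `circleMap 0 r' θ` by `loc` (radial segment), `lip`, `ld`, `log_det`. `J_cen`: `log ‖det V‖^2 = Jf + avg jf - ℓ ≥ Jf - 1 - ℓ` (`jf_eq`), `det_le`, take `n`-th roots (`exp`, `log`, `pow_le_pow_left₀`), `(n!)^(2/n) ≤ (n!)^2`, `exp (1 / n) ≤ 3`, `1 + x ≤ exp x`. -/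

open Metric Set Filter Topology Complex

noncomputable section

namespace Vale.Agent.P272

variable {n : ℕ} {X : Type} [TopologicalSpace X] {A : Atl n X}

variable [T2Space X] {g : Met A} (v : Vol g)

theorem jrad_avg {f : ℂ → ℝ} {r r' c : ℝ} (h : CircleIntegrable f 0 r)
    (h' : CircleIntegrable f 0 r') (hle : ∀ θ, f (circleMap 0 r' θ) ≤ f (circleMap 0 r θ) + c) :
    Real.circleAverage f 0 r' ≤ Real.circleAverage f 0 r + c := by
  have hp : 0 < 2 * Real.pi := Real.two_pi_pos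
  have e := intervalIntegral.integral_mono_on hp.le h' (IntervalIntegrable.add h
    (intervalIntegrable_const (c := c))) fun θ _ => hle θ
  rw [intervalIntegral.integral_add h intervalIntegrable_const, intervalIntegral.integral_const,
    sub_zero, smul_eq_mul] at e
  rw [Real.circleAverage_def, Real.circleAverage_def, smul_eq_mul, smul_eq_mul]
  calc _ ≤ (2 * Real.pi)⁻¹ * ((∫ θ in (0 : ℝ)..2 * Real.pi, f (circleMap 0 r θ)) +
        2 * Real.pi * c) := mul_le_mul_of_nonneg_left e (inv_pos.2 hp).le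
    _ = _ := by rw [mul_add, ← mul_assoc _ _ c, inv_mul_cancel₀ hp.ne', one_mul]

theorem Vol.J_rad : ∃ C : ℝ, 1 ≤ C ∧ ∀ (F : ℂ × E n → X) (r Λ η r' η' : ℝ), g.Gd F r Λ η →
    0 < r' → r' ≤ r → g.C * Λ * (r - r') < 1 → η ≤ η' → η' ≤ 1 / 2 →
    (∀ z, ‖z‖ = r' → ‖g.Gr F z - 1‖ ≤ η') → v.Jf F r - C * (η' + Λ * (r - r')) ≤ v.Jf F r' := by
  obtain ⟨C₀, hC₀, hld⟩ := log_det n
  have hv := v.one
  have hg := g.one
  refine ⟨(v.C + g.C) * g.C + 2 * C₀, by nlinarith, fun F r Λ η r' η' hd h0 hr hs hη hη' ht => ?_⟩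
  have hΛ : 0 ≤ Λ := zero_le_one.trans hd.one
  have hr0 : 0 ≤ r := h0.le.trans hr
  have hη0 : 0 ≤ η' := hd.nn.trans hη
  have hx : 0 ≤ Λ * (r - r') := mul_nonneg hΛ (sub_nonneg.2 hr)
  have key : ∀ θ, v.jf F (circleMap 0 r' θ) ≤ v.jf F (circleMap 0 r θ) +
      ((v.C + g.C) * g.C + 2 * C₀) * (η' + Λ * (r - r')) := by
    intro θ
    have n1 : ‖circleMap 0 r θ‖ = r := by rw [norm_circleMap_zero, abs_of_nonneg hr0]
    have n2 : ‖circleMap 0 r' θ‖ = r' := by rw [norm_circleMap_zero, abs_of_pos h0]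
    have n3 : ‖circleMap 0 r' θ - circleMap 0 r θ‖ = r - r' := by
      rw [circleMap_zero, circleMap_zero, ← sub_mul, norm_mul, Complex.norm_exp_ofReal_mul_I,
        mul_one, ← Complex.ofReal_sub, Complex.norm_real, Real.norm_eq_abs, abs_sub_comm,
        abs_of_nonneg (sub_nonneg.2 hr)]
    generalize circleMap 0 r θ = z at n1 n3 ⊢
    generalize circleMap 0 r' θ = z' at n2 n3 ⊢
    have m1 : z ∈ closedBall (0 : ℂ) r := mem_closedBall_zero_iff.2 n1.le
    have m2 : z' ∈ closedBall (0 : ℂ) r := mem_closedBall_zero_iff.2 (n2.le.trans hr)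
    have i1 : A.In (A.ch (F (z, 0))) 4 (F (z, 0)) := Atl.in_ch _ (by norm_num)
    obtain ⟨i2, hl⟩ := g.loc (f := ctr F) (j := A.ch (F (z, 0))) (z₁ := z) (z₂ := z') hΛ
      (fun w hw => by
        have hw' := (convex_closedBall (0 : ℂ) r).segment_subset m1 m2 hw
        exact ⟨(hd.bs w hw').1.ctr.holAt, hd.sp w (mem_closedBall_zero_iff.1 hw')⟩)
      (Atl.in_ch _ (by norm_num)) (by rwa [n3])
    rw [n3] at hl
    change A.In _ 4 (F (z', 0)) at i2
    change ‖A.e _ (F (z', 0)) - A.e _ (F (z, 0))‖ ≤ _ at hl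
    rw [v.jf_gram hd.bs m1 i1, v.jf_gram hd.bs m2 i2]
    have a1 := (abs_le.1 (v.lip (A.ch (F (z, 0))) _ _ i2.2 i1.2)).2
    have a2 := (abs_le.1 (g.ld (A.ch (F (z, 0))) _ _ i2.2 i1.2)).1
    have t1 := hd.tol z n1
    have t2 := ht z' n2
    have a3 := (abs_le.1 (hld _ (t1.trans hd.half)).2).1
    have a4 := (abs_le.1 (hld _ (t2.trans hη')).2).2
    have b1 := mul_le_mul_of_nonneg_left hl (zero_le_one.trans hv)
    have b2 := mul_le_mul_of_nonneg_left hl (zero_le_one.trans hg)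
    have b3 := mul_le_mul_of_nonneg_left (t1.trans hη) (zero_le_one.trans hC₀)
    have b4 := mul_le_mul_of_nonneg_left t2 (zero_le_one.trans hC₀)
    have b5 : 0 ≤ (v.C + g.C) * g.C * η' := by positivity
    have b6 : 0 ≤ C₀ * (Λ * (r - r')) := by positivity
    linarith
  have e := jrad_avg (v.jf_int hr0 hd.bs)
    (v.jf_int h0.le (hd.bs.mono (closedBall_subset_closedBall hr))) key
  rw [Vol.Jf, Vol.Jf]
  linarith

end Vale.Agent.P272
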