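import Vale.Agent.P272.Loc

/-! P272 JUp (task; part of JEst). Helper names start with `jup_`.
Plan. `jf_gram` in the chart `ch`, `vol`, `bd`, `log_det`, `det_le_norm`; `Real.circleAverage_mono..` with `jf_int`. `J_rad`: `circleAverage` is an interval integral of `jf (circleMap 0 r θ)`; compare the points `circleMap 0 r θ` and `circleMap 0 r' θ` by `loc` (radial segment), `lip`, `ld`, `log_det`. `J_cen`: `log ‖det V‖^2 = Jf + avg jf - ℓ ≥ Jf - 1 - ℓ` (`jf_eq`), `det_le`, take `n`-th roots (`exp`, `log`, `pow_le_pow_left₀`), `(n!)^(2/n) ≤ (n!)^2`, `exp (1 / n) ≤ 3`, `1 + x ≤ exp x`. -/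

open Metric Set Filter Topology Complex

noncomputable section

namespace Vale.Agent.P272

variable {n : ℕ} {X : Type} [TopologicalSpace X] {A : Atl n X}

theorem jup_log (T : L n) {M : ℝ} (h1 : 1 ≤ M) (h : ‖T‖ ≤ M) :
    Real.log ‖T.det‖ ≤ n.factorial + n * M := by
  have a0 : (1 : ℝ) ≤ n.factorial := Nat.one_le_cast.2 n.factorial_pos
  have a1 : ‖T.det‖ ≤ n.factorial * M ^ n := (det_le_norm T).trans (by gcongr)
  rcases (norm_nonneg T.det).eq_or_lt with h0 | h0
  · rw [← h0, Real.log_zero]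
    positivity
  · refine (Real.log_le_log h0 a1).trans ?_
    rw [Real.log_mul (by positivity) (by positivity), Real.log_pow]
    have a2 := Real.log_le_self (zero_le_one.trans a0)
    have a3 := Real.log_le_self (zero_le_one.trans h1)
    gcongr

variable [T2Space X] {g : Met A} (v : Vol g)

theorem Vol.J_up : ∃ C : ℝ, 1 ≤ C ∧ ∀ (F : ℂ × E n → X) (r Λ η M : ℝ), g.Gd F r Λ η → 1 ≤ M →
    ‖g.Gr F 0‖ ≤ M → v.Jf F r ≤ C * M := by
  obtain ⟨D, hD, hl⟩ := log_det n
  have a0 : (1 : ℝ) ≤ n.factorial := Nat.one_le_cast.2 n.factorial_pos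
  have a1 : (0 : ℝ) ≤ n := Nat.cast_nonneg n
  have a2 := v.one
  refine ⟨v.C + n.factorial + n + D, by linarith, fun F r Λ η M h hM h0 => ?_⟩
  have hr : 0 ≤ r := le_trans (by norm_num) h.lo
  have h4 : ∀ z, A.In (A.ch (F (z, 0))) 4 (F (z, 0)) := fun z => Atl.in_ch _ (by norm_num)
  have b1 : v.jf F 0 ≤ v.C + (n.factorial + n * M) := by
    rw [v.jf_gram h.bs (mem_closedBall_self hr) (h4 0)]
    linarith [v.bd (A.ch (F (0, 0))) _ (h4 0).2, jup_log _ hM h0]
  have b2 : -D ≤ Real.circleAverage (v.jf F) 0 r := by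
    rw [← Real.circleAverage_const (-D) 0 r]
    refine Real.circleAverage_mono (circleIntegrable_const _ _ _) (v.jf_int hr h.bs)
      fun z hz => ?_
    rw [abs_of_nonneg hr] at hz
    rw [v.jf_gram h.bs (sphere_subset_closedBall hz) (h4 z)]
    have c1 := (h.tol z (mem_sphere_zero_iff_norm.1 hz)).trans h.half
    have c2 := (abs_le.1 (hl _ c1).2).1
    have c3 := mul_le_mul_of_nonneg_left c1 (zero_le_one.trans hD)
    linarith [v.vol (A.ch (F (z, 0))) _ (h4 z).2]
  have b3 := mul_le_mul_of_nonneg_left hM (by linarith : 0 ≤ v.C + n.factorial + D)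
  rw [Vol.Jf]
  linarith

end Vale.Agent.P272
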