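import Vale.Agent.P272.Defs

/-! P272 Hol4 (task). Helper names start with `hol4_`.
Plan. `dslope` three times: `k s = k 0 + s k1 0 + s^2 k2 0 + s^3 k3 s` with bounds `2B/ε, 4B/ε^2, 8B/ε^3` (Schwarz: `Complex.norm_dslope_le_div_of_mapsTo_ball`, `Complex.dist_le_div_mul_dist_of_mapsTo_ball`, `Complex.differentiableOn_dslope`); the sums of `i^m` and `i^(2m)` vanish.
`deriv_re`: Cauchy formula on a circle of radius `ρ < t`: `a₁ ρ = avg φ e^{-iθ} = -2 avg (M - re φ) e^{-iθ}` (or `Complex.borelCaratheodory` files). `polar`: polarisation `inner_map_polarization`-like identity, `opNorm_le_of_unit_norm`, `‖b‖^2 = ⟪b, b⟫`. -/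

open Metric Set Filter Topology Complex

noncomputable section

namespace Vale.Agent.P272

variable {n : ℕ}

theorem hol4_maps {V : Type} [NormedAddCommGroup V] {k : ℂ → V} {ε B : ℝ}
    (hB : ∀ s, ‖s‖ < ε → ‖k s - k 0‖ ≤ B) : MapsTo k (ball 0 ε) (closedBall (k 0) B) :=
  fun s hs => mem_closedBall_iff_norm.2 (hB s (mem_ball_zero_iff.1 hs))

theorem hol4_step {V : Type} [NormedAddCommGroup V] [NormedSpace ℂ V] [CompleteSpace V] {k : ℂ → V}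
    {ε B : ℝ} (hε : 0 < ε) (hk : DifferentiableOn ℂ k (ball 0 ε))
    (hB : ∀ s, ‖s‖ < ε → ‖k s - k 0‖ ≤ B) :
    DifferentiableOn ℂ (dslope k 0) (ball 0 ε) ∧
      ∀ s, ‖s‖ < ε → ‖dslope k 0 s - dslope k 0 0‖ ≤ 2 * B / ε := by
  refine ⟨(Complex.differentiableOn_dslope (ball_mem_nhds 0 hε)).2 hk, fun s hs => ?_⟩
  have h1 := Complex.norm_dslope_le_div_of_mapsTo_ball hk (hol4_maps hB) (mem_ball_zero_iff.2 hs)
  have h2 := Complex.norm_dslope_le_div_of_mapsTo_ball hk (hol4_maps hB) (mem_ball_self hε)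
  calc ‖dslope k 0 s - dslope k 0 0‖ ≤ ‖dslope k 0 s‖ + ‖dslope k 0 0‖ := norm_sub_le _ _
    _ ≤ B / ε + B / ε := add_le_add h1 h2
    _ = 2 * B / ε := by ring

theorem hol4_lip {V : Type} [NormedAddCommGroup V] [NormedSpace ℂ V] {k : ℂ → V}
    {ε B : ℝ} (hk : DifferentiableOn ℂ k (ball 0 ε)) (hB : ∀ s, ‖s‖ < ε → ‖k s - k 0‖ ≤ B) {s : ℂ}
    (hs : ‖s‖ < ε) : ‖k s - k 0‖ ≤ B / ε * ‖s‖ := by
  have h := Complex.dist_le_div_mul_dist_of_mapsTo_ball hk (hol4_maps hB) (mem_ball_zero_iff.2 hs)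
  rwa [dist_eq_norm, dist_zero_right] at h

theorem hol4_eq {V : Type} [NormedAddCommGroup V] [NormedSpace ℂ V] (k : ℂ → V) (s : ℂ) :
    k s - k 0 = s • dslope k 0 s := by
  have h := sub_smul_dslope k 0 s
  rw [sub_zero] at h
  exact h.symm

theorem hol_taylor {V : Type} [NormedAddCommGroup V] [NormedSpace ℂ V] [CompleteSpace V] {k : ℂ → V}
    {ε B : ℝ} (hk : DifferentiableOn ℂ k (ball 0 ε)) (hB : ∀ s, ‖s‖ < ε → ‖k s - k 0‖ ≤ B) {s : ℂ}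
    (hs : ‖s‖ < ε) : ‖deriv k 0‖ ≤ B / ε ∧ ‖k s - k 0‖ ≤ B / ε * ‖s‖ ∧
      ‖k s - k 0 - s • deriv k 0‖ ≤ 2 * B / ε ^ 2 * ‖s‖ ^ 2 := by
  have hε : 0 < ε := (norm_nonneg s).trans_lt hs
  refine ⟨Complex.norm_deriv_le_div_of_mapsTo_ball hk (hol4_maps hB) hε, hol4_lip hk hB hs, ?_⟩
  obtain ⟨h1, h2⟩ := hol4_step hε hk hB
  have h3 := hol4_lip h1 h2 hs
  rw [hol4_eq k s, ← dslope_same, ← smul_sub, norm_smul]
  calc ‖s‖ * ‖dslope k 0 s - dslope k 0 0‖ ≤ ‖s‖ * (2 * B / ε / ε * ‖s‖) :=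
        mul_le_mul_of_nonneg_left h3 (norm_nonneg _)
    _ = 2 * B / ε ^ 2 * ‖s‖ ^ 2 := by field_simp

theorem hol4_norm_pt {δ : ℝ} (h : 0 ≤ δ) (m : Fin 4) : ‖pt δ m‖ = δ := by
  simp [pt, abs_of_nonneg h]

theorem hol4_pt (δ : ℝ) :
    pt δ 0 = δ ∧ pt δ 1 = δ * I ∧ pt δ 2 = -δ ∧ pt δ 3 = -(δ * I) := by
  refine ⟨by simp [pt], by simp [pt], by simp [pt], ?_⟩
  have h : ((3 : Fin 4) : ℕ) = 3 := rfl
  rw [pt, h, I_pow_three]
  ring

theorem hol_avg {V : Type} [NormedAddCommGroup V] [NormedSpace ℂ V] [CompleteSpace V] {k : ℂ → V}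
    {ε B δ : ℝ} (hk : DifferentiableOn ℂ k (ball 0 ε)) (hB : ∀ s, ‖s‖ < ε → ‖k s - k 0‖ ≤ B)
    (h0 : 0 < δ) (hδ : δ < ε) :
    ‖∑ m : Fin 4, (k (pt δ m) - k 0)‖ ≤ 16 * B / ε ^ 3 * δ ^ 3 := by
  have hε : 0 < ε := h0.trans hδ
  obtain ⟨h1, h2⟩ := hol4_step hε hk hB
  obtain ⟨h3, h4⟩ := hol4_step hε h1 h2
  obtain ⟨k1, hk1⟩ : ∃ k1, k1 = dslope k 0 := ⟨_, rfl⟩
  obtain ⟨k2, hk2⟩ : ∃ k2, k2 = dslope k1 0 := ⟨_, rfl⟩
  rw [← hk1, ← hk2] at h3 h4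
  have e : ∀ s : ℂ, k s - k 0 = s • k1 0 + s ^ 2 • k2 0 + s ^ 2 • (k2 s - k2 0) := by
    intro s
    have e1 := hol4_eq k s
    have e2 := hol4_eq k1 s
    rw [← hk1] at e1
    rw [← hk2] at e2
    rw [e1, eq_add_of_sub_eq e2]
    module
  have s1 : ∑ m : Fin 4, pt δ m = 0 := by
    simp only [Fin.sum_univ_four, hol4_pt]
    ring
  have s2 : ∑ m : Fin 4, pt δ m ^ 2 = 0 := by
    simp only [Fin.sum_univ_four, hol4_pt, neg_sq, mul_pow, I_sq]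
    ring
  simp only [e, Finset.sum_add_distrib, ← Finset.sum_smul, s1, s2, zero_smul, zero_add]
  have b : ∀ m : Fin 4, ‖pt δ m ^ 2 • (k2 (pt δ m) - k2 0)‖ ≤ 4 * B / ε ^ 3 * δ ^ 3 := by
    intro m
    have hm := hol4_norm_pt h0.le m
    have h5 := hol4_lip h3 h4 (s := pt δ m) (by rw [hm]; exact hδ)
    rw [norm_smul, norm_pow, hm]
    rw [hm] at h5
    calc δ ^ 2 * ‖k2 (pt δ m) - k2 0‖ ≤ δ ^ 2 * (2 * (2 * B / ε) / ε / ε * δ) :=
          mul_le_mul_of_nonneg_left h5 (sq_nonneg _)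
      _ = 4 * B / ε ^ 3 * δ ^ 3 := by
          field_simp
          ring
  calc _ ≤ ∑ m : Fin 4, ‖pt δ m ^ 2 • (k2 (pt δ m) - k2 0)‖ := norm_sum_le _ _
    _ ≤ ∑ _m : Fin 4, 4 * B / ε ^ 3 * δ ^ 3 := Finset.sum_le_sum fun m _ => b m
    _ = 16 * B / ε ^ 3 * δ ^ 3 := by
        rw [Fin.sum_univ_four]
        ring

theorem norm_pt {δ : ℝ} (h : 0 ≤ δ) (m : Fin 4) : ‖pt δ m‖ = δ :=
  hol4_norm_pt h m

theorem sum_pt_sq (v a : E n) (δ : ℝ) :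
    ∑ m : Fin 4, ‖v + pt δ m • a‖ ^ 2 = 4 * (‖v‖ ^ 2 + δ ^ 2 * ‖a‖ ^ 2) := by
  have h1 := parallelogram_law_with_norm ℂ v ((δ : ℂ) • a)
  have h2 := parallelogram_law_with_norm ℂ v (((δ : ℂ) * I) • a)
  have n1 : ‖(δ : ℂ) • a‖ ^ 2 = δ ^ 2 * ‖a‖ ^ 2 := by
    rw [norm_smul, mul_pow, norm_real, Real.norm_eq_abs, sq_abs]
  have n2 : ‖((δ : ℂ) * I) • a‖ ^ 2 = δ ^ 2 * ‖a‖ ^ 2 := by
    rw [norm_smul, mul_pow, norm_mul, norm_I, mul_one, norm_real, Real.norm_eq_abs, sq_abs]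
  simp only [Fin.sum_univ_four, hol4_pt, neg_smul, ← sub_eq_add_neg]
  linarith

theorem sum_pt_bil (D : E n →L[ℝ] E n →L[ℝ] ℝ) (a : E n) (δ : ℝ) :
    ∑ m : Fin 4, D (pt δ m • a) (pt δ m • a) = 2 * δ ^ 2 * (D a a + D (I • a) (I • a)) := by
  simp only [Fin.sum_univ_four, hol4_pt, neg_smul, mul_smul, Complex.coe_smul, map_neg, map_smul,
    neg_apply, smul_apply, smul_eq_mul]
  ring

theorem hol4_norm_le {M : ℝ} {z : ℂ} (hM : 0 < M) (hz : z.re ≤ M) : ‖z‖ ≤ ‖2 * M - z‖ := by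
  rw [← sq_le_sq₀ (norm_nonneg _) (norm_nonneg _)]
  have h : z.re * z.re ≤ (2 * M - z.re) * (2 * M - z.re) := by nlinarith
  simpa [Complex.sq_norm, normSq_apply] using h

theorem hol4_deriv {g : ℂ → ℂ} {c : ℂ} {t M : ℝ} (ht : 0 < t) (hM : 0 < M)
    (h : DifferentiableOn ℂ g (ball c t)) (hc : g c = 0) (hre : ∀ z ∈ ball c t, (g z).re ≤ M) :
    ‖deriv g c‖ ≤ 2 * M / t := by
  have hne : ∀ z ∈ ball c t, (2 * M : ℂ) - g z ≠ 0 := by
    intro z hz h0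
    have h1 := congrArg Complex.re h0
    have h2 := hre z hz
    simp at h1
    linarith
  have hw : DifferentiableOn ℂ (fun z => g z / (2 * M - g z)) (ball c t) :=
    h.div (h.const_sub _) hne
  have hm : MapsTo (fun z => g z / (2 * M - g z)) (ball c t)
      (closedBall ((fun z => g z / (2 * M - g z)) c) 1) := by
    intro z hz
    simp only [hc, zero_div, mem_closedBall_zero_iff, norm_div]
    exact div_le_one_of_le₀ (hol4_norm_le hM (hre z hz)) (norm_nonneg _)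
  have h1 := Complex.norm_deriv_le_div_of_mapsTo_ball hw hm ht
  have hg : HasDerivAt g (deriv g c) c := (h.differentiableAt (ball_mem_nhds c ht)).hasDerivAt
  have hM' : (M : ℂ) ≠ 0 := ofReal_ne_zero.2 hM.ne'
  have h2 : HasDerivAt (fun z => g z / (2 * M - g z)) (deriv g c / (2 * M)) c := by
    refine (hg.fun_div (hg.const_sub (2 * M : ℂ)) (hne c (mem_ball_self ht))).congr_deriv ?_
    rw [hc]
    field_simp
    ring
  rw [h2.deriv, norm_div, norm_mul, norm_real, Real.norm_eq_abs, abs_of_pos hM, norm_ofNat,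
    div_le_iff₀ (by positivity)] at h1
  calc ‖deriv g c‖ ≤ 1 / t * (2 * M) := h1
    _ = 2 * M / t := by ring

theorem deriv_re {φ : ℂ → ℂ} {c : ℂ} {t M : ℝ} (ht : 0 < t) (h : DifferentiableOn ℂ φ (ball c t))
    (hM : ∀ z ∈ ball c t, ‖φ z‖ ≤ M) : ‖deriv φ c‖ ≤ 2 * (M - (φ c).re) / t := by
  have h0 : (φ c).re ≤ M := (re_le_norm _).trans (hM c (mem_ball_self ht))
  refine le_of_forall_pos_le_add fun η hη => ?_
  have h1 := hol4_deriv (g := fun z => φ z - φ c) (M := M - (φ c).re + η * t / 2) ht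
    (by have : 0 < η * t / 2 := by positivity
        linarith) (h.sub_const _) (sub_self _) (fun z hz => by
      have h2 : (φ z).re ≤ M := (re_le_norm _).trans (hM z hz)
      have h3 : 0 < η * t / 2 := by positivity
      rw [sub_re]
      linarith)
  rw [deriv_sub_const] at h1
  calc ‖deriv φ c‖ ≤ 2 * (M - (φ c).re + η * t / 2) / t := h1
    _ = 2 * (M - (φ c).re) / t + η := by field_simp

theorem polar {T : L n} {κ : ℝ} (hκ : 0 ≤ κ) (h : ∀ ξ, ‖inner ℂ ξ (T ξ)‖ ≤ κ * ‖ξ‖ ^ 2) :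
    ‖T‖ ≤ 4 * κ := by
  refine ContinuousLinearMap.opNorm_le_of_re_inner_le (by positivity) fun x y hx hy => ?_
  have hb : ∀ ξ, ‖ξ‖ ≤ 2 → ‖inner ℂ (T ξ) ξ‖ ≤ 4 * κ := by
    intro ξ hξ
    rw [norm_inner_symm]
    have h1 : ‖ξ‖ ^ 2 ≤ 4 := by nlinarith [norm_nonneg ξ]
    nlinarith [h ξ]
  have hI : ‖I • y‖ = 1 := by rw [norm_smul, norm_I, hy, mul_one]
  have b1 := hb (x + y) (by linarith [norm_add_le x y])
  have b2 := hb (x - y) (by linarith [norm_sub_le x y])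
  have b3 := hb (x + I • y) (by linarith [norm_add_le x (I • y)])
  have b4 := hb (x - I • y) (by linarith [norm_sub_le x (I • y)])
  have e := inner_map_polarization' (T : E n →ₗ[ℂ] E n) x y
  simp only [ContinuousLinearMap.coe_coe] at e
  refine (RCLike.re_le_norm _).trans ?_
  rw [e, norm_div, norm_ofNat, div_le_iff₀ (by norm_num)]
  obtain ⟨p, hp⟩ : ∃ p, p = inner ℂ (T (x + y)) (x + y) := ⟨_, rfl⟩
  obtain ⟨q, hq⟩ : ∃ q, q = inner ℂ (T (x - y)) (x - y) := ⟨_, rfl⟩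
  obtain ⟨u, hu⟩ : ∃ u, u = inner ℂ (T (x + I • y)) (x + I • y) := ⟨_, rfl⟩
  obtain ⟨w, hw⟩ : ∃ w, w = inner ℂ (T (x - I • y)) (x - I • y) := ⟨_, rfl⟩
  rw [← hp] at b1
  rw [← hq] at b2
  rw [← hu] at b3
  rw [← hw] at b4
  rw [← hp, ← hq, ← hu, ← hw]
  have c1 := norm_add_le (p - q - I * u) (I * w)
  have c2 := norm_sub_le (p - q) (I * u)
  have c3 := norm_sub_le p q
  rw [norm_mul, norm_I, one_mul] at c1 c2
  linarith

end Vale.Agent.P272
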