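import Vale.Agent.P272.Defs2
import Vale.Agent.P272.Lin
import Vale.Agent.P272.Hol4

/-! P272 SExp (task). Helper names start with `sexp_`.
Plan. `nf` at `y 0` gives `a`; `h s = y s - y 0`, `Z s = (1 + a (h s)) (w s)` is holomorphic, bounded by `2 C B`, `Z 0 = w 0`, `‖Z' 0‖ ≤ c Λ`. `hol_taylor`: `‖h s‖ ≤ c δ`, `‖w s‖ ≤ c Λ`, `‖Z s - Z 0‖ ≤ c Λ δ`; `hol_avg`: `‖∑ (Z s - Z 0)‖ ≤ c δ^2`. `X s ≤ X 0 + Λ^2 x s` with `Λ^2 x s = 2 re ⟪Z 0, Γ (Z s - Z 0)⟫ + qf Γ (Z s - Z 0) + C ‖h‖^2 ‖w‖^2` (`qf_add`), `|x s| ≤ c δ`, `∑ x s ≤ c δ^2`, `exp u ≤ 1 + u + u^2` for `|u| ≤ 1` (`Real.abs_exp_sub_one_sub_id_le`). -/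

open Metric Set Filter Topology Complex

noncomputable section

namespace Vale.Agent.P272

variable {n : ℕ} {X : Type} [TopologicalSpace X] {A : Atl n X}

theorem sexp_fin {u x : Fin 4 → ℝ} {v b : ℝ} (h1 : ∀ m, u m ≤ v + x m) (h2 : ∀ m, |x m| ≤ b)
    (hb : b ≤ 1) (h3 : ∑ m, x m ≤ 5 * b ^ 2) :
    ∑ m, Real.exp (u m) ≤ 4 * (Real.exp v * (1 + 3 * b ^ 2)) := by
  have h4 : ∀ m, Real.exp (u m) ≤ Real.exp v * (1 + x m + b ^ 2) := fun m => by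
    refine (Real.exp_le_exp.2 (h1 m)).trans ?_
    rw [Real.exp_add]
    refine mul_le_mul_of_nonneg_left ?_ (Real.exp_pos v).le
    have h5 := (abs_le.1 (Real.abs_exp_sub_one_sub_id_le ((h2 m).trans hb))).2
    have h6 := sq_le_sq' (abs_le.1 (h2 m)).1 (abs_le.1 (h2 m)).2
    linarith
  refine (Finset.sum_le_sum fun m _ => h4 m).trans ?_
  rw [← Finset.mul_sum, mul_left_comm]
  refine mul_le_mul_of_nonneg_left ?_ (Real.exp_pos v).le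
  rw [Fin.sum_univ_four] at h3 ⊢
  nlinarith [sq_nonneg b]

theorem sexp_tay {f : ℂ → E n} {ε B δ R : ℝ} (hf : DifferentiableOn ℂ f (ball 0 ε))
    (hB : ∀ s, ‖s‖ < ε → ‖f s - f 0‖ ≤ B) (hε : 0 < ε) (h0 : 0 < δ) (h1 : δ < ε)
    (h2 : 2 * B * δ ≤ ε ^ 2) (h3 : ‖deriv f 0‖ ≤ R) (h4 : 1 ≤ R) (m : Fin 4) :
    ‖f (pt δ m) - f 0‖ ≤ 2 * R * δ := by
  have h5 := norm_pt h0.le m
  have h6 := (hol_taylor hf hB (h5.trans_lt h1)).2.2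
  have h7 : 2 * B / ε ^ 2 * δ ^ 2 ≤ δ := by
    rw [div_mul_eq_mul_div, div_le_iff₀ (by positivity)]
    nlinarith
  have h8 := norm_add_le (f (pt δ m) - f 0 - pt δ m • deriv f 0) (pt δ m • deriv f 0)
  rw [sub_add_cancel, norm_smul, h5] at h8
  rw [h5] at h6
  nlinarith

theorem sexp_re {Γ : L n} {T S : ℝ} {w : E n} (hΓ : ‖Γ‖ ≤ T) (hw : ‖w‖ ≤ S) {ζ : E n} {R : ℝ}
    (h : ‖ζ‖ ≤ R) : |2 * (inner ℂ w (Γ ζ)).re| ≤ 2 * (S * (T * R)) := by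
  rw [abs_mul, abs_two]
  refine mul_le_mul_of_nonneg_left ((abs_re_le_norm _).trans ((norm_inner_le_norm _ _).trans ?_))
    zero_le_two
  exact mul_le_mul hw ((Γ.le_opNorm _).trans (mul_le_mul hΓ h (norm_nonneg _)
    ((norm_nonneg _).trans hΓ))) (norm_nonneg _) ((norm_nonneg _).trans hw)

theorem sexp_vec {y w : ℂ → E n} {V : ℂ → L n} {ε M B Λ δ T : ℝ} (h : Fam y w V ε M B)
    (hΛ : 1 ≤ Λ) (hM : 1 ≤ M) (hB : 1 ≤ B) (hε : 0 < ε) (hMε : 4 * M * ε ≤ 1) (hδ : 0 < δ)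
    (hs : (M + B) * δ ≤ ε ^ 3) (hT : 1 ≤ T) (hy : ‖deriv y 0‖ ≤ T) (hw : ‖deriv w 0‖ ≤ T * Λ)
    (h0 : ‖w 0‖ ≤ T * Λ) {a : E n →L[ℂ] L n} (ha : ‖a‖ ≤ T) :
    δ ≤ 1 ∧ (∀ m, ‖y (pt δ m) - y 0‖ ≤ 1 ∧ ‖y (pt δ m) - y 0‖ ≤ 2 * T * δ ∧
      ‖w (pt δ m)‖ ≤ 3 * T * Λ ∧
      ‖(1 + a (y (pt δ m) - y 0)) (w (pt δ m)) - w 0‖ ≤ 8 * T ^ 3 * Λ * δ) ∧
      ‖∑ m, ((1 + a (y (pt δ m) - y 0)) (w (pt δ m)) - w 0)‖ ≤ 64 * T * δ ^ 2 := by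
  have e1 : 4 * ε ≤ 1 := by nlinarith
  have e2 : 4 * ε ^ 3 ≤ ε ^ 2 := by nlinarith [sq_nonneg ε]
  have e3 : ε ^ 2 ≤ ε := by nlinarith
  have e4 : δ ≤ M * δ := le_mul_of_one_le_left hδ.le hM
  have e5 : δ ≤ B * δ := le_mul_of_one_le_left hδ.le hB
  have e6 : δ < ε := by nlinarith
  have e7 : 1 ≤ T * Λ := one_le_mul_of_one_le_of_one_le hT hΛ
  have h1 : ∀ s, ‖s‖ < ε → ‖y s - y 0‖ ≤ 1 := fun s hs => (h.ly s hs).trans (by nlinarith)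
  have h2 : ∀ s, ‖s‖ < ε → ‖w s - w 0‖ ≤ 2 * B := fun s hs => (norm_sub_le _ _).trans (by
    linarith [h.lw s hs, h.lw 0 (by simpa using hε)])
  have h3 := sexp_tay h.dy h1 hε hδ e6 (by nlinarith) hy hT
  have h4 := sexp_tay h.dw h2 hε hδ e6 (by nlinarith) hw e7
  have h5 : ∀ s {p q r : ℝ}, ‖y s - y 0‖ ≤ p → ‖w s‖ ≤ q → ‖w s - w 0‖ ≤ r →
      ‖(1 + a (y s - y 0)) (w s) - w 0‖ ≤ r + T * p * q := fun s p q r k1 k2 k3 => by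
    rw [add_apply, one_apply_eq_self, add_sub_right_comm]
    have k4 : 0 ≤ p := (norm_nonneg _).trans k1
    refine (norm_add_le _ _).trans (add_le_add k3 ((a.le_opNorm₂ _ _).trans ?_))
    gcongr
  have h6 : DifferentiableOn ℂ (fun s => (1 + a (y s - y 0)) (w s)) (ball 0 ε) :=
    ((a.differentiable.comp_differentiableOn (h.dy.sub_const _)).const_add _).clm_apply h.dw
  have h7 : (1 + a (y 0 - y 0)) (w 0) = w 0 := by simp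
  have h8 := hol_avg h6 (B := 4 * T * B) (fun s hs => by
    rw [h7]
    exact (h5 s (h1 s hs) (h.lw s hs) (h2 s hs)).trans (by nlinarith)) hδ e6
  rw [h7] at h8
  refine ⟨by linarith, fun m => ?_, h8.trans ?_⟩
  · have k1 : ‖w (pt δ m)‖ ≤ 3 * T * Λ := by
      have := norm_add_le (w (pt δ m) - w 0) (w 0)
      rw [sub_add_cancel] at this
      nlinarith [h4 m]
    refine ⟨h1 _ ((norm_pt hδ.le m).trans_lt e6), h3 m, k1, (h5 _ (h3 m) k1 (h4 m)).trans ?_⟩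
    have k2 : T * (Λ * δ) ≤ T ^ 3 * (Λ * δ) :=
      mul_le_mul_of_nonneg_right (le_self_pow₀ hT (by norm_num)) (by positivity)
    nlinarith
  · rw [div_mul_eq_mul_div, div_le_iff₀ (by positivity)]
    have k1 : T * δ ^ 2 * (B * δ) ≤ T * δ ^ 2 * ε ^ 3 :=
      mul_le_mul_of_nonneg_left (by nlinarith) (by positivity)
    nlinarith

theorem Met.step_exp (g : Met A) {D : ℝ} (hD : 1 ≤ D) : ∃ C : ℝ, 1 ≤ C ∧
    ∀ (k : Fin A.N) (y w : ℂ → E n) (V : ℂ → L n) (ε M B Λ δ p : ℝ), Fam y w V ε M B →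
      ‖y 0‖ ≤ 1 → 1 ≤ Λ → 1 ≤ M → 1 ≤ B → 0 < ε → 4 * M * ε ≤ 1 → 0 < δ → (M + B) * δ ≤ ε ^ 3 →
      ‖deriv y 0‖ ≤ D → ‖deriv w 0‖ ≤ D * Λ → qf (g.Γ k (y 0)) (w 0) ≤ Λ ^ 2 → 1 ≤ p →
      C * p * δ ≤ 1 →
      ∑ m : Fin 4, Real.exp (p * qf (g.Γ k (y (pt δ m))) (w (pt δ m)) / Λ ^ 2) ≤
        4 * (Real.exp (p * qf (g.Γ k (y 0)) (w 0) / Λ ^ 2) * (1 + C * p ^ 2 * δ ^ 2)) := by
  have hc := g.one
  obtain ⟨T, hT, hcT, hDT⟩ : ∃ T : ℝ, 1 ≤ T ∧ g.C ≤ T ∧ D ≤ T :=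
    ⟨max g.C D, le_max_of_le_left hc, le_max_left _ _, le_max_right _ _⟩
  have hp : ∀ {i j : ℕ}, i ≤ j → T ^ i ≤ T ^ j := fun h => pow_le_pow_right₀ hT h
  have h5 : 1 ≤ T ^ 7 := one_le_pow₀ hT
  refine ⟨3 * (116 * T ^ 7) ^ 2, by nlinarith, ?_⟩
  intro k y w V ε M B Λ δ p h hy0 hΛ hM hB hε hMε hδ hs hy hw hq hp1 hC
  have h4 : ‖y 0‖ ≤ 4 := by linarith
  obtain ⟨a, ha, hnf⟩ := g.nf k (y 0) h4
  have hΓ := (g.up k _ h4).trans hcT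
  have hsa := g.sa k _ h4
  have h0 : ‖w 0‖ ≤ T * Λ := by
    refine (pow_le_pow_iff_left₀ (norm_nonneg _) (by positivity) two_ne_zero).1
      ((g.lo k _ _ h4).trans ?_)
    rw [mul_pow]
    exact (mul_le_mul_of_nonneg_left hq (by linarith)).trans
      (mul_le_mul_of_nonneg_right (by nlinarith) (by positivity))
  obtain ⟨hδ1, h1, h2⟩ := sexp_vec h hΛ hM hB hε hMε hδ hs hT (hy.trans hDT)
    (hw.trans (by gcongr)) h0 (ha.trans hcT)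
  generalize g.Γ k (y 0) = Γ at *
  obtain ⟨ζ, hζ⟩ : ∃ ζ : Fin 4 → E n, ∀ m, (1 + a (y (pt δ m) - y 0)) (w (pt δ m)) = w 0 + ζ m :=
    ⟨_, fun m => (add_sub_cancel _ _).symm⟩
  simp only [hζ, add_sub_cancel_left] at h1 h2
  have hΛ2 : 0 < Λ ^ 2 := by positivity
  have hpδ : 0 < T ^ 7 * (p * δ) := by positivity
  rw [show 3 * (116 * T ^ 7) ^ 2 * p ^ 2 * δ ^ 2 = 3 * (116 * T ^ 7 * (p * δ)) ^ 2 by ring]
  refine sexp_fin (x := fun m => p * (2 * (inner ℂ (w 0) (Γ (ζ m))).re / Λ ^ 2 +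
    100 * T ^ 7 * δ ^ 2)) (fun m => ?_) (fun m => ?_) (by nlinarith) ?_
  · obtain ⟨k1, k2, k3, k4⟩ := h1 m
    have k5 := (abs_le.1 (hnf (y (pt δ m) - y 0) (w (pt δ m))
      ((norm_add_le _ _).trans (by linarith)))).2
    rw [add_sub_cancel, hζ, qf_add hsa] at k5
    have k6 : qf Γ (ζ m) ≤ T * (8 * T ^ 3 * Λ * δ) ^ 2 :=
      (le_abs_self _).trans ((qf_le _ _).trans (by gcongr))
    have k7 : g.C * ‖y (pt δ m) - y 0‖ ^ 2 * ‖w (pt δ m)‖ ^ 2 ≤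
        T * (2 * T * δ) ^ 2 * (3 * T * Λ) ^ 2 := by gcongr
    have k8 := mul_le_mul_of_nonneg_right (hp (by norm_num : 5 ≤ 7))
      (by positivity : 0 ≤ δ ^ 2 * Λ ^ 2)
    rw [mul_div_assoc, mul_div_assoc, ← mul_add, ← add_assoc, ← add_div]
    refine mul_le_mul_of_nonneg_left ?_ (by linarith)
    rw [div_add' _ _ _ hΛ2.ne']
    exact div_le_div_of_nonneg_right (by linarith) hΛ2.le
  · have k1 := sexp_re hΓ h0 (h1 m).2.2.2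
    have k2 : |2 * (inner ℂ (w 0) (Γ (ζ m))).re / Λ ^ 2| ≤ 16 * T ^ 5 * δ := by
      rw [abs_div, abs_of_pos hΛ2, div_le_iff₀ hΛ2]
      linarith
    have k3 := mul_le_mul_of_nonneg_right (hp (by norm_num : 5 ≤ 7)) hδ.le
    have k4 : T ^ 7 * δ ^ 2 ≤ T ^ 7 * δ := mul_le_mul_of_nonneg_left (by nlinarith) (by positivity)
    rw [abs_mul, abs_of_pos (by linarith : 0 < p), mul_left_comm]
    refine mul_le_mul_of_nonneg_left ((abs_add_le _ _).trans ?_) (by linarith)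
    rw [abs_of_pos (by positivity : 0 < 100 * T ^ 7 * δ ^ 2)]
    linarith
  · have k1 := (le_abs_self _).trans (sexp_re hΓ h0 h2)
    rw [map_sum, inner_sum, re_sum, Finset.mul_sum] at k1
    rw [← Finset.mul_sum, Finset.sum_add_distrib, ← Finset.sum_div,
      Fin.sum_univ_four fun _ => 100 * T ^ 7 * δ ^ 2]
    have k2 : T ^ 3 * δ ^ 2 * Λ ≤ T ^ 7 * δ ^ 2 * Λ ^ 2 := by
      have := hp (by norm_num : 3 ≤ 7)
      have : Λ ≤ Λ ^ 2 := by nlinarith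
      gcongr
    have k3 : (∑ m, 2 * (inner ℂ (w 0) (Γ (ζ m))).re) / Λ ^ 2 ≤ 128 * T ^ 7 * δ ^ 2 := by
      rw [div_le_iff₀ hΛ2]
      linarith
    have k4 : 1 * (T ^ 7 * p * δ ^ 2) ≤ T ^ 7 * p * (T ^ 7 * p * δ ^ 2) :=
      mul_le_mul_of_nonneg_right (by nlinarith) (by positivity)
    have k5 := mul_le_mul_of_nonneg_left k3 (by linarith : 0 ≤ p)
    have k6 : 0 ≤ T ^ 7 * p * δ ^ 2 := by positivity
    linarith

end Vale.Agent.P272
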