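import Vale.Agent.P272.SVol
import Vale.Agent.P272.SExp
import Vale.Agent.P272.JEst

/-! P272 StepX1 (task; part of StepX). Helper names start with `stepx1_`.
Plan. `δ = t^8`, `s = pt δ m`, chart `k = ch (F (z, 0))`, `SW.fam`. `Gr_eq`, `sp_eq`, `jf_eq` in the chart `k` for the shifted tube (`step_gram` gives `‖y s‖ ≤ 4`). `X1`: `step_gram` (perturbation `≤ C P^4 t^8 ≤ 1 / (2 M)`), `fr_unit`, `unit_chg`, `step_sp`, `SW.tol`. `X2`: `step_vol` on the circle with `qf Γ (z • V e) = ‖z‖^2 qf (Gr F z) e ≤ 5 / 4`, `jf` at `0` is unchanged (`shf W i s (0, u)` does not depend on `s`; `c0`, `v0`), linearity and monotonicity of `circleAverage` (`jf_int`), `J_rad`. `X3`: `step_exp` with the constant `2 D`, `SW.lay`. -/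

open Metric Set Filter Topology Complex

noncomputable section

namespace Vale.Agent.P272

variable {n : ℕ} {X : Type} [TopologicalSpace X] {A : Atl n X}

variable [T2Space X] {g : Met A}

theorem stepx1_num {Cg Cs P t : ℝ} (hg : 1 ≤ Cg) (hs : 1 ≤ Cs) (hP : 1 ≤ P) (ht : 0 < t)
    (h : (2 * Cg + Cs + 5) * P ^ 5 * t ≤ 1) :
    t ≤ 1 ∧ P ≤ P ^ 4 ∧ t ^ 8 ≤ t ∧ t ^ 24 ≤ t ∧ Cg * (P ^ 5 * t) ≤ 1 / 2 ∧
      (Cs * (P * t) ≤ 1 ∧ 8 * (P * t) ≤ 1 ∧ 8 * t ≤ 1) ∧ P ^ 3 * t ^ 2 ≤ 1 := by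
  have h5 : P ≤ P ^ 5 := le_self_pow₀ hP (by norm_num)
  have h0 : 0 < P ^ 5 * t := by positivity
  have h1 : P * t ≤ P ^ 5 * t := mul_le_mul_of_nonneg_right h5 ht.le
  have h2 : 1 * t ≤ P * t := mul_le_mul_of_nonneg_right hP ht.le
  have h3 : 1 * (P ^ 5 * t) ≤ Cg * (P ^ 5 * t) := mul_le_mul_of_nonneg_right hg h0.le
  have h4 : 1 * (P ^ 5 * t) ≤ Cs * (P ^ 5 * t) := mul_le_mul_of_nonneg_right hs h0.le
  have h6 : Cs * (P * t) ≤ Cs * (P ^ 5 * t) := mul_le_mul_of_nonneg_left h1 (by linarith)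
  have h7 : 2 * (Cg * (P ^ 5 * t)) + Cs * (P ^ 5 * t) + 5 * (P ^ 5 * t) ≤ 1 := by linarith
  have t1 : t ≤ 1 := by linarith
  have h8 : P ^ 3 * t ^ 2 ≤ P ^ 5 * t :=
    mul_le_mul (pow_le_pow_right₀ hP (by norm_num)) (pow_le_of_le_one ht.le t1 (by norm_num))
      (by positivity) (by positivity)
  exact ⟨t1, le_self_pow₀ hP (by norm_num), pow_le_of_le_one ht.le t1 (by norm_num),
    pow_le_of_le_one ht.le t1 (by norm_num), by linarith, ⟨by linarith, by linarith, by linarith⟩,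
    by linarith⟩

theorem stepx1_num2 {Cg Cs P t M ε B : ℝ} (hg : 1 ≤ Cg) (hs : 1 ≤ Cs) (hM : 1 ≤ M) (hMP : M ≤ P)
    (ht : 0 < t) (h8 : t ^ 8 ≤ t) (hε : 0 < ε) (eP : 1 ≤ ε * P) (BP : B * t ^ 6 ≤ P)
    (hP4 : P ≤ P ^ 4) (a1 : Cg * (P ^ 5 * t) ≤ 1 / 2) (a2 : Cs * (P * t) ≤ 1)
    (a3 : P ^ 3 * t ^ 2 ≤ 1) (a4 : 8 * (P * t) ≤ 1) :
    t ^ 8 < ε ∧ Cg * M ^ 3 / ε * t ^ 8 ≤ Cg * P ^ 4 * t ^ 8 ∧ B * t ^ 8 ≤ ε ^ 2 ∧
      Cs * M * t ^ 8 ≤ 1 ∧ M * (Cg * P ^ 4 * t ^ 8) ≤ 1 / 2 ∧ Cg * P ^ 4 * t ^ 8 ≤ 1 / 2 ∧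
      2 * P ≤ (2 * Cg + Cs + 5) * P ^ 4 ∧
      Cg * P ^ 4 * t ^ 8 + 5 * (P ^ 4 * t ^ 8) ≤ (2 * Cg + Cs + 5) * P ^ 4 * t ^ 8 := by
  have hP : 0 < P := by linarith
  have h80 : 0 < t ^ 8 := by positivity
  have c1 : M * t ^ 8 ≤ P * t := mul_le_mul hMP h8 h80.le hP.le
  have c2 : M * (Cg * P ^ 4 * t ^ 8) ≤ 1 / 2 := by
    have b2 := mul_le_mul_of_nonneg_left c1 (by positivity : 0 ≤ Cg * P ^ 4)
    linarith
  refine ⟨?_, mul_le_mul_of_nonneg_right ?_ h80.le, ?_, ?_, c2, ?_,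
    mul_le_mul (by linarith) hP4 hP.le (by linarith), ?_⟩
  · by_contra h2
    have h4 := mul_le_mul_of_nonneg_right ((not_lt.1 h2).trans h8) hP.le
    linarith
  · rw [div_le_iff₀ hε, mul_assoc]
    have b3 : M ^ 3 ≤ P ^ 3 := pow_le_pow_left₀ (by linarith) hMP 3
    have b4 : P ^ 3 * 1 ≤ P ^ 3 * (ε * P) := mul_le_mul_of_nonneg_left eP (by positivity)
    exact mul_le_mul_of_nonneg_left (by linarith) (by linarith)
  · have b1 : B * t ^ 6 * t ^ 2 ≤ P * t ^ 2 := mul_le_mul_of_nonneg_right BP (by positivity)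
    have b3 : P * t ^ 2 * 1 ≤ P * t ^ 2 * (ε * P) ^ 2 :=
      mul_le_mul_of_nonneg_left (one_le_pow₀ eP) (by positivity)
    have b4 : P ^ 3 * t ^ 2 * ε ^ 2 ≤ 1 * ε ^ 2 := mul_le_mul_of_nonneg_right a3 (by positivity)
    linarith
  · have b2 := mul_le_mul_of_nonneg_left c1 (by linarith : 0 ≤ Cs)
    linarith
  · have b4 : 1 * (Cg * P ^ 4 * t ^ 8) ≤ M * (Cg * P ^ 4 * t ^ 8) :=
      mul_le_mul_of_nonneg_right hM (by positivity)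
    linarith
  · have b1 : 0 ≤ Cs * (P ^ 4 * t ^ 8) := by positivity
    have b2 : 0 ≤ Cg * (P ^ 4 * t ^ 8) := by positivity
    linarith

theorem stepx1_tol {Λ P D t : ℝ} (hΛ : 1 ≤ Λ) (hP : Λ ≤ P) (hD : D ≤ P) (ht : 0 < t)
    (t1 : t ≤ 1) : D * (t ^ 24 + Λ * (7 / 2 * t ^ 24)) ≤ 5 * (P ^ 4 * t ^ 8) := by
  have hP1 : 1 ≤ P := hΛ.trans hP
  have h80 : 0 < t ^ 8 := by positivity
  have b5 : t ^ 24 ≤ t ^ 8 := pow_le_pow_of_le_one ht.le t1 (by norm_num)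
  have b6 : Λ * t ^ 24 ≤ P * t ^ 8 := mul_le_mul hP b5 (by positivity) (by linarith)
  have b7 : 1 * t ^ 8 ≤ P * t ^ 8 := mul_le_mul_of_nonneg_right hP1 h80.le
  have b10 : 0 ≤ P * t ^ 8 := by positivity
  have b8 : D * (t ^ 24 + Λ * (7 / 2 * t ^ 24)) ≤ P * (5 * (P * t ^ 8)) :=
    mul_le_mul hD (by linarith) (by positivity) (by linarith)
  have b9 : P ^ 2 * t ^ 8 ≤ P ^ 4 * t ^ 8 :=
    mul_le_mul_of_nonneg_right (pow_le_pow_right₀ hP1 (by norm_num)) h80.le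
  linarith

theorem stepx1_der {U V : L n} {M : ℝ} {z : ℂ} (b1 : ‖U‖ ≤ M) (b2 : ‖V‖ ≤ M) (hz : ‖z‖ ≤ 1)
    (i : Fin n) : ‖U (eb i) + z • V (eb i)‖ ≤ 2 * M := by
  have b3 := U.le_of_opNorm_le b1 (eb i)
  have b4 := V.le_of_opNorm_le b2 (eb i)
  rw [lin_eb, mul_one] at b3 b4
  refine (norm_add_le _ _).trans ?_
  rw [norm_smul]
  have b5 := mul_le_mul hz b4 (norm_nonneg _) zero_le_one
  linarith

theorem stepx1_lo {U V : L n} {M η : ℝ} (hM : 1 ≤ M) (h : ‖U - V‖ ≤ η) (hη : M * η ≤ 1 / 2)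
    (b : ∀ ξ, ‖ξ‖ ^ 2 ≤ M * qf V ξ) (ξ : E n) : ‖ξ‖ ^ 2 ≤ 2 * M * qf U ξ := by
  have b1 := b ξ
  have b2 := (abs_le.1 ((qf_le _ ξ).trans (mul_le_mul_of_nonneg_right h (sq_nonneg ‖ξ‖)))).1
  rw [qf_sub] at b2
  have b3 := mul_le_mul_of_nonneg_left b2 (by linarith : 0 ≤ M)
  have b4 := mul_le_mul_of_nonneg_right hη (sq_nonneg ‖ξ‖)
  linarith

theorem Met.stepX1 (g : Met A) : ∃ C : ℝ, 1 ≤ C ∧ ∀ (F W : ℂ × E n → X) (r Λ t M ε B K D P : ℝ),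
    g.SW F W r Λ t M ε B K D P → C * P ^ 5 * t ≤ 1 → ∀ (i : Fin n) (m : Fin 4),
      g.Cr (shf W i (pt (t ^ 8) m)) (r - 3 * t ^ 24) (C * P ^ 4) ∧
      (∀ z, ‖z‖ ≤ r - 3 * t ^ 24 → g.sp (ctr (shf W i (pt (t ^ 8) m))) z ≤ (2 * Λ) ^ 2) ∧
      (∀ z, ‖z‖ = r - 3 * t ^ 24 - t ^ 24 / 2 →
        ‖g.Gr (shf W i (pt (t ^ 8) m)) z - 1‖ ≤ C * P ^ 4 * t ^ 8) ∧
      shf W i (pt (t ^ 8) m) (0, 0) = F (0, 0) := by
  obtain ⟨Cg, hCg, hg⟩ := g.step_gram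
  obtain ⟨Cs, hCs, hs⟩ := g.step_sp
  refine ⟨2 * Cg + Cs + 5, by linarith, fun F W r Λ t M ε B K D P h hP i m => ?_⟩
  have hΛ := h.gd.one
  have hM : 1 ≤ M := hΛ.trans h.ΛM
  have hP1 : 1 ≤ P := hM.trans h.MP
  have ht := h.t0
  obtain ⟨t1, hP4, h8, h24, a1, ⟨a2, a4, a5⟩, a3⟩ := stepx1_num hCg hCs hP1 ht hP
  have h80 : 0 < t ^ 8 := by positivity
  have h240 : 0 < t ^ 24 := by positivity
  have hns : ‖pt (t ^ 8) m‖ = t ^ 8 := norm_pt h80.le m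
  obtain ⟨n1, n2, n3, n4, n5, n6, n7, n8⟩ := stepx1_num2 hCg hCs hM h.MP ht h8 h.e0 h.eP h.BP
    hP4 a1 a2 a3 a4
  have hsε : ‖pt (t ^ 8) m‖ < ε := hns.trans_lt n1
  have hr : ∀ z : ℂ, ‖z‖ ≤ r - 3 * t ^ 24 → ‖z‖ < r - t ^ 24 ∧ ‖z‖ ≤ r := fun z hz =>
    ⟨by linarith only [hz, h240], by linarith only [hz, h240]⟩
  have hy0 : ∀ z, ‖z‖ ≤ r - 3 * t ^ 24 → ‖A.e (A.ch (F (z, 0))) (shf W i 0 (z, 0))‖ ≤ 1 :=
    fun z hz => by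
      rw [(h.fam z i hz).c0]
      exact (Atl.ch_in _).2.le
  have key : ∀ z, ‖z‖ ≤ r - 3 * t ^ 24 →
      A.In (A.ch (F (z, 0))) 4 (shf W i (pt (t ^ 8) m) (z, 0)) ∧
      ‖g.Gr (shf W i (pt (t ^ 8) m)) z - g.Gr F z‖ ≤ Cg * P ^ 4 * t ^ 8 := fun z hz => by
    have hf := h.fam z i hz
    obtain ⟨b1, b2⟩ := hg (A.ch (F (z, 0))) _ _ _ ε M B _ hf.fam (hy0 z hz) hM h.eM hsε
    have hin : A.In (A.ch (F (z, 0))) 4 (shf W i (pt (t ^ 8) m) (z, 0)) := ⟨(hf.hol _ hsε).1, b1⟩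
    refine ⟨hin, ?_⟩
    rw [g.Gr_eq (hf.hol _ hsε).2.holAt hin]
    rw [hf.c0, hf.v0, hns] at b2
    exact le_trans b2 n2
  have hsp : ∀ z, ‖z‖ ≤ r - 3 * t ^ 24 →
      g.sp (ctr (shf W i (pt (t ^ 8) m))) z ≤ (2 * Λ) ^ 2 := fun z hz => by
    have hf := h.fam z i hz
    have hh : A.HolAt (ctr (shf W i (pt (t ^ 8) m))) z :=
      Atl.HolAt.comp (φ := fun z : ℂ => (z, (0 : E n))) (hf.hol _ hsε).2.holAt (differentiableAt_id.prodMk (differentiableAt_const _))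
    rw [g.sp_eq hh (key z hz).1]
    have b0 := hs (A.ch (F (z, 0))) _ _ _ ε M B Λ _ hf.fam (hy0 z hz) hΛ hM h.eM hsε
    refine b0 ?_ (by rw [hns]; exact n3) (by rw [hns]; exact n4) ?_
    · obtain ⟨b1, -, b2⟩ := h.ti.fr (A.ch (F (z, 0))) z (hr z hz).1 (Atl.in_ch _ (by norm_num))
      rw [hf.w1]
      exact stepx1_der b1 b2 ((hr z hz).2.trans h.gd.le) i
    · have b1 := h.gd.sp z (hr z hz).2
      rw [Met.sp] at b1
      rw [hf.c0, hf.w0]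
      exact b1
  have hΛP : Λ ≤ P := h.ΛM.trans h.MP
  refine ⟨⟨by linarith only [n7, hP1], fun z hz => ?_, fun z hz => ?_, fun z hz => ?_⟩, hsp,
    fun z hz => ?_, ?_⟩
  · have hz' : ‖z‖ ≤ r - 3 * t ^ 24 := (mem_ball_zero_iff.1 hz).le
    have hf := (h.fam z i hz').hol _ hsε
    exact ⟨hf.2, fun j hj => Atl.unit_chg hf.2.holAt hj hf.1
      (g.fr_unit hf.2.holAt (key z hz').1 (M := 2 * M) (by linarith only [hM])
        (stepx1_lo hM (key z hz').2 n5 (h.gr z (hr z hz').2).2)).1⟩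
  · exact (hsp z hz.le).trans
      (pow_le_pow_left₀ (by linarith only [hΛ]) (by linarith only [n7, hΛP]) 2)
  · have b1 := (h.gr z (hr z hz.le).2).1
    have b2 := norm_le_insert' (g.Gr (shf W i (pt (t ^ 8) m)) z) (g.Gr F z)
    have b3 := (key z hz.le).2
    linarith only [b1, b2, b3, n6, n7, h.MP, hP1]
  · have hz' : ‖z‖ ≤ r - 3 * t ^ 24 := by linarith only [hz, h240]
    have b0 : Λ * t ^ 24 ≤ P * t := mul_le_mul hΛP h24 h240.le (by linarith only [hP1])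
    have b1 := h.tol z (hr z hz').2 (by
      have b2 : 7 / 2 * t ^ 24 ≤ K / Λ := by
        rw [le_div_iff₀ (by linarith only [hΛ])]
        linarith only [h.K1, b0, a4]
      linarith only [b2, hz])
    have b2 := (key z hz').2
    have b3 := norm_sub_le_norm_sub_add_norm_sub (g.Gr (shf W i (pt (t ^ 8) m)) z) (g.Gr F z) 1
    have b4 : r - ‖z‖ = 7 / 2 * t ^ 24 := by linarith only [hz]
    rw [b4] at b1
    have b5 := stepx1_tol hΛ hΛP (h.DΛ.trans hΛP) ht t1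
    linarith only [b1, b2, b3, b5, n8]
  · have b1 := (h.fam 0 i (by rw [norm_zero]; linarith only [h.lo, h24, a5])).c0
    rw [← b1]
    simp only [shf, zero_mul]

end Vale.Agent.P272
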