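import Vale.Agent.P272.SVol
import Vale.Agent.P272.SExp
import Vale.Agent.P272.JEst

/-! P272 StepX2 (task; part of StepX). Helper names start with `stepx2_`.
Plan. `δ = t^8`, `s = pt δ m`, chart `k = ch (F (z, 0))`, `SW.fam`. `Gr_eq`, `sp_eq`, `jf_eq` in the chart `k` for the shifted tube (`step_gram` gives `‖y s‖ ≤ 4`). `X1`: `step_gram` (perturbation `≤ C P^4 t^8 ≤ 1 / (2 M)`), `fr_unit`, `unit_chg`, `step_sp`, `SW.tol`. `X2`: `step_vol` on the circle with `qf Γ (z • V e) = ‖z‖^2 qf (Gr F z) e ≤ 5 / 4`, `jf` at `0` is unchanged (`shf W i s (0, u)` does not depend on `s`; `c0`, `v0`), linearity and monotonicity of `circleAverage` (`jf_int`), `J_rad`. `X3`: `step_exp` with the constant `2 D`, `SW.lay`. -/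

open Metric Set Filter Topology Complex

noncomputable section

namespace Vale.Agent.P272

variable {n : ℕ} {X : Type} [TopologicalSpace X] {A : Atl n X}

variable [T2Space X] {g : Met A}

theorem stepx2_pw {P t : ℝ} (hP : 1 ≤ P) (t0 : 0 < t) (t1 : t ≤ 1) {k j : ℕ} (hk : k ≤ 9)
    (hj : 1 ≤ j) : P ^ k * t ^ j ≤ P ^ 9 * t := by
  have h1 : P ^ k ≤ P ^ 9 := pow_le_pow_right₀ hP hk
  have h2 : t ^ j ≤ t := by
    simpa using pow_le_pow_of_le_one t0.le t1 hj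
  exact mul_le_mul h1 h2 (by positivity) (by positivity)

theorem stepx2_avg {f : Fin 4 → ℂ → ℝ} {f₀ : ℂ → ℝ} {a r : ℝ} (hr : 0 ≤ r)
    (hf : ∀ m, CircleIntegrable (f m) 0 r) (h₀ : CircleIntegrable f₀ 0 r)
    (h : ∀ z, ‖z‖ = r → ∑ m, f m z ≤ 4 * f₀ z + a) :
    ∑ m, Real.circleAverage (f m) 0 r ≤ 4 * Real.circleAverage f₀ 0 r + a := by
  have h1 : ∀ m ∈ (Finset.univ : Finset (Fin 4)), CircleIntegrable (f m - f₀) 0 r :=
    fun m _ => (hf m).sub h₀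
  have h2 : Real.circleAverage (∑ m, (f m - f₀)) 0 r ≤ a := by
    refine Real.circleAverage_mono_on_of_le_circle (CircleIntegrable.sum _ h1) ?_
    intro z hz
    have hz' : ‖z‖ = r := by simpa [abs_of_nonneg hr] using hz
    have := h z hz'
    simp only [Finset.sum_apply, Pi.sub_apply, Fin.sum_univ_four] at this ⊢
    linarith
  rw [Real.circleAverage_sum h1] at h2
  simp only [Real.circleAverage_sub (hf _) h₀, Fin.sum_univ_four] at h2 ⊢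
  linarith

omit [T2Space X] in
theorem stepx2_zero (v : Vol g) {F W : ℂ × E n → X} {i : Fin n} {ε M B : ℝ}
    (h : A.FamAt F W (A.ch (F (0, 0))) i 0 ε M B) (s : ℂ) : v.jf (shf W i s) 0 = v.jf F 0 := by
  have e : ∀ u, shf W i s (0, u) = shf W i 0 (0, u) := by
    intro u
    simp [shf]
  have e2 : ∀ k, A.fr k (shf W i s) 0 = A.fr k (shf W i 0) 0 := by
    intro k
    simp only [Atl.fr, e]
  simp only [Vol.jf, e, e2, h.c0, h.v0]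

theorem stepx2_pt (v : Vol g) : ∃ C : ℝ, 1 ≤ C ∧ ∀ (F W : ℂ × E n → X) (r Λ t M ε B K D P : ℝ),
    g.SW F W r Λ t M ε B K D P → ∀ (i : Fin n) (z : ℂ) (δ : ℝ), ‖z‖ < r - 3 * t ^ 24 → 0 < δ →
      δ < ε → C * M ^ 2 * δ ≤ ε → (∀ m, A.Bs (shf W i (pt δ m)) (ball 0 (r - 3 * t ^ 24))) →
      ‖g.Gr F z - 1‖ ≤ 1 / 4 →
      ∑ m : Fin 4, v.jf (shf W i (pt δ m)) z ≤
        4 * v.jf F z + (5 * δ ^ 2 + C * M ^ 6 / ε ^ 3 * δ ^ 3) := by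
  obtain ⟨C, hC, H⟩ := v.step_vol
  obtain ⟨C', -, H'⟩ := g.step_gram
  refine ⟨C, hC, ?_⟩
  intro F W r Λ t M ε B K D P S i z δ hz hδ hδε hCδ hb htol
  have fam := S.fam z i hz.le
  have t24 : 0 < t ^ 24 := pow_pos S.t0 24
  have hz1 : ‖z‖ < r - t ^ 24 := by linarith
  have hz2 : ‖z‖ ≤ 1 := by linarith [S.gd.le]
  have y0 : ‖A.e (A.ch (F (z, 0))) (shf W i 0 (z, 0))‖ ≤ 1 := by
    rw [fam.c0]
    exact (A.ch_in _).2.le
  have in3 : A.In (A.ch (F (z, 0))) 3 (F (z, 0)) := A.in_ch _ (by norm_num)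
  have hu : IsUnit (A.fr (A.ch (F (z, 0))) (shf W i 0) z) := by
    rw [fam.v0]
    exact (S.ti.bs z (mem_ball_zero_iff.2 hz1)).2 _ in3.1
  have hinv : ‖Ring.inverse (A.fr (A.ch (F (z, 0))) (shf W i 0) z)‖ ≤ M := by
    rw [fam.v0]
    exact (S.ti.fr _ z hz1 in3).2.1
  have key := H (A.ch (F (z, 0))) _ _ _ ε M B δ fam.fam y0 S.ti.one S.e0 S.eM hδ hCδ hu hinv
  rw [fam.y1] at key
  simp only [fam.c0, fam.v0] at key
  have e1 : ∀ m, v.jf (shf W i (pt δ m)) z =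
      v.ℓ (A.ch (F (z, 0))) (A.e (A.ch (F (z, 0))) (shf W i (pt δ m) (z, 0))) +
        Real.log (‖(A.fr (A.ch (F (z, 0))) (shf W i (pt δ m)) z).det‖ ^ 2) := by
    intro m
    have hs : ‖pt δ m‖ < ε := by
      rw [norm_pt hδ.le]
      exact hδε
    exact v.jf_eq (hb m) (mem_ball_zero_iff.2 hz) ⟨(fam.hol _ hs).1,
      (H' (A.ch (F (z, 0))) _ _ _ ε M B _ fam.fam y0 S.ti.one S.eM hs).1⟩
  have e2 : qf (g.Γ (A.ch (F (z, 0))) (A.e (A.ch (F (z, 0))) (F (z, 0))))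
      (z • A.fr (A.ch (F (z, 0))) F z (eb i)) = ‖z‖ ^ 2 * qf (g.Gr F z) (eb i) := by
    rw [qf_smul, Met.Gr, qf_conj]
  have e3 : qf (g.Gr F z) (eb i) ≤ 5 / 4 := by
    have h1 := qf_le (g.Gr F z - 1) (eb i)
    rw [qf_sub, qf_one, lin_eb] at h1
    have h2 := (abs_le.1 h1).2
    linarith
  have e4 : ‖z‖ ^ 2 * qf (g.Gr F z) (eb i) ≤ 5 / 4 := by
    have h1 : ‖z‖ ^ 2 ≤ 1 := pow_le_one₀ (norm_nonneg _) hz2
    have h2 : ‖z‖ ^ 2 * qf (g.Gr F z) (eb i) ≤ ‖z‖ ^ 2 * (5 / 4) :=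
      mul_le_mul_of_nonneg_left e3 (by positivity)
    linarith
  rw [e2] at key
  have e5 : 4 * δ ^ 2 * (‖z‖ ^ 2 * qf (g.Gr F z) (eb i)) ≤ 4 * δ ^ 2 * (5 / 4) :=
    mul_le_mul_of_nonneg_left e4 (by positivity)
  simp only [e1]
  have e6 : v.jf F z = v.ℓ (A.ch (F (z, 0))) (A.e (A.ch (F (z, 0))) (F (z, 0))) +
      Real.log (‖(A.fr (A.ch (F (z, 0))) F z).det‖ ^ 2) := rfl
  rw [e6]
  linarith

theorem stepx2_num {C₁ C₂ C₃ P t M ε Λ D K d : ℝ} (h₁ : 1 ≤ C₁) (h₂ : 1 ≤ C₂) (h₃ : 1 ≤ C₃)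
    (t0 : 0 < t) (K1 : 1 ≤ K) (D1 : 1 ≤ D) (DΛ : D ≤ Λ) (ΛM : Λ ≤ M) (MP : M ≤ P) (e0 : 0 < ε)
    (eP : 1 ≤ ε * P) (h : 40 * (C₁ * C₂ * C₃) * P ^ 9 * t ≤ 1) (d0 : 0 ≤ d) (d4 : d ≤ 4 * t ^ 24) :
    t ^ 8 < ε ∧ C₁ * M ^ 2 * t ^ 8 ≤ ε ∧ C₁ * M ^ 6 / ε ^ 3 * (t ^ 8) ^ 3 ≤ t ^ 16 ∧
      d ≤ K / Λ ∧ D * (t ^ 24 + Λ * d) ≤ 1 / 4 ∧ t ^ 24 ≤ D * (t ^ 24 + Λ * d) ∧ C₃ * Λ * d < 1 ∧
      d < 1 / 2 ∧ 4 * (C₂ * (D * (t ^ 24 + Λ * d) + Λ * d)) ≤ 2 * t ^ 16 := by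
  have P1 : 1 ≤ P := by linarith
  have P9 : 1 ≤ P ^ 9 := one_le_pow₀ P1
  have x0 : 0 < P ^ 9 * t := by positivity
  have c12 : 1 ≤ C₁ * C₂ := one_le_mul_of_one_le_of_one_le h₁ h₂
  have a1 : C₁ ≤ C₁ * C₂ * C₃ := by
    have : C₁ * 1 ≤ C₁ * (C₂ * C₃) :=
      mul_le_mul_of_nonneg_left (one_le_mul_of_one_le_of_one_le h₂ h₃) (by linarith)
    linarith
  have a2 : C₂ ≤ C₁ * C₂ * C₃ := by
    have : C₂ * 1 ≤ C₂ * (C₁ * C₃) :=
      mul_le_mul_of_nonneg_left (one_le_mul_of_one_le_of_one_le h₁ h₃) (by linarith)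
    linarith
  have a3 : C₃ ≤ C₁ * C₂ * C₃ := by
    have : 1 * C₃ ≤ C₁ * C₂ * C₃ := mul_le_mul_of_nonneg_right c12 (by linarith)
    linarith
  have b : ∀ c, c ≤ C₁ * C₂ * C₃ → c * (P ^ 9 * t) ≤ 1 / 40 := by
    intro c hc
    have := mul_le_mul_of_nonneg_right hc x0.le
    linarith
  have b0 : P ^ 9 * t ≤ 1 / 40 := by simpa using b 1 (by linarith)
  have b1 := b C₁ a1
  have b2 := b C₂ a2
  have b3 := b C₃ a3
  have t1 : t ≤ 1 / 40 := by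
    have : 1 * t ≤ P ^ 9 * t := mul_le_mul_of_nonneg_right P9 t0.le
    linarith
  have pw : ∀ k j : ℕ, k ≤ 9 → 1 ≤ j → P ^ k * t ^ j ≤ P ^ 9 * t :=
    fun k j hk hj => stepx2_pw P1 t0 (by linarith) hk hj
  have P0 : 0 < P := by linarith
  have Λ0 : 0 < Λ := by linarith
  have M0 : 0 < M := by linarith
  have ΛP : Λ ≤ P := by linarith
  have t8 : 0 < t ^ 8 := by positivity
  have t16 : 0 < t ^ 16 := by positivity
  have t24 : 0 < t ^ 24 := by positivity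
  have e24 : t ^ 24 = t ^ 16 * t ^ 8 := by ring
  have Λd : Λ * d ≤ P * (4 * t ^ 24) := mul_le_mul ΛP d4 d0 P0.le
  have Λd0 : 0 ≤ Λ * d := by positivity
  have tP : 1 * t ^ 24 ≤ P * t ^ 24 := mul_le_mul_of_nonneg_right P1 t24.le
  have η1 : D * (t ^ 24 + Λ * d) ≤ P * (5 * (P * t ^ 24)) :=
    mul_le_mul (by linarith) (by linarith) (by positivity) P0.le
  have tP2 : 1 * (P * t ^ 24) ≤ P * (P * t ^ 24) := mul_le_mul_of_nonneg_right P1 (by positivity)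
  refine ⟨?_, ?_, ?_, ?_, ?_, ?_, ?_, ?_, ?_⟩
  · have := pw 1 8 (by norm_num) (by norm_num)
    refine lt_of_mul_lt_mul_right (a := P) ?_ P0.le
    linarith
  · have k1 := pw 3 8 (by norm_num) (by norm_num)
    have k2 : M ^ 2 ≤ P ^ 2 := pow_le_pow_left₀ M0.le MP 2
    have k3 : C₁ * M ^ 2 * t ^ 8 ≤ C₁ * P ^ 2 * t ^ 8 := by gcongr
    have k4 : C₁ * (P ^ 3 * t ^ 8) ≤ C₁ * (P ^ 9 * t) := mul_le_mul_of_nonneg_left k1 (by linarith)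
    refine k3.trans (le_of_mul_le_mul_right ?_ P0)
    have k5 : C₁ * P ^ 2 * t ^ 8 * P = C₁ * (P ^ 3 * t ^ 8) := by ring
    linarith
  · have k1 := pw 9 8 (by norm_num) (by norm_num)
    have k2 : M ^ 6 ≤ P ^ 6 := pow_le_pow_left₀ M0.le MP 6
    have k3 : 1 ≤ (ε * P) ^ 3 := one_le_pow₀ eP
    have k4 : C₁ * M ^ 6 / ε ^ 3 ≤ C₁ * P ^ 9 := by
      rw [div_le_iff₀ (by positivity)]
      have k5 : C₁ * M ^ 6 * 1 ≤ C₁ * P ^ 6 * (ε * P) ^ 3 := by gcongr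
      have k6 : C₁ * P ^ 6 * (ε * P) ^ 3 = C₁ * P ^ 9 * ε ^ 3 := by ring
      linarith
    have k7 : C₁ * (P ^ 9 * t ^ 8) ≤ C₁ * (P ^ 9 * t) := mul_le_mul_of_nonneg_left k1 (by linarith)
    have k8 : C₁ * M ^ 6 / ε ^ 3 * (t ^ 8) ^ 3 ≤ C₁ * P ^ 9 * (t ^ 8) ^ 3 :=
      mul_le_mul_of_nonneg_right k4 (by positivity)
    have k9 : C₁ * P ^ 9 * (t ^ 8) ^ 3 = C₁ * (P ^ 9 * t ^ 8) * t ^ 16 := by ring
    have k10 : C₁ * (P ^ 9 * t ^ 8) * t ^ 16 ≤ 1 * t ^ 16 :=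
      mul_le_mul_of_nonneg_right (by linarith) t16.le
    linarith
  · have k1 := pw 1 24 (by norm_num) (by norm_num)
    rw [le_div_iff₀ Λ0]
    linarith
  · have k1 := pw 2 24 (by norm_num) (by norm_num)
    linarith
  · have k1 : 1 * (t ^ 24 + Λ * d) ≤ D * (t ^ 24 + Λ * d) :=
      mul_le_mul_of_nonneg_right D1 (by positivity)
    linarith
  · have k1 := pw 1 24 (by norm_num) (by norm_num)
    have k2 : C₃ * (Λ * d) ≤ C₃ * (4 * (P ^ 9 * t)) :=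
      mul_le_mul_of_nonneg_left (by linarith) (by linarith)
    linarith
  · have k1 := pw 0 24 (by norm_num) (by norm_num)
    linarith
  · have k1 := pw 2 8 (by norm_num) (by norm_num)
    have k2 : D * (t ^ 24 + Λ * d) + Λ * d ≤ 9 * (P * (P * t ^ 24)) := by linarith
    have k3 : P * (P * t ^ 24) = P ^ 2 * t ^ 8 * t ^ 16 := by ring
    have k4 : P ^ 2 * t ^ 8 * t ^ 16 ≤ P ^ 9 * t * t ^ 16 := mul_le_mul_of_nonneg_right k1 t16.le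
    have k5 : C₂ * (D * (t ^ 24 + Λ * d) + Λ * d) ≤ C₂ * (9 * (P ^ 9 * t * t ^ 16)) :=
      mul_le_mul_of_nonneg_left (by linarith) (by linarith)
    have k6 : C₂ * (P ^ 9 * t) * t ^ 16 ≤ 1 / 40 * t ^ 16 := mul_le_mul_of_nonneg_right b2 t16.le
    linarith

theorem Vol.stepX2 (v : Vol g) : ∃ C : ℝ, 1 ≤ C ∧ ∀ (F W : ℂ × E n → X) (r Λ t M ε B K D P : ℝ),
    g.SW F W r Λ t M ε B K D P → C * P ^ 9 * t ≤ 1 → ∀ (i : Fin n) (r' : ℝ),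
      r - 4 * t ^ 24 ≤ r' → r' < r - 3 * t ^ 24 →
      (∀ m, A.Bs (shf W i (pt (t ^ 8) m)) (ball 0 (r - 3 * t ^ 24))) →
      4 * (v.Jf F r - 2 * t ^ 16) ≤ ∑ m : Fin 4, v.Jf (shf W i (pt (t ^ 8) m)) r' := by
  obtain ⟨C₁, h₁, H₁⟩ := stepx2_pt v
  obtain ⟨C₂, h₂, H₂⟩ := v.J_rad
  have h₃ := g.one
  refine ⟨40 * (C₁ * C₂ * g.C), ?_, ?_⟩
  · have := one_le_mul_of_one_le_of_one_le (one_le_mul_of_one_le_of_one_le h₁ h₂) h₃
    linarith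
  intro F W r Λ t M ε B K D P S h i r' hr1 hr2 hb
  have t24 : 0 < t ^ 24 := pow_pos S.t0 24
  obtain ⟨n1, n2, n3, n4, n5, n6, n7, n8, n9⟩ := stepx2_num (d := r - r') h₁ h₂ h₃ S.t0 S.K1 S.D1
    S.DΛ S.ΛM S.MP S.e0 S.eP h (by linarith) (by linarith)
  have r0 : 0 < r' := by linarith [S.lo]
  have tol : ∀ z : ℂ, ‖z‖ = r' → ‖g.Gr F z - 1‖ ≤ D * (t ^ 24 + Λ * (r - r')) := by
    intro z hz
    have := S.tol z (by linarith) (by linarith)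
    rwa [hz] at this
  have hJ := H₂ F r Λ (t ^ 24) r' _ S.gd r0 (by linarith) n7 n6 (by linarith) tol
  have hav := stepx2_avg (f := fun m => v.jf (shf W i (pt (t ^ 8) m))) (f₀ := v.jf F)
    (a := 5 * (t ^ 8) ^ 2 + C₁ * M ^ 6 / ε ^ 3 * (t ^ 8) ^ 3) r0.le
    (fun m => v.jf_int r0.le ((hb m).mono (closedBall_subset_ball hr2)))
    (v.jf_int r0.le (S.gd.bs.mono (closedBall_subset_closedBall (by linarith))))
    (fun z hz => H₁ F W r Λ t M ε B K D P S i z (t ^ 8) (by linarith) (pow_pos S.t0 8) n1 n2 hb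
      ((tol z hz).trans n5))
  have h0 : ∀ s, v.jf (shf W i s) 0 = v.jf F 0 :=
    stepx2_zero v (S.fam 0 i (by rw [norm_zero]; linarith))
  have e16 : (t ^ 8) ^ 2 = t ^ 16 := by ring
  simp only [Vol.Jf, h0, Fin.sum_univ_four] at hJ hav ⊢
  linarith

end Vale.Agent.P272
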