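import Vale.Agent.P272.SVol
import Vale.Agent.P272.SExp
import Vale.Agent.P272.JEst

/-! P272 StepX3 (task; part of StepX). Helper names start with `stepx3_`.
Plan. `δ = t^8`, `s = pt δ m`, chart `k = ch (F (z, 0))`, `SW.fam`. `Gr_eq`, `sp_eq`, `jf_eq` in the chart `k` for the shifted tube (`step_gram` gives `‖y s‖ ≤ 4`). `X1`: `step_gram` (perturbation `≤ C P^4 t^8 ≤ 1 / (2 M)`), `fr_unit`, `unit_chg`, `step_sp`, `SW.tol`. `X2`: `step_vol` on the circle with `qf Γ (z • V e) = ‖z‖^2 qf (Gr F z) e ≤ 5 / 4`, `jf` at `0` is unchanged (`shf W i s (0, u)` does not depend on `s`; `c0`, `v0`), linearity and monotonicity of `circleAverage` (`jf_int`), `J_rad`. `X3`: `step_exp` with the constant `2 D`, `SW.lay`. -/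

open Metric Set Filter Topology Complex

noncomputable section

namespace Vale.Agent.P272

variable {n : ℕ} {X : Type} [TopologicalSpace X] {A : Atl n X}

variable [T2Space X] {g : Met A}

theorem stepx3_num {C P t M B ε : ℝ} (hC : 1 ≤ C) (hM : 1 ≤ M) (hMP : M ≤ P) (hB1 : 1 ≤ B)
    (ht : 0 < t) (hB : B * t ^ 6 ≤ P) (e0 : 0 < ε) (eM : 4 * M * ε ≤ 1) (eP : 1 ≤ ε * P)
    (h : 2 * C * P ^ 4 * t ≤ 1) :
    (M + B) * t ^ 8 ≤ ε ^ 3 ∧ t ^ 8 < ε ∧ C * P * t ^ 8 ≤ 1 := by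
  have hP : 1 ≤ P := hM.trans hMP
  have hP4 : P ≤ P ^ 4 := le_self_pow₀ hP (by norm_num)
  have hx : 0 ≤ P ^ 4 * t := by positivity
  have h1 : 2 * (P ^ 4 * t) ≤ 1 := by nlinarith
  have ht1 : t ≤ 1 := by nlinarith
  have h2 : t ^ 8 ≤ t ^ 2 := pow_le_pow_of_le_one ht.le ht1 (by norm_num)
  have h3 : t ^ 8 ≤ t := pow_le_of_le_one ht.le ht1 (by norm_num)
  have h4 : (M + B) * t ^ 8 ≤ 2 * P * t ^ 2 := by
    have a1 : M * t ^ 8 ≤ P * t ^ 2 := by gcongr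
    have a2 : B * t ^ 6 * t ^ 2 ≤ P * t ^ 2 := by gcongr
    nlinarith
  have h5 : 2 * P * t ^ 2 ≤ ε ^ 3 := by
    have a1 : 1 ≤ (ε * P) ^ 3 := one_le_pow₀ eP
    have a2 : 2 * (P ^ 4 * t) * t ≤ 1 := mul_le_one₀ h1 ht.le ht1
    have a3 : 2 * P * t ^ 2 * P ^ 3 ≤ ε ^ 3 * P ^ 3 := by nlinarith
    exact le_of_mul_le_mul_right a3 (by positivity)
  have h6 : ε ^ 3 ≤ ε := pow_le_of_le_one e0.le (by nlinarith) (by norm_num)
  have h7 : 0 < t ^ 8 := by positivity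
  refine ⟨h4.trans h5, by nlinarith, ?_⟩
  have a1 : C * P * t ^ 8 ≤ C * P ^ 4 * t := by gcongr
  have a2 : 0 ≤ C * P ^ 4 * t := by positivity
  nlinarith

theorem Met.stepX3 (g : Met A) {D : ℝ} (hD : 1 ≤ D) : ∃ C : ℝ, 1 ≤ C ∧
    ∀ (F W : ℂ × E n → X) (r Λ t M ε B K P : ℝ), g.SW F W r Λ t M ε B K D P →
      C * P ^ 4 * t ≤ 1 → ∀ (i : Fin n) (p : ℝ) (z : ℂ), 1 ≤ p → p ≤ Λ → ‖z‖ ≤ r - 3 * t ^ 24 →
      r - K / Λ ≤ ‖z‖ →
      ∑ m : Fin 4, Real.exp (p * g.sp (ctr (shf W i (pt (t ^ 8) m))) z / Λ ^ 2) ≤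
        4 * (Real.exp (p * g.sp (ctr F) z / Λ ^ 2) * (1 + C * p ^ 2 * t ^ 16)) := by
  obtain ⟨C, hC, H⟩ := g.step_exp (D := 2 * D) (by linarith)
  refine ⟨2 * C, by linarith, ?_⟩
  intro F W r Λ t M ε B K P h hs i p z hp1 hpΛ hz hz'
  have ht := h.t0
  have hΛ := h.gd.one
  have hM : 1 ≤ M := hΛ.trans h.ΛM
  obtain ⟨n1, n2, n3⟩ := stepx3_num hC hM h.MP h.B1 ht h.BP h.e0 h.eM h.eP hs
  have t24 : 0 < t ^ 24 := by positivity
  have t8 : 0 < t ^ 8 := by positivity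
  have hz1 : ‖z‖ ≤ 1 := by linarith [h.gd.le]
  have fa := h.fam z i hz
  obtain ⟨l1, l2⟩ := h.lay _ z (by linarith) hz' (Atl.in_ch (F (z, 0)) (by norm_num))
  have y0 : ‖A.e (A.ch (F (z, 0))) (shf W i 0 (z, 0))‖ ≤ 1 := by
    rw [fa.c0]
    exact (Atl.ch_in _).2.le
  have b1 : ‖A.fr (A.ch (F (z, 0))) F z (eb i)‖ ≤ D := by
    refine ((A.fr _ F z).le_opNorm _).trans ?_
    rwa [lin_eb, mul_one]
  have b2 : ‖deriv (A.fr (A.ch (F (z, 0))) F) z (eb i)‖ ≤ D * Λ := by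
    refine ((deriv (A.fr _ F) z).le_opNorm _).trans ?_
    rwa [lin_eb, mul_one]
  have q0 : qf (g.Γ (A.ch (F (z, 0))) (A.e (A.ch (F (z, 0))) (shf W i 0 (z, 0))))
      (A.dv (A.ch (F (z, 0))) (ctr (shf W i 0)) z) = g.sp (ctr F) z := by
    rw [fa.c0, fa.w0]
    rfl
  have key := H _ _ _ _ ε M B Λ (t ^ 8) p fa.fam y0 hΛ hM h.B1 h.e0 h.eM t8 n1
    (by
      rw [fa.y1, norm_smul]
      have := mul_le_mul hz1 b1 (norm_nonneg _) zero_le_one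
      linarith)
    (by
      rw [fa.w1]
      refine (norm_add_le _ _).trans ?_
      rw [norm_smul]
      have := mul_le_mul hz1 b2 (norm_nonneg _) zero_le_one
      nlinarith)
    (q0.trans_le (h.gd.sp z (by linarith))) hp1
    (le_trans (by have := hpΛ.trans (h.ΛM.trans h.MP); gcongr) n3)
  simp only [q0] at key
  refine le_trans (le_of_eq (Finset.sum_congr rfl fun m _ => ?_)) (key.trans ?_)
  · have hs' : ‖pt (t ^ 8) m‖ < ε := by rwa [norm_pt t8.le]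
    obtain ⟨s1, s2⟩ := fa.hol _ hs'
    have s3 := fa.fam.ly _ hs'
    have s4 : ‖A.e (A.ch (F (z, 0))) (shf W i (pt (t ^ 8) m) (z, 0))‖ ≤ 4 := by
      have a1 := norm_le_insert' (A.e (A.ch (F (z, 0))) (shf W i (pt (t ^ 8) m) (z, 0)))
        (A.e (A.ch (F (z, 0))) (shf W i 0 (z, 0)))
      have a2 : 4 * M * ‖pt (t ^ 8) m‖ ≤ 4 * M * ε := by gcongr
      linarith [h.eM]
    rw [g.sp_eq s2.ctr.holAt (j := A.ch (F (z, 0))) ⟨s1, s4⟩]
    rfl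
  · rw [← pow_mul]
    gcongr
    linarith

end Vale.Agent.P272
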