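import Vale.Agent.P272.SVol
import Vale.Agent.P272.SExp
import Vale.Agent.P272.JEst
import Vale.Agent.P272.StepX1
import Vale.Agent.P272.StepX2
import Vale.Agent.P272.StepX3
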