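import Vale.Agent.P272.Imp

/-! P272 StepY (task). Helper names start with `stepy_`.
Plan. `imp` twice: first `d = t^24 / 2`, `σ = t^80` (`log (1 / σ) = 80 log (1 / t)`, `log (1/t)^2 ≤ 4 / t` from `Real.log_le_sub_one_of_pos` at `√(1/t)`, or `Real.log_le_rpow_div`; `√σ = t^40`), new tolerance `≤ t^14`; then `R - d - σ / 2`, `d = t^80 / 2`, `σ = t^220`, new tolerance `≤ t^25`. Take `C` huge (for instance `10^8` times the constant of `imp`). -/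

open Metric Set Filter Topology Complex

noncomputable section

namespace Vale.Agent.P272

variable {n : ℕ} {X : Type} [TopologicalSpace X] {A : Atl n X}

theorem stepy_log1 {t : ℝ} (ht : 0 < t) (h1 : t ≤ 1) :
    0 ≤ Real.log (1 / t) ∧ Real.log (1 / t) * t ≤ 1 ∧ Real.log (1 / t) ^ 2 * t ≤ 4 := by
  have hi : 1 ≤ 1 / t := by rw [le_div_iff₀ ht]; linarith
  have h0 : 0 ≤ Real.log (1 / t) := Real.log_nonneg hi
  have hp : 0 < 1 / t := by positivity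
  refine ⟨h0, ?_, ?_⟩
  · have h := Real.log_le_sub_one_of_pos hp
    have h2 : Real.log (1 / t) ≤ 1 / t := by linarith
    rwa [le_div_iff₀ ht] at h2
  · have hs : 0 < √(1 / t) := Real.sqrt_pos.2 hp
    have h := Real.log_le_sub_one_of_pos hs
    rw [Real.log_sqrt hp.le] at h
    have h2 : Real.log (1 / t) ≤ 2 * √(1 / t) := by linarith
    have h3 : Real.log (1 / t) ^ 2 ≤ (2 * √(1 / t)) ^ 2 := pow_le_pow_left₀ h0 h2 2
    rw [mul_pow, Real.sq_sqrt hp.le] at h3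
    have h4 : Real.log (1 / t) ^ 2 ≤ 4 / t := by
      have : (2 : ℝ) ^ 2 * (1 / t) = 4 / t := by ring
      linarith
    rwa [le_div_iff₀ ht] at h4

theorem stepy_logp (t : ℝ) (k : ℕ) : Real.log (1 / t ^ k) = k * Real.log (1 / t) := by
  rw [← one_div_pow, Real.log_pow]

theorem stepy_sqrt {t : ℝ} (ht : 0 < t) (k : ℕ) : √(t ^ (2 * k)) = t ^ k := by
  rw [pow_mul', Real.sqrt_sq (by positivity)]

theorem stepy_a {C P t L : ℝ} (hC : 1 ≤ C) (hP : 1 ≤ P) (ht : 0 < t)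
    (h : 10 ^ 7 * C * P ^ 3 * t ≤ 1) (hL : L ^ 2 * t ≤ 4) :
    16 * (P * t ^ 8 * (80 * L)) ^ 2 + C * P ^ 3 / (t ^ 24 / 2) * t ^ 40 ≤ t ^ 14 := by
  have hP2 : P ^ 2 ≤ P ^ 3 := pow_le_pow_right₀ hP (by norm_num)
  have hP3 : 1 ≤ P ^ 3 := one_le_pow₀ hP
  have hx : 0 ≤ P ^ 3 * t := by positivity
  have h1 : P ^ 3 * t ≤ C * P ^ 3 * t := by nlinarith
  have h2 : P ^ 2 * t ≤ P ^ 3 * t := mul_le_mul_of_nonneg_right hP2 ht.le
  have h3 : t ≤ P ^ 3 * t := by nlinarith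
  have ht1 : t ≤ 1 := by linarith
  have e1 : C * P ^ 3 / (t ^ 24 / 2) * t ^ 40 = t ^ 14 * (2 * (C * P ^ 3 * t) * t) := by
    field_simp
  have e2 : 16 * (P * t ^ 8 * (80 * L)) ^ 2 = t ^ 14 * (102400 * (P ^ 2 * t) * (L ^ 2 * t)) := by
    ring
  have h4 : (P ^ 2 * t) * (L ^ 2 * t) ≤ (P ^ 2 * t) * 4 :=
    mul_le_mul_of_nonneg_left hL (by positivity)
  have h5 : (C * P ^ 3 * t) * t ≤ (C * P ^ 3 * t) * 1 :=
    mul_le_mul_of_nonneg_left ht1 (by positivity)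
  have h6 : 102400 * (P ^ 2 * t) * (L ^ 2 * t) + 2 * (C * P ^ 3 * t) * t ≤ 1 := by
    nlinarith
  rw [e1, e2, ← mul_add]
  exact mul_le_of_le_one_right (by positivity) h6

theorem stepy_b {C P t L : ℝ} (hC : 1 ≤ C) (hP : 1 ≤ P) (ht : 0 < t)
    (h : 10 ^ 7 * C * P ^ 3 * t ≤ 1) (hL : L ^ 2 * t ≤ 4) :
    16 * (t ^ 14 * (220 * L)) ^ 2 + C * (4 * P) ^ 3 / (t ^ 80 / 2) * t ^ 110 ≤ t ^ 25 := by
  have hP3 : 1 ≤ P ^ 3 := one_le_pow₀ hP
  have hx : 0 ≤ P ^ 3 * t := by positivity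
  have h1 : P ^ 3 * t ≤ C * P ^ 3 * t := by nlinarith
  have h3 : t ≤ P ^ 3 * t := by nlinarith
  have ht1 : t ≤ 1 := by linarith
  have e1 : C * (4 * P) ^ 3 / (t ^ 80 / 2) * t ^ 110 =
      t ^ 25 * (128 * (C * P ^ 3 * t) * t ^ 4) := by
    field_simp
    ring
  have e2 : 16 * (t ^ 14 * (220 * L)) ^ 2 = t ^ 25 * (774400 * (t * t) * (L ^ 2 * t)) := by
    ring
  have h4 : (t * t) * (L ^ 2 * t) ≤ (t * t) * 4 :=
    mul_le_mul_of_nonneg_left hL (by positivity)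
  have h5 : (C * P ^ 3 * t) * t ^ 4 ≤ (C * P ^ 3 * t) * 1 :=
    mul_le_mul_of_nonneg_left (pow_le_one₀ ht.le ht1) (by positivity)
  have h7 : t * t ≤ t * 1 := mul_le_mul_of_nonneg_left ht1 ht.le
  have h6 : 774400 * (t * t) * (L ^ 2 * t) + 128 * (C * P ^ 3 * t) * t ^ 4 ≤ 1 := by
    nlinarith
  rw [e1, e2, ← mul_add]
  exact mul_le_of_le_one_right (by positivity) h6

theorem Met.stepY [T2Space X] (g : Met A) : ∃ C : ℝ, 1 ≤ C ∧
    ∀ (F : ℂ × E n → X) (R P t : ℝ), g.Cr F R P → R ≤ 1 → 5 / 8 ≤ R → 0 < t → C * P ^ 3 * t ≤ 1 →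
      (∀ z, ‖z‖ = R - t ^ 24 / 2 → ‖g.Gr F z - 1‖ ≤ P * t ^ 8) →
      ∃ F' : ℂ × E n → X, ctr F' = ctr F ∧
        A.Bs F' (closedBall 0 (R - t ^ 24 / 2 - t ^ 80 - t ^ 220)) ∧
        (∀ z, ‖z‖ = R - t ^ 24 / 2 - t ^ 80 - t ^ 220 → ‖g.Gr F' z - 1‖ ≤ t ^ 25) ∧
        ∀ v : Vol g, v.Jf F' (R - t ^ 24 / 2 - t ^ 80 - t ^ 220) =
          v.Jf F (R - t ^ 24 / 2 - t ^ 80 - t ^ 220) := by
  obtain ⟨C, hC, H⟩ := g.imp
  refine ⟨10 ^ 7 * C, by linarith, fun F R P t hF hR1 hR ht h htol => ?_⟩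
  have hP : 1 ≤ P := hF.one
  have hP3 : P ≤ P ^ 3 := le_self_pow₀ hP (by norm_num)
  have hx : 0 ≤ P ^ 3 * t := by positivity
  have h1 : P ^ 3 * t ≤ C * P ^ 3 * t := by nlinarith
  have h2 : P * t ≤ P ^ 3 * t := mul_le_mul_of_nonneg_right hP3 ht.le
  have h3 : t ≤ P * t := by nlinarith
  have hPt : 10 ^ 7 * (P * t) ≤ 1 := by linarith
  have hts : 10 ^ 7 * t ≤ 1 := by linarith
  have ht1 : t ≤ 1 := by linarith
  obtain ⟨hL0, hL1, hL2⟩ := stepy_log1 ht ht1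
  have p24 : t ^ 24 ≤ t := pow_le_of_le_one ht.le ht1 (by norm_num)
  have p80 : t ^ 80 ≤ t := pow_le_of_le_one ht.le ht1 (by norm_num)
  have p220 : t ^ 220 ≤ t := pow_le_of_le_one ht.le ht1 (by norm_num)
  have q24 : 0 < t ^ 24 := by positivity
  have q80 : 0 < t ^ 80 := by positivity
  have q220 : 0 < t ^ 220 := by positivity
  have l80 : Real.log (1 / t ^ 80) = 80 * Real.log (1 / t) := by
    rw [stepy_logp]; norm_num
  have l220 : Real.log (1 / t ^ 220) = 220 * Real.log (1 / t) := by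
    rw [stepy_logp]; norm_num
  have s80 : √(t ^ 80) = t ^ 40 := stepy_sqrt ht 40
  have s220 : √(t ^ 220) = t ^ 110 := stepy_sqrt ht 110
  have c1 : 4 * (P * t ^ 8) * Real.log (1 / t ^ 80) ≤ 1 := by
    have e : 4 * (P * t ^ 8) * Real.log (1 / t ^ 80) =
        320 * ((P * t) * (t ^ 6 * (Real.log (1 / t) * t))) := by rw [l80]; ring
    have a1 : t ^ 6 * (Real.log (1 / t) * t) ≤ 1 :=
      mul_le_one₀ (pow_le_one₀ ht.le ht1) (by positivity) hL1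
    have a2 : (P * t) * (t ^ 6 * (Real.log (1 / t) * t)) ≤ P * t :=
      mul_le_of_le_one_right (by positivity) a1
    rw [e]; linarith
  have c2 : 4 * t ^ 14 * Real.log (1 / t ^ 220) ≤ 1 := by
    have e : 4 * t ^ 14 * Real.log (1 / t ^ 220) =
        880 * (t * (t ^ 12 * (Real.log (1 / t) * t))) := by rw [l220]; ring
    have a1 : t ^ 12 * (Real.log (1 / t) * t) ≤ 1 :=
      mul_le_one₀ (pow_le_one₀ ht.le ht1) (by positivity) hL1
    have a2 : t * (t ^ 12 * (Real.log (1 / t) * t)) ≤ t := mul_le_of_le_one_right ht.le a1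
    rw [e]; linarith
  obtain ⟨F₁, hc₁, hF₁, ht₁, hJ₁⟩ := H F R (t ^ 24 / 2) (t ^ 80) (P * t ^ 8) P hF hR1
    (by linarith) (by linarith) q80 (by linarith) htol c1
  have htol₁ : ∀ z : ℂ, ‖z‖ = R - t ^ 24 / 2 - t ^ 80 / 2 - t ^ 80 / 2 →
      ‖g.Gr F₁ z - 1‖ ≤ t ^ 14 := by
    intro z hz
    have := ht₁ z (by linarith) (by linarith)
    rw [l80, s80] at this
    exact this.trans (stepy_a hC hP ht h hL2)
  obtain ⟨F₂, hc₂, hF₂, ht₂, hJ₂⟩ := H F₁ (R - t ^ 24 / 2 - t ^ 80 / 2) (t ^ 80 / 2) (t ^ 220)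
    (t ^ 14) (4 * P) hF₁ (by linarith) (by linarith) (by linarith) q220 (by linarith) htol₁ c2
  refine ⟨F₂, hc₂.trans hc₁, fun z hz => hF₂.bs z ?_, fun z hz => ?_, fun v => ?_⟩
  · rw [mem_closedBall_zero_iff] at hz
    rw [mem_ball_zero_iff]
    linarith
  · have := ht₂ z (by linarith) (by linarith)
    rw [l220, s220] at this
    exact this.trans (stepy_b hC hP ht h hL2)
  · rw [hJ₂ v _ (by linarith) (by linarith), hJ₁ v _ (by linarith) (by linarith)]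

end Vale.Agent.P272
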