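import Vale.Agent.P272.StepW
import Vale.Agent.P272.StepX
import Vale.Agent.P272.StepY

/-! P272 CoreS (task; part of Core). Helper names start with `cores_`.
Plan. `core_step` collects `stepW`, `stepX1..3`, `stepY`, `lip_est` (with `d = t^24 / 2`), `J_up`, `J_cen`, `SW.cen` with `sum_pt_sq`; `C` is a large multiple of the exponent of `stepW`, above all constants. `core`: the game with `St = ℝ × (ℂ × E n → X)`, `κ = Fin n × Fin 4`, `T σ η = Bs σ.2 (closedBall 0 σ.1) ∧ σ.2 (0, 0) = x ∧ ∀ z, ‖z‖ = σ.1 → ‖Gr σ.2 z - 1‖ ≤ η`, `a σ = ‖dv j (ctr σ.2) 0‖^2`, `ν = n`, initial tube `(z, u) ↦ (e j).symm (e j x + S u)` with `star S * Γ * S = 1` (`exists_frame`: inverse of `CFC.sqrt`, or an orthonormal basis of eigenvectors). -/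

open Metric Set Filter Topology Complex

noncomputable section

namespace Vale.Agent.P272

variable {n : ℕ} {X : Type} [TopologicalSpace X] {A : Atl n X}

variable [T2Space X] {g : Met A}

theorem cores_num {c C : ℕ} {Q Λ t : ℝ} (hC : 12 * c + 1 ≤ C) (hQ : Q ≤ Λ) (h1 : 1 ≤ Λ)
    (ht : 0 < t) (h : t * Λ ^ C ≤ 1) {x : ℝ} (hx : x ≤ Q) {k : ℕ} (hk : k ≤ 12) :
    x * (Λ ^ c) ^ k ≤ Λ ^ C ∧ x * (Λ ^ c) ^ k * t ≤ 1 := by
  have h2 : x * (Λ ^ c) ^ k ≤ Λ ^ C := by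
    calc x * (Λ ^ c) ^ k ≤ Λ * (Λ ^ c) ^ 12 :=
          mul_le_mul (hx.trans hQ) (pow_le_pow_right₀ (one_le_pow₀ h1) hk) (by positivity)
            (by linarith)
      _ = Λ ^ (12 * c + 1) := by ring
      _ ≤ Λ ^ C := pow_le_pow_right₀ h1 hC
  exact ⟨h2, by nlinarith⟩

theorem cores_t {t : ℝ} (ht : 0 < t) (h : 4 * t ≤ 1) :
    t ^ 24 ≤ t / 16 ∧ t ^ 80 ≤ t ^ 24 / 4 ∧ t ^ 220 ≤ t ^ 24 / 4 := by
  have h1 : t ≤ 1 := by linarith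
  have h2 : t ^ 24 ≤ t ^ 3 := pow_le_pow_of_le_one ht.le h1 (by norm_num)
  have h3 : t ^ 80 ≤ t ^ 25 := pow_le_pow_of_le_one ht.le h1 (by norm_num)
  have h4 : t ^ 220 ≤ t ^ 25 := pow_le_pow_of_le_one ht.le h1 (by norm_num)
  have h5 : t ^ 25 = t ^ 24 * t := by ring
  have h6 : 0 < t ^ 24 := by positivity
  have h7 : t ^ 24 * t ≤ t ^ 24 / 4 := by nlinarith
  have h8 : t * t ≤ 1 / 16 := by nlinarith
  have h9 : t ^ 3 = t * (t * t) := by ring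
  refine ⟨?_, by linarith, by linarith⟩
  nlinarith

theorem core_step (hn : 0 < n) {C₁ : ℝ} (hB : g.Br C₁) (v : Vol g) {K : ℝ} (hK : 1 ≤ K) :
    ∃ C : ℕ, 2 ≤ C ∧ ∀ (F : ℂ × E n → X) (r Λ t : ℝ) (j : Fin A.N), (C : ℝ) ≤ Λ → 0 < t →
      t * Λ ^ C ≤ 1 → 3 / 4 ≤ r → g.Gd F r Λ (t ^ 24) → A.In j 1 (F (0, 0)) →
      v.Jf F r ≤ Λ ^ C ∧ ∃ (F' : Fin n × Fin 4 → ℂ × E n → X) (r' : ℝ),
        r - 4 * t ^ 24 ≤ r' ∧ r' ≤ r ∧
        (∀ k, A.Bs (F' k) (closedBall 0 r') ∧ F' k (0, 0) = F (0, 0) ∧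
          (∀ z, ‖z‖ = r' → ‖g.Gr (F' k) z - 1‖ ≤ t ^ 25) ∧
          (∀ z, ‖z‖ ≤ r' → g.sp (ctr (F' k)) z ≤ (2 * Λ) ^ 2) ∧ ∀ z w, ‖z‖ ≤ r' → ‖w‖ ≤ r' →
            g.sp (ctr (F' k)) w ≤ g.sp (ctr (F' k)) z + ‖z - w‖ / t ^ 25) ∧
        4 * n * (‖A.dv j (ctr F) 0‖ ^ 2 + t ^ 16 *
          (cn n * Real.exp (-v.ℓ j (A.e j (F (0, 0))) / n)) * (1 + v.Jf F r / n)) ≤
            ∑ k, ‖A.dv j (ctr (F' k)) 0‖ ^ 2 ∧
        4 * n * (v.Jf F r - 2 * t ^ 16) ≤ ∑ k, v.Jf (F' k) r' ∧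
        ∀ (p : ℝ) (z : ℂ), 1 ≤ p → p ≤ Λ → ‖z‖ ≤ r' → r - K / Λ ≤ ‖z‖ →
          ∑ k, Real.exp (p * g.sp (ctr (F' k)) z / Λ ^ 2) ≤
            4 * n * (Real.exp (p * g.sp (ctr F) z / Λ ^ 2) * (1 + C * p ^ 2 * t ^ 16)) := by
  obtain ⟨c, D, hc, hD, hW⟩ := Met.stepW hB hK
  obtain ⟨C1, hC1, hX1⟩ := g.stepX1
  obtain ⟨C2, hC2, hX2⟩ := v.stepX2
  obtain ⟨C3, hC3, hX3⟩ := g.stepX3 hD
  obtain ⟨CY, hCY, hY⟩ := g.stepY
  obtain ⟨CL, hCL, hL⟩ := g.lip_est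
  obtain ⟨CJ, hCJ, hJ⟩ := v.J_up
  obtain ⟨η₀, hη₀, hcen⟩ := v.J_cen hn
  have p1 : 0 ≤ 2 * CL * C1 ^ 3 := by positivity
  have p2 : 0 ≤ CY * C1 ^ 3 := by positivity
  have p3 : 0 ≤ η₀⁻¹ := by positivity
  obtain ⟨Q, hQ⟩ : ∃ Q, Q = 2 * CL * C1 ^ 3 + CY * C1 ^ 3 + C1 + C2 + C3 + CJ + η₀⁻¹ + 4 :=
    ⟨_, rfl⟩
  refine ⟨12 * c + 1 + ⌈Q⌉₊, by omega, fun F r Λ t j hΛ ht htΛ hr hG hj => ?_⟩
  obtain ⟨C, hCd⟩ : ∃ C, C = 12 * c + 1 + ⌈Q⌉₊ := ⟨_, rfl⟩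
  rw [← hCd] at hΛ htΛ ⊢
  have hQC : Q ≤ C := (Nat.le_ceil Q).trans (Nat.cast_le.2 (by omega))
  have hcC : (c : ℝ) ≤ C := Nat.cast_le.2 (by omega)
  have h1 : 1 ≤ Λ := hG.one
  have num : ∀ {x : ℝ}, x ≤ Q → ∀ {k : ℕ}, k ≤ 12 →
      x * (Λ ^ c) ^ k ≤ Λ ^ C ∧ x * (Λ ^ c) ^ k * t ≤ 1 :=
    fun hx _ hk => cores_num (by omega) (hQC.trans hΛ) h1 ht htΛ hx hk
  have ht4 : 4 * t ≤ 1 := by simpa using (num (x := 4) (by linarith) (k := 0) (by norm_num)).2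
  obtain ⟨t1, t2, t3⟩ := cores_t ht ht4
  have t0 : 0 < t ^ 24 := by positivity
  have t80 : 0 < t ^ 80 := by positivity
  have t220 : 0 < t ^ 220 := by positivity
  have htη : t ^ 24 ≤ η₀ := by
    have h2 : η₀⁻¹ * t ≤ 1 := by
      simpa using (num (x := η₀⁻¹) (by linarith) (k := 0) (by norm_num)).2
    rw [inv_mul_le_iff₀ hη₀] at h2
    linarith
  obtain ⟨W, M, ε, B, hS⟩ := hW F r Λ t (hcC.trans hΛ) ht (by
    have := (num (x := 1) (by linarith) (k := 1) (by norm_num)).2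
    linarith [mul_comm t (Λ ^ c)]) hr hG
  have hr1 := hG.le
  have X1 := hX1 F W r Λ t M ε B K D _ hS (num (by linarith) (by norm_num)).2
  have X2 := hX2 F W r Λ t M ε B K D _ hS (num (by linarith) (by norm_num)).2
  have X3 := hX3 F W r Λ t M ε B K _ hS (num (by linarith) (by norm_num)).2
  have hYk : ∀ k : Fin n × Fin 4, _ := fun k =>
    hY _ _ _ t (X1 k.1 k.2).1 (by linarith) (by linarith) ht (by
      have := (num (x := CY * C1 ^ 3) (by linarith) (k := 12) le_rfl).2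
      calc _ = CY * C1 ^ 3 * (Λ ^ c) ^ 12 * t := by ring
        _ ≤ 1 := this) (X1 k.1 k.2).2.2.1
  choose F' e1 e2 e3 e4 using hYk
  refine ⟨?_, F', r - 3 * t ^ 24 - t ^ 24 / 2 - t ^ 80 - t ^ 220, by linarith, by linarith,
    fun k => ⟨e2 k, ?_, e3 k, fun z hz => ?_, fun z w hz hw => ?_⟩, ?_, ?_,
    fun p z hp hpΛ hz hzK => ?_⟩
  · have hM1 : 1 ≤ M := hS.ti.one
    refine (hJ F r Λ _ M hG hM1 (hS.gr 0 (by rw [norm_zero]; linarith)).1).trans ?_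
    refine le_trans ?_ (num (x := CJ) (by linarith) (k := 1) (by norm_num)).1
    rw [pow_one]
    exact mul_le_mul_of_nonneg_left hS.MP (by linarith)
  · exact (congrFun (e1 k) 0).trans (X1 k.1 k.2).2.2.2
  · rw [e1 k]
    exact (X1 k.1 k.2).2.1 z (by linarith)
  · rw [e1 k]
    have h2 := (hL _ _ _ (t ^ 24 / 2) (X1 k.1 k.2).1 (by positivity) (by linarith) z w
      (by linarith) (by linarith)).2
    have h3 : CL * (C1 * (Λ ^ c) ^ 4) ^ 3 / (t ^ 24 / 2) ≤ 1 / t ^ 25 := by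
      rw [div_le_div_iff₀ (by positivity) (by positivity)]
      have := (num (x := 2 * CL * C1 ^ 3) (by linarith) (k := 12) le_rfl).2
      calc _ = 2 * CL * C1 ^ 3 * (Λ ^ c) ^ 12 * t * (t ^ 24 / 2) := by ring
        _ ≤ 1 * (t ^ 24 / 2) := mul_le_mul_of_nonneg_right this (by positivity)
    have h4 := mul_le_mul_of_nonneg_right h3 (norm_nonneg (z - w))
    have h5 := (abs_le.1 h2).1
    rw [div_mul_eq_mul_div 1, one_mul] at h4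
    linarith
  · have h2 := hcen F r Λ _ j hG htη ⟨hj.1, hj.2.trans (by norm_num)⟩
    have h3 : ∀ i, ∑ m : Fin 4, ‖A.dv j (ctr (F' (i, m))) 0‖ ^ 2 =
        4 * (‖A.dv j (ctr F) 0‖ ^ 2 + (t ^ 8) ^ 2 * ‖A.fr j F 0 (eb i)‖ ^ 2) := by
      intro i
      rw [← sum_pt_sq]
      exact Finset.sum_congr rfl fun m _ => by rw [e1 (i, m), hS.cen j i _ hj]
    rw [Fintype.sum_prod_type, Finset.sum_congr rfl fun i _ => h3 i, ← Finset.mul_sum,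
      Finset.sum_add_distrib, ← Finset.mul_sum, Finset.sum_const, Finset.card_univ,
      Fintype.card_fin, nsmul_eq_mul]
    have h4 := mul_le_mul_of_nonneg_left h2 (by positivity : 0 ≤ t ^ 16)
    have h5 : (t ^ 8) ^ 2 = t ^ 16 := by ring
    rw [h5]
    linarith
  · rw [Fintype.sum_prod_type]
    refine le_trans (le_of_eq ?_) (Finset.sum_le_sum (s := Finset.univ)
      (f := fun _ : Fin n => 4 * (v.Jf F r - 2 * t ^ 16)) fun i _ => ?_)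
    · rw [Finset.sum_const, Finset.card_univ, Fintype.card_fin, nsmul_eq_mul]
      ring
    · rw [Finset.sum_congr rfl fun m _ => e4 (i, m) v]
      exact X2 i _ (by linarith) (by linarith) fun m => (X1 i m).1.bs
  · rw [Fintype.sum_prod_type]
    refine le_trans (Finset.sum_le_sum (s := Finset.univ) (g := fun _ : Fin n =>
      4 * (Real.exp (p * g.sp (ctr F) z / Λ ^ 2) * (1 + C * p ^ 2 * t ^ 16))) fun i _ => ?_)
      (le_of_eq ?_)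
    · simp only [e1]
      refine (X3 i p z hp hpΛ (by linarith) hzK).trans ?_
      have h2 : C3 ≤ C := by linarith
      gcongr
    · rw [Finset.sum_const, Finset.card_univ, Fintype.card_fin, nsmul_eq_mul]
      ring

end Vale.Agent.P272
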