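import Vale.Agent.P272.Stmt
import Vale.Agent.P278.Osg2

/-! P272: definitions used in the proof (see `notes/P272.md`). No task here. -/

open Metric Set Filter Topology Complex

noncomputable section

namespace Vale.Agent.P272

/-- Operators on the model space. -/
abbrev L (n : ℕ) : Type := E n →L[ℂ] E n

variable {n : ℕ}

/-- Twice the `z̄` derivative. -/
def db (u : ℂ × E n → E n) (p : ℂ × E n) : E n :=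
  fderiv ℝ u p (1, 0) + I • fderiv ℝ u p (I, 0)

/-- The real derivative is complex linear in the second variable. -/
def Lin (u : ℂ × E n → E n) (p : ℂ × E n) : Prop :=
  ∀ b, fderiv ℝ u p (0, I • b) = I • fderiv ℝ u p (0, b)

/-- The Cauchy transform. -/
def CT (q : ℂ → E n) (z : ℂ) : E n := ∫ ζ : ℂ, (1 / (2 * Real.pi * ζ) : ℂ) • q (z - ζ)

/-- A tube around the graph of `y₀`. -/
def tub (O : Set ℂ) (y₀ : ℂ → E n) (ε : ℝ) : Set (ℂ × E n) := {p | p.1 ∈ O ∧ ‖p.2 - y₀ p.1‖ < ε}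

/-- A family of almost linear maps `Φ (z, ·)`. -/
structure IP (O : Set ℂ) (y₀ : ℂ → E n) (ε M : ℝ) (Φ : ℂ × E n → E n) (P V : ℂ → L n) : Prop where
  op : IsOpen O
  cont : ContinuousOn y₀ O
  one : 1 ≤ M
  diff : ContDiffOn ℝ 1 Φ (tub O y₀ ε)
  lin : ∀ p ∈ tub O y₀ ε, Lin Φ p
  inv : ∀ z ∈ O, V z * P z = 1 ∧ P z * V z = 1 ∧ ‖V z‖ ≤ M
  app : ∀ p ∈ tub O y₀ ε, ∀ b, ‖fderiv ℝ Φ p (0, b) - P p.1 b‖ ≤ ‖b‖ / (2 * M)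
  zero : ∀ z ∈ O, Φ (z, y₀ z) = 0

/-- The barrier. -/
def bar (Λ r : ℝ) (z : ℂ) : ℝ := 1 + Λ * (r ^ 2 - ‖z‖ ^ 2)

/-- The four points `δ i^m`. -/
def pt (δ : ℝ) (m : Fin 4) : ℂ := δ * I ^ (m : ℕ)

/-- The standard basis. -/
def eb (i : Fin n) : E n := EuclideanSpace.single i 1

/-- A finite normalised atlas. -/
structure Atl (n : ℕ) (X : Type) [TopologicalSpace X] where
  N : ℕ
  e : Fin N → OpenPartialHomeomorph X (E n)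
  tgt : ∀ j, closedBall 0 4 ⊆ (e j).target
  cov : ∀ x, ∃ j, x ∈ (e j).source ∧ ‖e j x‖ < 1
  hol : ∀ j k x, x ∈ (e j).source → x ∈ (e k).source →
    DifferentiableAt ℂ (e j ∘ (e k).symm) (e k x)

variable {X : Type} [TopologicalSpace X]

namespace Atl

variable (A : Atl n X)

/-- `x` lies in the ball of radius `a` of the chart `j`. -/
def In (j : Fin A.N) (a : ℝ) (x : X) : Prop := x ∈ (A.e j).source ∧ ‖A.e j x‖ ≤ a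

/-- The chosen chart at `x`. -/
def ch (x : X) : Fin A.N := (A.cov x).choose

/-- The Jacobian of the change from chart `k` to chart `j`. -/
def tr (j k : Fin A.N) (x : X) : L n := fderiv ℂ (A.e j ∘ (A.e k).symm) (A.e k x)

/-- Complex differentiable at `p`. -/
def HolAt {B : Type} [NormedAddCommGroup B] [NormedSpace ℂ B] (F : B → X) (p : B) : Prop :=
  ContinuousAt F p ∧ ∀ j, F p ∈ (A.e j).source → DifferentiableAt ℂ (A.e j ∘ F) p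

/-- Holomorphic near `p`. -/
def Hol {B : Type} [NormedAddCommGroup B] [NormedSpace ℂ B] (F : B → X) (p : B) : Prop :=
  ∀ᶠ p' in 𝓝 p, A.HolAt F p'

/-- Brody hyperbolic. -/
def Hyp : Prop := ∀ f : ℂ → X, (∀ z, A.HolAt f z) → ∀ z w, f z = f w

/-- The derivative of a disc in the chart `j`. -/
def dv (j : Fin A.N) (f : ℂ → X) (z : ℂ) : E n := deriv (A.e j ∘ f) z

/-- The frame of a tube in the chart `j`. -/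
def fr (j : Fin A.N) (F : ℂ × E n → X) (z : ℂ) : L n := fderiv ℂ (fun u => A.e j (F (z, u))) 0

/-- A germ of tube along `S`. -/
def Bs (F : ℂ × E n → X) (S : Set ℂ) : Prop :=
  ∀ z ∈ S, A.Hol F (z, 0) ∧ ∀ j, F (z, 0) ∈ (A.e j).source → IsUnit (A.fr j F z)

/-- The points of the disc of radius `r` mapped to the open ball of radius 3 of the chart `k`. -/
def dom (f : ℂ → X) (r : ℝ) (k : Fin A.N) : Set ℂ :=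
  {z | ‖z‖ < r ∧ f z ∈ (A.e k).source ∧ ‖A.e k (f z)‖ < 3}

/-- Local coordinates centred at `F (z, 0)`. -/
def Kf (χ : Fin A.N → ℂ → ℝ) (F : ℂ × E n → X) (z : ℂ) (w : X) : E n :=
  ∑ j, χ j z • Ring.inverse (A.fr j F z) (A.e j w - A.e j (F (z, 0)))

/-- Twice the `z̄` derivative of `Kf`. -/
def Qf (χ : Fin A.N → ℂ → ℝ) (F : ℂ × E n → X) (z : ℂ) (w : X) : E n :=
  ∑ j, ((fderiv ℝ (χ j) z 1 : ℂ) + I * (fderiv ℝ (χ j) z I : ℝ)) •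
    Ring.inverse (A.fr j F z) (A.e j w - A.e j (F (z, 0)))

/-- A partition of unity along `f`. -/
structure PU (f : ℂ → X) (r D : ℝ) (χ : Fin A.N → ℂ → ℝ) : Prop where
  diff : ∀ j, ContDiffOn ℝ 2 (χ j) (ball 0 r)
  sum : ∀ z, ‖z‖ < r → ∑ j, χ j z = 1
  nn : ∀ j z, ‖z‖ < r → 0 ≤ χ j z
  der : ∀ j z, ‖z‖ < r → ‖fderiv ℝ (χ j) z‖ ≤ D
  supp : ∀ j z, ‖z‖ < r → ¬ A.In j 2 (f z) → χ j =ᶠ[𝓝 z] 0

/-- A tube `W` of radius `ε` with the same centre and frame as `F`. -/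
structure Tb (F W : ℂ × E n → X) (R ε M H : ℝ) : Prop where
  hol : ∀ z u, ‖z‖ < R → ‖u‖ < ε → A.HolAt W (z, u)
  ctr : ∀ z, ‖z‖ < R → W (z, 0) = F (z, 0)
  fr : ∀ j z, ‖z‖ < R → F (z, 0) ∈ (A.e j).source → A.fr j W z = A.fr j F z
  near : ∀ k z u, ‖z‖ < R → ‖u‖ < ε → A.In k 2 (F (z, 0)) →
    W (z, u) ∈ (A.e k).source ∧ ‖A.e k (W (z, u)) - A.e k (F (z, 0))‖ ≤ 4 * M * ‖u‖
  hold : ∀ k z z' u, ‖z‖ < R → ‖z'‖ < R → ‖u‖ < ε → A.In k 2 (F (z, 0)) → ‖z - z'‖ ≤ ε →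
    W (z', u) ∈ (A.e k).source ∧
      ‖A.e k (W (z, u)) - A.e k (W (z', u))‖ ≤ H * ‖z - z'‖ ^ (3 / 4 : ℝ)

end Atl

/-- The central disc of a tube. -/
def ctr (F : ℂ × E n → X) (z : ℂ) : X := F (z, 0)

/-- The tube recentred at `z s e_i`. -/
def shf (W : ℂ × E n → X) (i : Fin n) (s : ℂ) (p : ℂ × E n) : X :=
  W (p.1, (p.1 * s) • eb i + p.2)

/-- A metric with uniform bounds. -/
structure Met (A : Atl n X) where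
  Γ : Fin A.N → E n → L n
  C : ℝ
  one : 1 ≤ C
  sa : ∀ j y, ‖y‖ ≤ 4 → IsSelfAdjoint (Γ j y)
  lo : ∀ j y w, ‖y‖ ≤ 4 → ‖w‖ ^ 2 ≤ C * qf (Γ j y) w
  up : ∀ j y, ‖y‖ ≤ 4 → ‖Γ j y‖ ≤ C
  lip : ∀ j y y', ‖y‖ ≤ 4 → ‖y'‖ ≤ 4 → ‖Γ j y - Γ j y'‖ ≤ C * ‖y - y'‖
  nf : ∀ j y, ‖y‖ ≤ 4 → ∃ a : E n →L[ℂ] L n, ‖a‖ ≤ C ∧ ∀ h w, ‖y + h‖ ≤ 4 →
    |qf (Γ j (y + h)) w - qf (Γ j y) ((1 + a h) w)| ≤ C * ‖h‖ ^ 2 * ‖w‖ ^ 2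
  ld : ∀ j y y', ‖y‖ ≤ 4 → ‖y'‖ ≤ 4 →
    |Real.log ‖(Γ j y).det‖ - Real.log ‖(Γ j y').det‖| ≤ C * ‖y - y'‖
  cmp : ∀ j k x, A.In j 4 x → A.In k 4 x →
    Γ k (A.e k x) = star (A.tr j k x) * Γ j (A.e j x) * A.tr j k x

namespace Met

variable {A : Atl n X} (g : Met A)

/-- The square of the speed. -/
def sp (f : ℂ → X) (z : ℂ) : ℝ :=
  qf (g.Γ (A.ch (f z)) (A.e (A.ch (f z)) (f z))) (A.dv (A.ch (f z)) f z)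

/-- The Gram matrix of the frame. -/
def Gr (F : ℂ × E n → X) (z : ℂ) : L n :=
  star (A.fr (A.ch (F (z, 0))) F z) * g.Γ (A.ch (F (z, 0))) (A.e (A.ch (F (z, 0))) (F (z, 0))) *
    A.fr (A.ch (F (z, 0))) F z

/-- Input of the tube lemma. -/
structure TI (F : ℂ × E n → X) (r M : ℝ) : Prop where
  le : r ≤ 1
  one : 1 ≤ M
  bs : A.Bs F (ball 0 r)
  sp : ∀ z, ‖z‖ < r → g.sp (ctr F) z ≤ M ^ 2
  fr : ∀ j z, ‖z‖ < r → A.In j 3 (F (z, 0)) → ‖A.fr j F z‖ ≤ M ∧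
    ‖Ring.inverse (A.fr j F z)‖ ≤ M ∧ ‖deriv (A.fr j F) z‖ ≤ M

/-- A state: speed at most `Λ`, frame unitary up to `η` on the boundary circle. -/
structure Gd (F : ℂ × E n → X) (r Λ η : ℝ) : Prop where
  lo : 1 / 2 ≤ r
  le : r ≤ 1
  one : 1 ≤ Λ
  nn : 0 ≤ η
  half : η ≤ 1 / 2
  bs : A.Bs F (closedBall 0 r)
  sp : ∀ z, ‖z‖ ≤ r → g.sp (ctr F) z ≤ Λ ^ 2
  tol : ∀ z, ‖z‖ = r → ‖g.Gr F z - 1‖ ≤ η

/-- Crude bounds on an open disc. -/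
structure Cr (F : ℂ × E n → X) (R M : ℝ) : Prop where
  one : 1 ≤ M
  bs : A.Bs F (ball 0 R)
  sp : ∀ z, ‖z‖ < R → g.sp (ctr F) z ≤ M ^ 2
  gr : ∀ z, ‖z‖ < R → ‖g.Gr F z‖ ≤ M

end Met

/-- The logarithm of a volume form, with uniform bounds. -/
structure Vol {A : Atl n X} (g : Met A) where
  ℓ : Fin A.N → E n → ℝ
  C : ℝ
  one : 1 ≤ C
  bd : ∀ j y, ‖y‖ ≤ 4 → ℓ j y ≤ Real.log ‖(g.Γ j y).det‖ + C
  lip : ∀ j y y', ‖y‖ ≤ 4 → ‖y'‖ ≤ 4 → |ℓ j y - ℓ j y'| ≤ C * ‖y - y'‖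
  tay : ∀ j y, ‖y‖ ≤ 4 → ∃ (D₁ : E n →L[ℝ] ℝ) (D₂ : E n →L[ℝ] E n →L[ℝ] ℝ), ‖D₁‖ ≤ C ∧ ‖D₂‖ ≤ C ∧
    (∀ a, D₂ a a + D₂ (I • a) (I • a) ≤ 4 * qf (g.Γ j y) a) ∧
    ∀ h, ‖y + h‖ ≤ 4 → ℓ j (y + h) ≤ ℓ j y + D₁ h + D₂ h h / 2 + C * ‖h‖ ^ 3
  vol : ∀ j y, ‖y‖ ≤ 4 → Real.log ‖(g.Γ j y).det‖ ≤ ℓ j y
  cmp : ∀ j k x, A.In j 4 x → A.In k 4 x →
    ℓ k (A.e k x) = ℓ j (A.e j x) + Real.log (‖(A.tr j k x).det‖ ^ 2)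

namespace Vol

variable {A : Atl n X} {g : Met A} (v : Vol g)

/-- The logarithm of the volume of the frame. -/
def jf (F : ℂ × E n → X) (z : ℂ) : ℝ :=
  v.ℓ (A.ch (F (z, 0))) (A.e (A.ch (F (z, 0))) (F (z, 0))) +
    Real.log (‖(A.fr (A.ch (F (z, 0))) F z).det‖ ^ 2)

/-- Minus the characteristic function. -/
def Jf (F : ℂ × E n → X) (r : ℝ) : ℝ := v.jf F 0 - Real.circleAverage (v.jf F) 0 r

end Vol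

/-- The abstract game. -/
structure Game (St κ : Type) [Fintype κ] where
  rad : St → ℝ
  a : St → ℝ
  J : St → ℝ
  X : St → ℂ → ℝ
  T : St → ℝ → Prop
  β : ℝ
  ν : ℝ
  H : ℝ
  C₁ : ℝ
  hβ : 0 < β
  hν : 1 ≤ ν
  mono : ∀ σ η η', η ≤ η' → T σ η → T σ η'
  ha : ∀ σ η, T σ η → 1 / 2 ≤ rad σ → 0 ≤ a σ ∧ a σ ≤ H
  hX : ∀ σ η z, T σ η → ‖z‖ < rad σ → X σ z ≤ C₁ / (rad σ - ‖z‖) ^ 2
  init : ∃ σ, T σ 0 ∧ rad σ = 1 ∧ J σ = 0 ∧ ∀ z, X σ z = 0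
  step : ∀ K : ℝ, 1 ≤ K → ∃ C : ℕ, 1 ≤ C ∧ ∀ (Λ t : ℝ) (σ : St), (C : ℝ) ≤ Λ → 0 < t →
    t * Λ ^ C ≤ 1 → 3 / 4 ≤ rad σ → rad σ ≤ 1 → T σ (t ^ 24) →
    (∀ z, ‖z‖ ≤ rad σ → X σ z ≤ Λ ^ 2) → J σ ≤ Λ ^ C ∧
    ∃ (σ' : κ → St) (r : ℝ), rad σ - 4 * t ^ 24 ≤ r ∧ r ≤ rad σ ∧
      (∀ k, rad (σ' k) = r ∧ T (σ' k) (t ^ 25) ∧ (∀ z, ‖z‖ ≤ r → X (σ' k) z ≤ (2 * Λ) ^ 2) ∧
        ∀ z w, ‖z‖ ≤ r → ‖w‖ ≤ r → X (σ' k) w ≤ X (σ' k) z + ‖z - w‖ / t ^ 25) ∧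
      Fintype.card κ * (a σ + t ^ 16 * β * (1 + J σ / ν)) ≤ ∑ k, a (σ' k) ∧
      Fintype.card κ * (J σ - 2 * t ^ 16) ≤ ∑ k, J (σ' k) ∧
      ∀ (p : ℝ) (z : ℂ), 1 ≤ p → p ≤ Λ → ‖z‖ ≤ r → rad σ - K / Λ ≤ ‖z‖ →
        ∑ k, Real.exp (p * X (σ' k) z / Λ ^ 2) ≤
          Fintype.card κ * (Real.exp (p * X σ z / Λ ^ 2) * (1 + C * p ^ 2 * t ^ 16))

end Vale.Agent.P272
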