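import Vale.Agent.P272.Defs

/-! P272: more definitions (no task here). -/

open Metric Set Filter Topology Complex

noncomputable section

namespace Vale.Agent.P272

variable {n : ℕ} {X : Type} [TopologicalSpace X] {A : Atl n X}

/-- The derivative bound given by hyperbolicity. -/
def Met.Br (g : Met A) (C₁ : ℝ) : Prop :=
  1 ≤ C₁ ∧ ∀ (f : ℂ → X) (z : ℂ) (d : ℝ), 0 < d → (∀ w ∈ ball z d, A.HolAt f w) →
    g.sp f z ≤ C₁ / d ^ 2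

/-- `Kf` in the chart `k`. -/
def Atl.Kc (A : Atl n X) (χ : Fin A.N → ℂ → ℝ) (F : ℂ × E n → X) (k : Fin A.N) (p : ℂ × E n) :
    E n := A.Kf χ F p.1 ((A.e k).symm p.2)

/-- `Qf` in the chart `k`. -/
def Atl.Qc (A : Atl n X) (χ : Fin A.N → ℂ → ℝ) (F : ℂ × E n → X) (k : Fin A.N) (p : ℂ × E n) :
    E n := A.Qf χ F p.1 ((A.e k).symm p.2)

/-- The tube of radius `ε` in the chart `k`. -/
def Atl.tk (A : Atl n X) (F : ℂ × E n → X) (r ε : ℝ) (k : Fin A.N) : Set (ℂ × E n) :=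
  tub (A.dom (ctr F) r k) (fun z => A.e k (F (z, 0))) ε

/-- All properties of `Kc` and `Qc`. -/
structure Atl.KP (A : Atl n X) (χ : Fin A.N → ℂ → ℝ) (F : ℂ × E n → X) (r ε M B : ℝ) : Prop where
  ip : ∀ k, IP (A.dom (ctr F) r k) (fun z => A.e k (F (z, 0))) ε M (A.Kc χ F k)
    (fun z => Ring.inverse (A.fr k F z)) (A.fr k F)
  diff : ∀ k, ContDiffOn ℝ 1 (A.Qc χ F k) (A.tk F r ε k)
  lin : ∀ k, ∀ p ∈ A.tk F r ε k, Lin (A.Qc χ F k) p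
  eq : ∀ k, ∀ p ∈ A.tk F r ε k, db (A.Kc χ F k) p = A.Qc χ F k p
  le : ∀ k, ∀ p ∈ A.tk F r ε k, ‖A.Qc χ F k p‖ ≤ B * M ^ 2 * ‖p.2 - A.e k (F (p.1, 0))‖ ^ 2
  der : ∀ k, ∀ p ∈ A.tk F r ε k, ∀ a, ‖fderiv ℝ (A.Kc χ F k) p (a, 0)‖ ≤ B * M ^ 3 * ‖a‖

/-- The inverse `G (z, ·)` of `Kf z` on the ball of radius `δ`. -/
structure Atl.GQ (A : Atl n X) (χ : Fin A.N → ℂ → ℝ) (F G : ℂ × E n → X) (r δ M B : ℝ) : Prop where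
  eq : ∀ p : ℂ × E n, ‖p.1‖ < r → ‖p.2‖ < δ → A.Kf χ F p.1 (G p) = p.2
  near : ∀ k (p : ℂ × E n), p.1 ∈ A.dom (ctr F) r k → ‖p.2‖ < δ → G p ∈ (A.e k).source ∧
    ‖A.e k (G p) - A.e k (F (p.1, 0))‖ ≤ 2 * M * ‖p.2‖
  diff : ∀ k, ContDiffOn ℝ 1 (A.e k ∘ G) (A.dom (ctr F) r k ×ˢ ball 0 δ)
  qdiff : ContDiffOn ℝ 1 (fun p => A.Qf χ F p.1 (G p)) (ball 0 r ×ˢ ball 0 δ)
  qlin : ∀ p : ℂ × E n, ‖p.1‖ < r → ‖p.2‖ < δ → Lin (fun p => A.Qf χ F p.1 (G p)) p ∧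
    ‖A.Qf χ F p.1 (G p)‖ ≤ 4 * B * M ^ 4 * ‖p.2‖ ^ 2

/-- A holomorphic family of points, vectors and frames. -/
structure Fam (y w : ℂ → E n) (V : ℂ → L n) (ε M B : ℝ) : Prop where
  dy : DifferentiableOn ℂ y (ball 0 ε)
  dw : DifferentiableOn ℂ w (ball 0 ε)
  dV : DifferentiableOn ℂ V (ball 0 ε)
  ly : ∀ s, ‖s‖ < ε → ‖y s - y 0‖ ≤ 4 * M * ‖s‖
  lw : ∀ s, ‖s‖ < ε → ‖w s‖ ≤ B
  lV : ∀ s, ‖s‖ < ε → ‖V s‖ ≤ 16 * M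

/-- The family defined by the shifted tubes at the point `z`, in the chart `k`. -/
structure Atl.FamAt (A : Atl n X) (F W : ℂ × E n → X) (k : Fin A.N) (i : Fin n) (z : ℂ)
    (ε M B : ℝ) : Prop where
  fam : Fam (fun s => A.e k (shf W i s (z, 0))) (fun s => A.dv k (ctr (shf W i s)) z)
    (fun s => A.fr k (shf W i s) z) ε M B
  c0 : shf W i 0 (z, 0) = F (z, 0)
  w0 : A.dv k (ctr (shf W i 0)) z = A.dv k (ctr F) z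
  v0 : A.fr k (shf W i 0) z = A.fr k F z
  y1 : deriv (fun s => A.e k (shf W i s (z, 0))) 0 = z • A.fr k F z (eb i)
  w1 : deriv (fun s => A.dv k (ctr (shf W i s)) z) 0 =
    A.fr k F z (eb i) + z • deriv (A.fr k F) z (eb i)
  hol : ∀ s, ‖s‖ < ε → shf W i s (z, 0) ∈ (A.e k).source ∧ A.Hol (shf W i s) (z, 0)

/-- Everything known about a state and its tube. -/
structure Met.SW (g : Met A) (F W : ℂ × E n → X) (r Λ t M ε B K D P : ℝ) : Prop where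
  gd : g.Gd F r Λ (t ^ 24)
  lo : 3 / 4 ≤ r
  t0 : 0 < t
  K1 : 1 ≤ K
  D1 : 1 ≤ D
  DΛ : D ≤ Λ
  ΛM : Λ ≤ M
  MP : M ≤ P
  B1 : 1 ≤ B
  BP : B * t ^ 6 ≤ P
  e0 : 0 < ε
  eM : 4 * M * ε ≤ 1
  eP : 1 ≤ ε * P
  ti : g.TI F (r - t ^ 24) M
  fam : ∀ z i, ‖z‖ ≤ r - 3 * t ^ 24 → A.FamAt F W (A.ch (F (z, 0))) i z ε M B
  cen : ∀ j i s, A.In j 1 (F (0, 0)) →
    A.dv j (ctr (shf W i s)) 0 = A.dv j (ctr F) 0 + s • A.fr j F 0 (eb i)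
  gr : ∀ z, ‖z‖ ≤ r → ‖g.Gr F z‖ ≤ M ∧ ∀ ξ, ‖ξ‖ ^ 2 ≤ M * qf (g.Gr F z) ξ
  tol : ∀ z, ‖z‖ ≤ r → r - K / Λ ≤ ‖z‖ → ‖g.Gr F z - 1‖ ≤ D * (t ^ 24 + Λ * (r - ‖z‖))
  lay : ∀ j z, ‖z‖ ≤ r - t ^ 24 → r - K / Λ ≤ ‖z‖ → A.In j 3 (F (z, 0)) →
    ‖A.fr j F z‖ ≤ D ∧ ‖deriv (A.fr j F) z‖ ≤ D * Λ

/-- A constant that depends only on the dimension. -/
def cn (n : ℕ) : ℝ := 1 / (3 * n * (n.factorial : ℝ) ^ 2)

/-- The atlas `A` is obtained from the charts at the points `x j` by rescaling. -/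
structure Atl.Res [ChartedSpace (E n) X] (A : Atl n X) (x : Fin A.N → X) (ρ : Fin A.N → ℝ) :
    Prop where
  pos : ∀ j, 0 < ρ j
  src : ∀ j, (A.e j).source = (chartAt (E n) (x j)).source
  tgt : ∀ j y, y ∈ (A.e j).target ↔
    chartAt (E n) (x j) (x j) + ρ j • y ∈ (chartAt (E n) (x j)).target
  app : ∀ j p, chartAt (E n) (x j) (x j) + ρ j • A.e j p = chartAt (E n) (x j) p
  symm : ∀ j y, (A.e j).symm y = (chartAt (E n) (x j)).symm (chartAt (E n) (x j) (x j) + ρ j • y)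

end Vale.Agent.P272
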