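import Vale.Agent.P272.Hol4
import Vale.Agent.P272.Lin

/-! P272 Der (task). Helper names start with `der_`.
Plan. For a unit vector `ξ` let `φ z = ⟪V z₁ ξ, Γ (V z ξ)⟫`; `qf_cs` gives `‖φ‖ ≤ M`, `re φ z₁ ≥ m`, so `deriv_re` bounds `⟪ξ, T ξ⟫` for `T = star (V z₁) * Γ * deriv V z₁`; `polar` bounds `‖T‖ ≤ 8 (M - m) / t`. For `b = deriv V z₁ w` write `b = V z₁ ξ` (`unit_of_lo`): `qf Γ b = re ⟪ξ, T w⟫ ≤ ‖ξ‖ ‖T w‖`, `m ‖ξ‖^2 ≤ qf Γ b`, so `‖b‖^2 ≤ C ‖T w‖^2 / m ≤ (C / m)^2 ‖T w‖^2`. -/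

open Metric Set Filter Topology Complex

noncomputable section

namespace Vale.Agent.P272

variable {n : ℕ}

theorem der_inner (V Γ : L n) (ξ b : E n) :
    inner ℂ ξ ((star V * Γ) b) = inner ℂ (V ξ) (Γ b) := by
  rw [ContinuousLinearMap.mul_apply, ContinuousLinearMap.star_eq_adjoint,
    ContinuousLinearMap.adjoint_inner_right]

theorem der_form {V : ℂ → L n} {Γ : L n} {z₁ : ℂ} {t M m : ℝ} (ht : 0 < t)
    (hV : DifferentiableOn ℂ V (ball z₁ t)) (sa : IsSelfAdjoint Γ) (h0 : ∀ w, 0 ≤ qf Γ w)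
    (hM : 0 ≤ M) (up : ∀ z ∈ ball z₁ t, ∀ ξ, qf Γ (V z ξ) ≤ M * ‖ξ‖ ^ 2)
    (dn : ∀ ξ, m * ‖ξ‖ ^ 2 ≤ qf Γ (V z₁ ξ)) (ξ : E n) :
    ‖inner ℂ ξ ((star (V z₁) * Γ * deriv V z₁) ξ)‖ ≤ 2 * (M - m) / t * ‖ξ‖ ^ 2 := by
  set ℓ : L n →L[ℂ] ℂ := (innerSL ℂ (V z₁ ξ)).comp (Γ.comp (ContinuousLinearMap.apply ℂ (E n) ξ))
    with hℓ
  have hℓa : ∀ S : L n, ℓ S = inner ℂ (V z₁ ξ) (Γ (S ξ)) := fun S => by simp [hℓ]
  have hd : DifferentiableOn ℂ (fun z => ℓ (V z)) (ball z₁ t) :=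
    ℓ.differentiable.comp_differentiableOn hV
  have hz : z₁ ∈ ball z₁ t := mem_ball_self ht
  have hb : ∀ z ∈ ball z₁ t, ‖ℓ (V z)‖ ≤ M * ‖ξ‖ ^ 2 := by
    intro z hzz
    have h1 := qf_cs sa h0 (V z₁ ξ) (V z ξ)
    have h2 : qf Γ (V z₁ ξ) * qf Γ (V z ξ) ≤ (M * ‖ξ‖ ^ 2) * (M * ‖ξ‖ ^ 2) :=
      mul_le_mul (up z₁ hz ξ) (up z hzz ξ) (h0 _) (by positivity)
    rw [hℓa]
    exact abs_le_of_sq_le_sq' (by nlinarith) (by positivity) |>.2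
  have h3 := deriv_re ht hd hb
  have hder : HasDerivAt (fun z => ℓ (V z)) (ℓ (deriv V z₁)) z₁ :=
    ℓ.hasFDerivAt.comp_hasDerivAt z₁
      ((hV.differentiableAt (isOpen_ball.mem_nhds hz)).hasDerivAt)
  rw [hder.deriv, hℓa, hℓa] at h3
  have h4 : (inner ℂ (V z₁ ξ) (Γ (V z₁ ξ)) : ℂ).re = qf Γ (V z₁ ξ) := rfl
  rw [h4] at h3
  rw [ContinuousLinearMap.mul_apply, der_inner]
  refine h3.trans ?_
  have h5 := dn ξ
  rw [div_mul_eq_mul_div]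
  exact div_le_div_of_nonneg_right (by nlinarith) ht.le

theorem der_est {V : ℂ → L n} {Γ : L n} {z₁ : ℂ} {t C M m : ℝ} (ht : 0 < t)
    (hV : DifferentiableOn ℂ V (ball z₁ t)) (sa : IsSelfAdjoint Γ) (hC : 1 ≤ C)
    (lo : ∀ w, ‖w‖ ^ 2 ≤ C * qf Γ w) (hm : 0 < m) (hm1 : m ≤ 1) (hM : m ≤ M)
    (up : ∀ z ∈ ball z₁ t, ∀ ξ, qf Γ (V z ξ) ≤ M * ‖ξ‖ ^ 2)
    (dn : ∀ ξ, m * ‖ξ‖ ^ 2 ≤ qf Γ (V z₁ ξ)) : ‖deriv V z₁‖ ≤ 8 * C * (M - m) / (m * t) := by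
  have hC0 : 0 < C := by linarith
  have h0 : ∀ w, 0 ≤ qf Γ w := fun w =>
    nonneg_of_mul_nonneg_right ((sq_nonneg _).trans (lo w)) hC0
  have hMm : 0 ≤ M - m := by linarith
  have hT := polar (T := star (V z₁) * Γ * deriv V z₁) (κ := 2 * (M - m) / t) (by positivity)
    (der_form ht hV sa h0 (by linarith) up dn)
  set T := star (V z₁) * Γ * deriv V z₁ with hTd
  have hu : IsUnit (V z₁) := by
    refine (unit_of_lo (c := Real.sqrt (‖Γ‖ / m)) (Real.sqrt_nonneg _) fun w => ?_).1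
    have h1 := (dn w).trans ((le_abs_self _).trans (qf_le Γ (V z₁ w)))
    refine (abs_le_of_sq_le_sq' ?_ (by positivity)).2
    rw [mul_pow, Real.sq_sqrt (by positivity), div_mul_eq_mul_div, le_div_iff₀ hm]
    linarith
  refine ContinuousLinearMap.opNorm_le_bound _ (by positivity) fun w => ?_
  obtain ⟨U, hU⟩ := hu.exists_right_inv
  set b := deriv V z₁ w with hb
  set ξ := U b with hξ
  have hVξ : V z₁ ξ = b := by
    rw [hξ, ← ContinuousLinearMap.mul_apply, hU, ContinuousLinearMap.one_apply]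
  have h1 : qf Γ b ≤ ‖ξ‖ * ‖T w‖ := by
    have : inner ℂ ξ (T w) = inner ℂ b (Γ b) := by
      rw [hTd, ContinuousLinearMap.mul_apply, der_inner, hVξ]
    have h2 : qf Γ b = (inner ℂ ξ (T w) : ℂ).re := by rw [this]; rfl
    rw [h2]
    exact (Complex.re_le_norm _).trans (norm_inner_le_norm _ _)
  have h2 : m * ‖ξ‖ ^ 2 ≤ qf Γ b := hVξ ▸ dn ξ
  have h3 : m * ‖ξ‖ ≤ ‖T w‖ := by
    rcases (norm_nonneg ξ).eq_or_lt with h | h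
    · rw [← h, mul_zero]; exact norm_nonneg _
    · exact le_of_mul_le_mul_left (by nlinarith) h
  have h4 : m * qf Γ b ≤ ‖T w‖ ^ 2 := by
    have := norm_nonneg (T w)
    nlinarith
  have h5 : m * ‖b‖ ≤ C * ‖T w‖ := by
    refine (abs_le_of_sq_le_sq' ?_ (by positivity)).2
    have h6 : m * ‖b‖ ^ 2 ≤ C * ‖T w‖ ^ 2 := by
      have := mul_le_mul_of_nonneg_left (lo b) hm.le
      have := mul_le_mul_of_nonneg_left h4 hC0.le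
      nlinarith
    have h7 : m * (m * ‖b‖ ^ 2) ≤ C * (C * ‖T w‖ ^ 2) :=
      mul_le_mul (by linarith) h6 (by positivity) hC0.le
    nlinarith
  have h8 : ‖T w‖ ≤ 4 * (2 * (M - m) / t) * ‖w‖ :=
    (T.le_opNorm w).trans (mul_le_mul_of_nonneg_right hT (norm_nonneg _))
  have h9 : 8 * C * (M - m) / (m * t) * ‖w‖ = C * (4 * (2 * (M - m) / t) * ‖w‖) / m := by
    field_simp
    ring
  rw [h9, le_div_iff₀ hm]
  have := mul_le_mul_of_nonneg_left h8 hC0.le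
  linarith

end Vale.Agent.P272
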