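import Vale.Agent.P272.SandB
import Vale.Agent.P272.Hol4

/-! P272 EstA (task). Helper names start with `esta_`.
Plan. `1 ≤ bar ≤ 1 + 2 Λ (r - ‖z‖) ≤ Λ^3`. `polar` (with `qf_sa`) turns bounds of quadratic forms into norm bounds. In the layer `x = 2 Λ (r - ‖z‖) ≤ 2 K`: `(1 + x)^k - 1 ≤ k (1 + 2K)^k x` (`one_add_mul_le_pow` is the wrong direction; induction or `add_pow_le..`), so `|qf (Gr - 1) ξ| ≤ c (η + x) ‖ξ‖^2`. Constants are absorbed by `c ≤ 2^C ≤ Λ^C`. `fr_le`, `fr_unit`. -/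

open Metric Set Filter Topology Complex

noncomputable section

namespace Vale.Agent.P272

variable {n : ℕ} {X : Type} [TopologicalSpace X] {A : Atl n X}

theorem esta_pow {b B : ℝ} (h1 : 1 ≤ b) (h2 : b ≤ B) (k : ℕ) :
    b ^ k - 1 ≤ k * B ^ k * (b - 1) := by
  induction k with
  | zero => simp
  | succ k ih =>
    have hB : 1 ≤ B := h1.trans h2
    have a1 : 1 ≤ B ^ (k + 1) := one_le_pow₀ hB
    have a2 : 0 ≤ b ^ k - 1 := sub_nonneg.2 (one_le_pow₀ h1)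
    have a3 : b * (b ^ k - 1) ≤ B * (k * B ^ k * (b - 1)) :=
      mul_le_mul h2 ih a2 (by linarith)
    have a4 : 1 * (b - 1) ≤ B ^ (k + 1) * (b - 1) := mul_le_mul_of_nonneg_right a1 (by linarith)
    push_cast
    rw [pow_succ B] at a4 ⊢
    rw [pow_succ b]
    nlinarith

theorem esta_norm {T : L n} (hT : IsSelfAdjoint T) {κ : ℝ} (hκ : 0 ≤ κ)
    (h : ∀ ξ, |qf T ξ| ≤ κ * ‖ξ‖ ^ 2) : ‖T‖ ≤ 4 * κ :=
  polar hκ fun ξ => by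
    rw [qf_sa hT, Complex.norm_real, Real.norm_eq_abs]
    exact h ξ

theorem esta_bar {Λ r : ℝ} {z : ℂ} (hΛ : 2 ≤ Λ) (hr : r ≤ 1) (hz : ‖z‖ ≤ r) :
    1 ≤ bar Λ r z ∧ bar Λ r z ≤ Λ ^ 2 ∧ bar Λ r z ≤ 1 + 2 * (Λ * (r - ‖z‖)) := by
  have h0 := norm_nonneg z
  have h1 : 0 ≤ r ^ 2 - ‖z‖ ^ 2 := by nlinarith
  have h2 : r ^ 2 - ‖z‖ ^ 2 ≤ 1 := by nlinarith
  have h3 : r ^ 2 - ‖z‖ ^ 2 ≤ 2 * (r - ‖z‖) := by nlinarith
  unfold bar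
  refine ⟨by nlinarith, by nlinarith, by nlinarith⟩

theorem esta_gr {T : L n} (hT : IsSelfAdjoint T) {η β B : ℝ} (h0 : 0 ≤ η) (h1 : η ≤ 1 / 2)
    (h2 : 1 ≤ β) (h3 : β ≤ B)
    (h : ∀ ξ, (1 - η) * ‖ξ‖ ^ 2 ≤ β * qf T ξ ∧ qf T ξ ≤ (1 + η) * β * ‖ξ‖ ^ 2) :
    ‖T‖ ≤ 8 * B ∧ (∀ ξ, ‖ξ‖ ^ 2 ≤ 8 * B * qf T ξ) ∧ ‖T - 1‖ ≤ 4 * (η * B + (β - 1)) := by
  have hq : ∀ ξ, 0 ≤ qf T ξ := fun ξ => by
    have a1 : 0 ≤ (1 - η) * ‖ξ‖ ^ 2 := mul_nonneg (by linarith) (sq_nonneg _)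
    exact (mul_nonneg_iff_of_pos_left (by linarith)).1 (a1.trans (h ξ).1)
  have hB : 0 ≤ B := by linarith
  refine ⟨?_, fun ξ => ?_, ?_⟩
  · have a1 := esta_norm hT (κ := 2 * B) (by linarith) fun ξ => by
      rw [abs_of_nonneg (hq ξ)]
      refine (h ξ).2.trans (mul_le_mul_of_nonneg_right ?_ (sq_nonneg _))
      exact mul_le_mul (by linarith) h3 (by linarith) (by norm_num)
    linarith
  · have a1 := (h ξ).1
    have a2 : β * qf T ξ ≤ B * qf T ξ := mul_le_mul_of_nonneg_right h3 (hq ξ)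
    have a3 : 1 / 2 * ‖ξ‖ ^ 2 ≤ (1 - η) * ‖ξ‖ ^ 2 :=
      mul_le_mul_of_nonneg_right (by linarith) (sq_nonneg _)
    have a4 := mul_nonneg hB (hq ξ)
    linarith
  · have hη : η * 1 ≤ η * B := mul_le_mul_of_nonneg_left (h2.trans h3) h0
    have hη' : η * β ≤ η * B := mul_le_mul_of_nonneg_left h3 h0
    have hT1 : IsSelfAdjoint (T - 1) := by
      rw [ContinuousLinearMap.isSelfAdjoint_iff', map_sub,
        ContinuousLinearMap.isSelfAdjoint_iff'.1 hT]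
      exact congrArg _ ContinuousLinearMap.adjoint_id
    refine esta_norm hT1 (by linarith [mul_nonneg h0 hB]) fun ξ => ?_
    rw [qf_sub, qf_one, abs_le]
    obtain ⟨a1, a2⟩ := h ξ
    have a3 := sq_nonneg ‖ξ‖
    have a4 := mul_le_mul_of_nonneg_right hη a3
    have a5 := mul_le_mul_of_nonneg_right hη' a3
    have a6 := mul_nonneg (sub_nonneg.2 h2) a3
    have a7 := mul_nonneg h0 a3
    refine ⟨?_, by linarith⟩
    rcases le_total (qf T ξ) (‖ξ‖ ^ 2) with a8 | a8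
    · have a9 := mul_le_mul_of_nonneg_left a8 (sub_nonneg.2 h2)
      linarith
    · linarith

theorem Met.estA {g : Met A} {C₁ : ℝ} (hB : g.Br C₁) {K : ℝ} (hK : 1 ≤ K) : ∃ C : ℕ, 1 ≤ C ∧
    ∀ (F : ℂ × E n → X) (r Λ η : ℝ), g.Gd F r Λ η → 2 ≤ Λ → ∀ z, ‖z‖ ≤ r →
      (‖g.Gr F z‖ ≤ Λ ^ C ∧ ∀ ξ, ‖ξ‖ ^ 2 ≤ Λ ^ C * qf (g.Gr F z) ξ) ∧
      (∀ j, A.In j 4 (F (z, 0)) → ‖A.fr j F z‖ ≤ Λ ^ C ∧ ‖Ring.inverse (A.fr j F z)‖ ≤ Λ ^ C) ∧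
      (r - K / Λ ≤ ‖z‖ → ‖g.Gr F z - 1‖ ≤ C * (η + Λ * (r - ‖z‖)) ∧
        ∀ j, A.In j 4 (F (z, 0)) → ‖A.fr j F z‖ ≤ C) := by
  obtain ⟨k, hk⟩ := Met.sand hB
  obtain ⟨c, hc⟩ := pow_unbounded_of_one_lt g.C (one_lt_two (α := ℝ))
  set B : ℝ := (1 + 2 * K) ^ k with hBd
  have hB1 : 1 ≤ B := one_le_pow₀ (by linarith)
  have hg := g.one
  obtain ⟨C₀, hC₀⟩ := exists_nat_ge (4 * B + 8 * (k * B) + g.C * (8 * B))
  have hkB : 0 ≤ k * B := by positivity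
  have hgB : 0 ≤ g.C * (8 * B) := by positivity
  refine ⟨C₀ + (c + (2 * k + 3)), by omega, fun F r Λ η hG hΛ z hz => ?_⟩
  have hC : (C₀ : ℝ) ≤ (C₀ + (c + (2 * k + 3)) : ℕ) := Nat.cast_le.2 (Nat.le_add_right _ _)
  obtain ⟨b1, b2, b3⟩ := esta_bar hΛ hG.le hz
  have hΛ1 : 1 ≤ Λ := by linarith
  have hH : A.HolAt F (z, 0) := (hG.bs z (mem_closedBall_zero_iff.2 hz)).1.holAt
  have hβ : 1 ≤ bar Λ r z ^ k := one_le_pow₀ b1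
  have p1 : bar Λ r z ^ k ≤ Λ ^ (2 * k) := by
    rw [pow_mul]
    exact pow_le_pow_left₀ (by linarith) b2 k
  obtain ⟨q1, q2, -⟩ := esta_gr (g.Gr_sa F z) hG.nn hG.half hβ p1 (hk F r Λ η hG z hz)
  have p2 : 8 * Λ ^ (2 * k) ≤ Λ ^ (2 * k + 3) := by
    have a1 : (2 : ℝ) ^ 3 ≤ Λ ^ 3 := pow_le_pow_left₀ (by norm_num) hΛ 3
    rw [pow_add, mul_comm]
    exact mul_le_mul_of_nonneg_left (by linarith) (by positivity)
  have p3 : g.C * (8 * Λ ^ (2 * k)) ≤ Λ ^ (C₀ + (c + (2 * k + 3))) := by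
    refine le_trans ?_ (pow_le_pow_right₀ hΛ1 (Nat.le_add_left _ C₀))
    rw [pow_add]
    exact mul_le_mul (hc.le.trans (pow_le_pow_left₀ (by norm_num) hΛ c)) p2 (by positivity)
      (by positivity)
  have p4 : 1 ≤ 8 * Λ ^ (2 * k) := by
    have a1 : 1 ≤ Λ ^ (2 * k) := one_le_pow₀ hΛ1
    linarith
  have p5 : 8 * Λ ^ (2 * k) ≤ Λ ^ (C₀ + (c + (2 * k + 3))) :=
    p2.trans (pow_le_pow_right₀ hΛ1 (by omega))
  refine ⟨⟨q1.trans p5, fun ξ => (q2 ξ).trans (mul_le_mul_of_nonneg_right p5 ?_)⟩,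
    fun j hj => ⟨(g.fr_le hH hj p4 q1).trans p3, (g.fr_unit hH hj p4 q2).2.trans p3⟩,
    fun hl => ?_⟩
  · exact (mul_nonneg_iff_of_pos_left (by linarith)).1 ((sq_nonneg _).trans (q2 ξ))
  · have x0 : 0 ≤ Λ * (r - ‖z‖) := mul_nonneg (by linarith) (by linarith)
    have x1 : Λ * (r - ‖z‖) ≤ K := by
      have a1 : r - ‖z‖ ≤ K / Λ := by linarith
      rwa [le_div_iff₀ (by linarith), mul_comm] at a1
    have b4 : bar Λ r z ≤ 1 + 2 * K := by linarith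
    have r1 : bar Λ r z ^ k ≤ B := pow_le_pow_left₀ (by linarith) b4 k
    obtain ⟨s1, -, s3⟩ := esta_gr (g.Gr_sa F z) hG.nn hG.half hβ r1 (hk F r Λ η hG z hz)
    have r2 := esta_pow b1 b4 k
    rw [← hBd] at r2
    have r3 : k * B * (bar Λ r z - 1) ≤ k * B * (2 * (Λ * (r - ‖z‖))) :=
      mul_le_mul_of_nonneg_left (by linarith) hkB
    refine ⟨?_, fun j hj => (g.fr_le hH hj (by linarith) s1).trans (by linarith)⟩
    have r4 : 4 * B * η ≤ ((C₀ + (c + (2 * k + 3)) : ℕ) : ℝ) * η :=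
      mul_le_mul_of_nonneg_right (by linarith) hG.nn
    have r5 : 8 * (k * B) * (Λ * (r - ‖z‖)) ≤
        ((C₀ + (c + (2 * k + 3)) : ℕ) : ℝ) * (Λ * (r - ‖z‖)) :=
      mul_le_mul_of_nonneg_right (by linarith) x0
    rw [mul_add]
    linarith

end Vale.Agent.P272
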