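import Vale.Agent.P272.BasB

/-! P272 Loc (task). Helper names start with `loc_`.
Plan. `loc`: on `[0, 1]` the set of `s` with `In j 4 (f (γ s'))` and the estimate for all `s' ≤ s` is closed (`isClosed_in`, continuity) and open to the right (strict inequality, `dv_le`, mean value inequality): `IsClosed.Icc_subset_of_forall_mem_nhdsWithin` or a supremum argument. `trans`: apply `loc` to `ζ ↦ (e k).symm (e k x + ζ • h)` (`holAt_symm`, `sp_eq` in chart `k`). `trans2`: `τ` is holomorphic on `ball y (1 / C^2)` with `‖τ - τ y‖ ≤ 1`; Cauchy estimates twice (`P278.osg2_cauchy`, `osg_fderiv`, `Complex.norm_fderiv_le_div_of_mapsTo_ball`, `Complex.dist_le_div_mul_dist_of_mapsTo_ball`), mean value inequality. -/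

open Metric Set Filter Topology Complex

noncomputable section

namespace Vale.Agent.P272

variable {n : ℕ} {X : Type} [TopologicalSpace X] {A : Atl n X}

theorem loc_sch {τ : E n → E n} {y h : E n} {c : ℝ} (hc : 0 < c)
    (hd : DifferentiableOn ℂ τ (ball y (1 / c))) (hb : ∀ w ∈ ball y (1 / c), ‖τ w - τ y‖ ≤ 1)
    (hh : ‖h‖ < 1 / c / 2) : ‖fderiv ℂ τ (y + h) - fderiv ℂ τ y‖ ≤ 16 * c ^ 2 * ‖h‖ ∧
      ‖τ (y + h) - τ y - fderiv ℂ τ y h‖ ≤ 16 * c ^ 2 * ‖h‖ ^ 2 := by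
  have hR : 0 < 1 / c / 2 := by positivity
  have hsub : ball y (1 / c / 2) ⊆ ball y (1 / c) := ball_subset_ball (by linarith)
  have h1 : ∀ w ∈ ball y (1 / c / 2), ‖fderiv ℂ τ w‖ ≤ 4 * c := by
    intro w hw
    have hs : ball w (1 / c / 2) ⊆ ball y (1 / c) :=
      ball_subset_ball' (by rw [mem_ball] at hw; linarith)
    have h2 := norm_fderiv_le_div_of_mapsTo_ball (hd.mono hs) (R₂ := 2) (fun v hv => by
      rw [mem_closedBall, dist_eq_norm]
      have a1 := hb v (hs hv)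
      have a2 := hb w (hsub hw)
      have a3 := norm_sub_le_norm_sub_add_norm_sub (τ v) (τ y) (τ w)
      rw [norm_sub_rev (τ y) (τ w)] at a3
      linarith) hR
    have e : 2 / (1 / c / 2) = 4 * c := by field_simp; ring
    rwa [e] at h2
  have h3 : ∀ w ∈ ball y (1 / c / 2), ‖fderiv ℂ τ w - fderiv ℂ τ y‖ ≤ 16 * c ^ 2 * ‖w - y‖ := by
    intro w hw
    have h2 := dist_le_div_mul_dist_of_mapsTo_ball ((P278.osg_fderiv isOpen_ball hd).mono hsub)
      (R₂ := 8 * c) (fun v hv => by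
        rw [mem_closedBall, dist_eq_norm]
        have a1 := h1 v hv
        have a2 := h1 y (mem_ball_self hR)
        have a3 := norm_sub_le (fderiv ℂ τ v) (fderiv ℂ τ y)
        linarith) hw
    have e : 8 * c / (1 / c / 2) = 16 * c ^ 2 := by field_simp; ring
    rwa [e, dist_eq_norm, dist_eq_norm] at h2
  have hs2 : closedBall y ‖h‖ ⊆ ball y (1 / c / 2) := closedBall_subset_ball hh
  have hm : y + h ∈ closedBall y ‖h‖ := by
    rw [mem_closedBall, dist_eq_norm, add_sub_cancel_left]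
  refine ⟨?_, ?_⟩
  · have := h3 _ (hs2 hm)
    rwa [add_sub_cancel_left] at this
  · have := (convex_closedBall y ‖h‖).norm_image_sub_le_of_norm_fderiv_le' (f := τ)
      (φ := fderiv ℂ τ y) (C := 16 * c ^ 2 * ‖h‖)
      (fun w hw => hd.differentiableAt (isOpen_ball.mem_nhds (hsub (hs2 hw))))
      (fun w hw => (h3 w (hs2 hw)).trans (mul_le_mul_of_nonneg_left
        (by rwa [mem_closedBall, dist_eq_norm] at hw) (by positivity)))
      (mem_closedBall_self (norm_nonneg h)) hm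
    rw [add_sub_cancel_left] at this
    refine this.trans_eq ?_
    ring

variable [T2Space X] (g : Met A) {j k : Fin A.N}

theorem Met.loc {f : ℂ → X} {z₁ z₂ : ℂ} {Λ : ℝ} (h0 : 0 ≤ Λ)
    (h : ∀ z ∈ segment ℝ z₁ z₂, A.HolAt f z ∧ g.sp f z ≤ Λ ^ 2) (hj : A.In j 3 (f z₁))
    (hs : g.C * Λ * ‖z₂ - z₁‖ < 1) :
    A.In j 4 (f z₂) ∧ ‖A.e j (f z₂) - A.e j (f z₁)‖ ≤ g.C * Λ * ‖z₂ - z₁‖ := by
  have hγ : ∀ s : ℝ, HasDerivAt (fun s : ℝ => z₁ + s • (z₂ - z₁)) (z₂ - z₁) s := by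
    intro s
    have := ((hasDerivAt_id s).smul_const (z₂ - z₁)).const_add z₁
    rwa [one_smul] at this
  have hseg : ∀ s ∈ Icc (0 : ℝ) 1, z₁ + s • (z₂ - z₁) ∈ segment ℝ z₁ z₂ := by
    intro s hs'
    rw [segment_eq_image']
    exact ⟨s, hs', rfl⟩
  have hc : ∀ s ∈ Icc (0 : ℝ) 1, ContinuousAt (fun s : ℝ => f (z₁ + s • (z₂ - z₁))) s :=
    fun s hs' => ContinuousAt.comp (f := fun s : ℝ => z₁ + s • (z₂ - z₁))
      (h _ (hseg s hs')).1.1 (hγ s).continuousAt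
  have hK : 0 ≤ g.C * Λ * ‖z₂ - z₁‖ := by
    have := g.one
    positivity
  have est : ∀ t ∈ Icc (0 : ℝ) 1, Icc 0 t ⊆ {s : ℝ | A.In j 4 (f (z₁ + s • (z₂ - z₁)))} →
      ‖A.e j (f (z₁ + t • (z₂ - z₁))) - A.e j (f z₁)‖ ≤ g.C * Λ * ‖z₂ - z₁‖ := by
    intro t ht hS
    have h1 := norm_image_sub_le_of_norm_deriv_le_segment'
      (f := fun s : ℝ => A.e j (f (z₁ + s • (z₂ - z₁)))) (a := 0) (b := t)
      (f' := fun s => (z₂ - z₁) • A.dv j f (z₁ + s • (z₂ - z₁))) (C := g.C * Λ * ‖z₂ - z₁‖)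
      (fun s hs' => (HasDerivAt.scomp s (h := fun s : ℝ => z₁ + s • (z₂ - z₁))
        ((h _ (hseg s ⟨hs'.1, hs'.2.trans ht.2⟩)).1.2 j (hS hs').1).hasDerivAt
          (hγ s)).hasDerivWithinAt)
      (fun s hs' => by
        have a := h _ (hseg s ⟨hs'.1, hs'.2.le.trans ht.2⟩)
        rw [norm_smul, mul_comm]
        exact mul_le_mul_of_nonneg_right (g.dv_le a.1 (hS (Ico_subset_Icc_self hs')) h0 a.2)
          (norm_nonneg _))
      t ⟨ht.1, le_rfl⟩
    simp only [zero_smul, add_zero, sub_zero] at h1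
    exact h1.trans (mul_le_of_le_one_right hK ht.2)
  have hcl : IsClosed ({s : ℝ | A.In j 4 (f (z₁ + s • (z₂ - z₁)))} ∩ Icc 0 1) := by
    rw [inter_comm]
    exact ContinuousOn.preimage_isClosed_of_isClosed
      (fun s hs' => (hc s hs').continuousWithinAt) isClosed_Icc (A.isClosed_in j le_rfl)
  have hall := hcl.Icc_subset_of_forall_mem_nhdsGT_of_Icc_subset
    (by
      change A.In j 4 (f (z₁ + (0 : ℝ) • (z₂ - z₁)))
      rw [zero_smul, add_zero]
      exact hj.mono (by norm_num))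
    (fun t ht hS => by
      have htI := Ico_subset_Icc_self ht
      have a1 := est t htI hS
      have a2 : f (z₁ + t • (z₂ - z₁)) ∈ (A.e j).source := (hS ⟨ht.1, le_rfl⟩).1
      have a3 : ‖A.e j (f (z₁ + t • (z₂ - z₁)))‖ < 4 := by
        have := norm_le_norm_add_norm_sub' (A.e j (f (z₁ + t • (z₂ - z₁)))) (A.e j (f z₁))
        linarith [hj.2]
      have a4 : ContinuousAt (fun s : ℝ => ‖A.e j (f (z₁ + s • (z₂ - z₁)))‖) t :=
        (ContinuousAt.comp (f := fun s : ℝ => f (z₁ + s • (z₂ - z₁)))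
          ((A.e j).continuousAt a2) (hc t htI)).norm
      refine mem_nhdsWithin_of_mem_nhds ?_
      filter_upwards [(hc t htI).eventually ((A.e j).open_source.mem_nhds a2),
        a4.eventually (gt_mem_nhds a3)] with s b1 b2
      exact ⟨b1, b2.le⟩)
  have e : z₁ + (1 : ℝ) • (z₂ - z₁) = z₂ := by rw [one_smul, add_sub_cancel]
  have r1 : A.In j 4 (f (z₁ + (1 : ℝ) • (z₂ - z₁))) := hall ⟨zero_le_one, le_rfl⟩
  have r2 := est 1 ⟨zero_le_one, le_rfl⟩ hall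
  rw [e] at r1 r2
  exact ⟨r1, r2⟩

theorem Met.loc_ball {f : ℂ → X} {z₁ : ℂ} {Λ t : ℝ} (h0 : 0 ≤ Λ)
    (h : ∀ z ∈ ball z₁ t, A.HolAt f z ∧ g.sp f z ≤ Λ ^ 2) (hj : A.In j 3 (f z₁))
    (hs : g.C * Λ * t ≤ 1) {z : ℂ} (hz : z ∈ ball z₁ t) :
    A.In j 4 (f z) ∧ ‖A.e j (f z) - A.e j (f z₁)‖ ≤ g.C * Λ * ‖z - z₁‖ := by
  have hz' : ‖z - z₁‖ < t := by rwa [mem_ball, dist_eq_norm] at hz
  have ht : 0 < t := (norm_nonneg _).trans_lt hz'
  have hK : 0 ≤ g.C * Λ := mul_nonneg (zero_le_one.trans g.one) h0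
  refine g.loc h0 (fun w hw => h w ((convex_ball z₁ t).segment_subset (mem_ball_self ht) hz hw))
    hj ?_
  rcases hK.eq_or_lt with e | e
  · rw [← e, zero_mul]
    exact one_pos
  · exact (mul_lt_mul_of_pos_left hz' e).trans_le hs

theorem Met.trans {x : X} (hj : A.In j 3 x) (hk : A.In k 3 x) {h : E n} (hh : g.C ^ 2 * ‖h‖ < 1) :
    A.e k x + h ∈ (A.e k).target ∧ (A.e k).symm (A.e k x + h) ∈ (A.e j).source ∧
      ‖A.e j ((A.e k).symm (A.e k x + h)) - A.e j x‖ ≤ g.C ^ 2 * ‖h‖ := by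
  have hC := g.one
  have hh1 : ‖h‖ ≤ 1 := by
    have : 1 * ‖h‖ ≤ g.C ^ 2 * ‖h‖ :=
      mul_le_mul_of_nonneg_right (one_le_pow₀ hC) (norm_nonneg h)
    linarith
  have hn : ∀ ζ : ℂ, ‖ζ‖ ≤ 1 → ‖A.e k x + ζ • h‖ ≤ 4 := by
    intro ζ hζ
    have a1 := norm_add_le (A.e k x) (ζ • h)
    have a2 : ‖ζ‖ * ‖h‖ ≤ 1 := mul_le_one₀ hζ (norm_nonneg h) hh1
    rw [norm_smul] at a1
    linarith [hk.2]
  have ht : ∀ ζ : ℂ, ‖ζ‖ ≤ 1 → A.e k x + ζ • h ∈ (A.e k).target := fun ζ hζ =>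
    A.tgt k (mem_closedBall_zero_iff.2 (hn ζ hζ))
  have hd : ∀ ζ : ℂ, HasDerivAt (fun ζ : ℂ => A.e k x + ζ • h) h ζ := by
    intro ζ
    have := ((hasDerivAt_id ζ).smul_const h).const_add (A.e k x)
    rwa [one_smul] at this
  have e0 : (A.e k).symm (A.e k x + (0 : ℂ) • h) = x := by
    rw [zero_smul, add_zero, (A.e k).left_inv hk.1]
  have key := g.loc (j := j) (f := fun ζ : ℂ => (A.e k).symm (A.e k x + ζ • h)) (z₁ := 0) (z₂ := 1)
    (Λ := g.C * ‖h‖) (by positivity)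
    (fun ζ hζ => by
      have hζ1 : ‖ζ‖ ≤ 1 := mem_closedBall_zero_iff.1 ((convex_closedBall (0 : ℂ) 1).segment_subset
        (mem_closedBall_self zero_le_one) (by simp) hζ)
      have a1 : A.HolAt (fun ζ : ℂ => (A.e k).symm (A.e k x + ζ • h)) ζ :=
        Atl.holAt_symm (φ := fun ζ : ℂ => A.e k x + ζ • h) (ht ζ hζ1) (hd ζ).differentiableAt
      have a2 := (A.e k).right_inv (ht ζ hζ1)
      have a3 : A.dv k (fun ζ : ℂ => (A.e k).symm (A.e k x + ζ • h)) ζ = h := by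
        refine ((hd ζ).congr_of_eventuallyEq ?_).deriv
        filter_upwards [(hd ζ).continuousAt.eventually
          ((A.e k).open_target.mem_nhds (ht ζ hζ1))] with w hw
        exact (A.e k).right_inv hw
      refine ⟨a1, ?_⟩
      rw [g.sp_eq (j := k) a1 ⟨(A.e k).map_target (ht ζ hζ1), by rw [a2]; exact hn ζ hζ1⟩, a3, a2]
      have a4 := (le_abs_self _).trans (qf_le (g.Γ k (A.e k x + ζ • h)) h)
      have a5 : ‖g.Γ k (A.e k x + ζ • h)‖ ≤ g.C ^ 2 :=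
        (g.up k _ (hn ζ hζ1)).trans (le_self_pow₀ hC two_ne_zero)
      rw [mul_pow]
      exact a4.trans (mul_le_mul_of_nonneg_right a5 (by positivity)))
    (by rw [e0]; exact hj) (by rw [sub_zero, norm_one]; linarith)
  have e1 := ht 1 norm_one.le
  simp only [e0, one_smul, sub_zero, norm_one, mul_one] at key e1
  exact ⟨e1, key.1.1, key.2.trans_eq (by ring)⟩

theorem Met.trans2 {x : X} (hj : A.In j 3 x) (hk : A.In k 3 x) {h : E n}
    (hh : 4 * g.C ^ 2 * ‖h‖ < 1) :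
    ‖fderiv ℂ (A.e j ∘ (A.e k).symm) (A.e k x + h) - A.tr j k x‖ ≤ 16 * g.C ^ 4 * ‖h‖ ∧
      ‖A.e j ((A.e k).symm (A.e k x + h)) - A.e j x - A.tr j k x h‖ ≤ 16 * g.C ^ 4 * ‖h‖ ^ 2 := by
  have hC : 0 < g.C ^ 2 := pow_pos (one_pos.trans_le g.one) 2
  have hb : ∀ w ∈ ball (A.e k x) (1 / g.C ^ 2), g.C ^ 2 * ‖w - A.e k x‖ < 1 := by
    intro w hw
    rwa [mem_ball, dist_eq_norm, lt_div_iff₀' hC] at hw
  have e0 : (A.e j ∘ (A.e k).symm) (A.e k x) = A.e j x := by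
    rw [Function.comp_apply, (A.e k).left_inv hk.1]
  have key := loc_sch (τ := A.e j ∘ (A.e k).symm) (y := A.e k x) (h := h) hC
    (fun w hw => by
      obtain ⟨a1, a2, -⟩ := g.trans hj hk (hb w hw)
      rw [add_sub_cancel] at a1 a2
      have a3 := A.hol j k _ a2 ((A.e k).map_target a1)
      rw [(A.e k).right_inv a1] at a3
      exact a3.differentiableWithinAt)
    (fun w hw => by
      obtain ⟨-, -, a3⟩ := g.trans hj hk (hb w hw)
      rw [add_sub_cancel] at a3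
      rw [e0]
      exact a3.trans (hb w hw).le)
    (by
      rw [div_div, lt_div_iff₀ (by positivity)]
      have : 0 ≤ g.C ^ 2 * ‖h‖ := by positivity
      linarith)
  have e1 : (g.C ^ 2) ^ 2 = g.C ^ 4 := by ring
  rw [e0, e1] at key
  exact key

end Vale.Agent.P272
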