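import Vale.Agent.P272.EstA
import Vale.Agent.P272.Der
import Vale.Agent.P272.Loc

/-! P272 EstB (task). Helper names start with `estb_`.
Plan. `estB`: `d = r - ‖z‖`, `x = Λ d ≤ K`, `t = d / (2 C K)` (so `t ≤ d / 2`, `C Λ t ≤ 1 / 2`). On `ball z t` (`loc_ball`): `qf Γ₁ (V ζ ξ) ≤ (1 + C^3 Λ t) qf (Gr ζ) ξ ≤ (1 + C^3 x) (1 + η) (1 + 3 x)^k ‖ξ‖^2` (`lip`, `lo`, `sand`), and `qf Γ₁ (V z ξ) ≥ (1 - η) (1 + 3 x)^(-k) ‖ξ‖^2`; the difference of the two constants is `≤ c (η + x) ≤ 2 c Λ d`; `der_est`.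
`est`: for `r - ‖z‖ ≥ 1 / Λ` Cauchy estimate on `ball z (1 / (C Λ))` with `estA`; otherwise `estB`. -/

open Metric Set Filter Topology Complex

noncomputable section

namespace Vale.Agent.P272

variable {n : ℕ} {X : Type} [TopologicalSpace X] {A : Atl n X}

variable [T2Space X] {g : Met A} {C₁ : ℝ}

theorem estb_pow {y Y : ℝ} (h0 : 0 ≤ y) (hY : y ≤ Y) (N : ℕ) :
    (1 + y) ^ N ≤ 1 + N * (1 + Y) ^ N * y := by
  induction N with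
  | zero => simp
  | succ N ih =>
    have h1 : (1 + y) ^ N ≤ (1 + Y) ^ N := pow_le_pow_left₀ (by linarith) (by linarith) N
    have h2 : (1 + Y) ^ N ≤ (1 + Y) ^ (N + 1) := pow_le_pow_right₀ (by linarith) (Nat.le_succ N)
    have h3 : y * (1 + y) ^ N ≤ y * (1 + Y) ^ (N + 1) :=
      mul_le_mul_of_nonneg_left (h1.trans h2) h0
    have h4 : (N : ℝ) * (1 + Y) ^ N * y ≤ N * (1 + Y) ^ (N + 1) * y :=
      mul_le_mul_of_nonneg_right (mul_le_mul_of_nonneg_left h2 (Nat.cast_nonneg N)) h0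
    have h5 : (1 + y) ^ (N + 1) = (1 + y) ^ N + y * (1 + y) ^ N := by ring
    rw [h5]
    push_cast
    nlinarith

theorem estb_bar {Λ r e : ℝ} {ζ : ℂ} (h0 : 0 ≤ Λ) (hr : r ≤ 1) (hz : ‖ζ‖ ≤ r)
    (he : r - ‖ζ‖ ≤ e) : 0 ≤ bar Λ r ζ ∧ bar Λ r ζ ≤ 1 + 2 * Λ * e := by
  have h1 := norm_nonneg ζ
  have h2 : 0 ≤ r ^ 2 - ‖ζ‖ ^ 2 := by nlinarith
  have h3 : r ^ 2 - ‖ζ‖ ^ 2 ≤ 2 * e := by nlinarith
  have h4 := mul_nonneg h0 h2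
  have h5 := mul_le_mul_of_nonneg_left h3 h0
  unfold bar
  constructor <;> linarith

theorem estb_ball {F : ℂ × E n → X} {r Λ η t : ℝ} (hG : g.Gd F r Λ η) {j : Fin A.N} {z : ℂ}
    (ht : t ≤ r - ‖z‖) (hs : g.C * Λ * t ≤ 1) (hj : A.In j 3 (F (z, 0))) :
    DifferentiableOn ℂ (A.fr j F) (ball z t) ∧ ∀ ζ ∈ ball z t, ‖ζ‖ ≤ r ∧ ‖z‖ ≤ ‖ζ‖ + t ∧
      A.In j 4 (F (ζ, 0)) ∧ ‖A.e j (F (ζ, 0)) - A.e j (F (z, 0))‖ ≤ g.C * Λ * t := by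
  have hΛ : 0 ≤ Λ := by linarith [hG.one]
  have hC : 0 ≤ g.C := by linarith [g.one]
  have h1 : ∀ ζ ∈ ball z t, ‖ζ‖ ≤ r := fun ζ hζ => by
    have := norm_sub_norm_le ζ z
    rw [mem_ball_iff_norm] at hζ
    linarith
  have h2 : ∀ ζ ∈ ball z t, A.Hol F (ζ, 0) := fun ζ hζ =>
    (hG.bs ζ (mem_closedBall_zero_iff.2 (h1 ζ hζ))).1
  have h3 : ∀ ζ ∈ ball z t, A.In j 4 (F (ζ, 0)) ∧
      ‖A.e j (F (ζ, 0)) - A.e j (F (z, 0))‖ ≤ g.C * Λ * ‖ζ - z‖ := fun ζ hζ =>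
    g.loc_ball (f := ctr F) hΛ (fun w hw => ⟨(h2 w hw).ctr.holAt, hG.sp w (h1 w hw)⟩) hj hs hζ
  refine ⟨fun ζ hζ => ((h2 ζ hζ).fr_analytic (h3 ζ hζ).1.1).differentiableAt.differentiableWithinAt,
    fun ζ hζ => ⟨h1 ζ hζ, ?_, (h3 ζ hζ).1, (h3 ζ hζ).2.trans ?_⟩⟩
  · have := norm_sub_norm_le z ζ
    rw [mem_ball_iff_norm'] at hζ
    linarith
  · exact mul_le_mul_of_nonneg_left (mem_ball_iff_norm.1 hζ).le (mul_nonneg hC hΛ)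

theorem estb_qf (g : Met A) {j : Fin A.N} {y y' : E n} (hy : ‖y‖ ≤ 4) (hy' : ‖y'‖ ≤ 4) {x : ℝ}
    (hx : ‖y' - y‖ ≤ x) (w : E n) : qf (g.Γ j y) w ≤ (1 + g.C ^ 2 * x) * qf (g.Γ j y') w := by
  have hC : 0 ≤ g.C := by linarith [g.one]
  have h0 : 0 ≤ x := (norm_nonneg _).trans hx
  have h1 : ‖g.Γ j y' - g.Γ j y‖ ≤ g.C * x :=
    (g.lip j y' y hy' hy).trans (mul_le_mul_of_nonneg_left hx hC)
  have h2 := qf_le (g.Γ j y' - g.Γ j y) w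
  rw [qf_sub] at h2
  have h3 := (abs_le.1 h2).1
  have h4 := g.lo j y' w hy'
  have h5 : ‖g.Γ j y' - g.Γ j y‖ * ‖w‖ ^ 2 ≤ g.C * x * (g.C * qf (g.Γ j y') w) :=
    mul_le_mul h1 h4 (sq_nonneg _) (mul_nonneg hC h0)
  nlinarith

theorem estb_core {F : ℂ × E n → X} {r Λ η t x : ℝ} {k : ℕ} (hG : g.Gd F r Λ η)
    (hk : ∀ z, ‖z‖ ≤ r → ∀ ξ, (1 - η) * ‖ξ‖ ^ 2 ≤ bar Λ r z ^ k * qf (g.Gr F z) ξ ∧
      qf (g.Gr F z) ξ ≤ (1 + η) * bar Λ r z ^ k * ‖ξ‖ ^ 2) {j : Fin A.N} {z : ℂ} (h0 : 0 < t)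
    (ht : t ≤ r - ‖z‖) (hs : g.C * Λ * t ≤ 1) (hj : A.In j 3 (F (z, 0)))
    (hx : Λ * (r - ‖z‖) ≤ x) (hη : η ≤ x) (hC : g.C * Λ * t ≤ x) :
    ‖deriv (A.fr j F) z‖ ≤ 8 * g.C * ((1 + (g.C ^ 2 + 4) * x) ^ (2 * (k + 2)) - 1) / t := by
  obtain ⟨hV, hb⟩ := estb_ball hG ht hs hj
  have hΛ : 0 ≤ Λ := by linarith [hG.one]
  have hη0 := hG.nn
  have hx0 : 0 ≤ x := hη0.trans hη
  have hC2 : 0 ≤ g.C ^ 2 * x := by positivity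
  obtain ⟨Q, hQ⟩ : ∃ Q, Q = 1 + (g.C ^ 2 + 4) * x := ⟨_, rfl⟩
  rw [← hQ]
  have hQ1 : 1 ≤ Q := by rw [hQ]; nlinarith
  have hP1 : 1 ≤ Q ^ (k + 2) := one_le_pow₀ hQ1
  have hP0 : 0 < Q ^ (k + 2) := by linarith
  have hz := hb z (mem_ball_self h0)
  have hbar : ∀ ζ ∈ ball z t, 0 ≤ bar Λ r ζ ^ k ∧ bar Λ r ζ ^ k ≤ Q ^ k := fun ζ hζ => by
    obtain ⟨a1, a2, -⟩ := hb ζ hζ
    obtain ⟨b1, b2⟩ := estb_bar (e := 2 * (r - ‖z‖)) hΛ hG.le a1 (by linarith)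
    exact ⟨pow_nonneg b1 k, pow_le_pow_left₀ b1 (by rw [hQ]; nlinarith) k⟩
  have hgr : ∀ ζ ∈ ball z t, ∀ ξ,
      qf (g.Gr F ζ) ξ = qf (g.Γ j (A.e j (F (ζ, 0)))) (A.fr j F ζ ξ) := fun ζ hζ ξ => by
    rw [g.Gr_eq (hG.bs ζ (mem_closedBall_zero_iff.2 (hb ζ hζ).1)).1.holAt (hb ζ hζ).2.2.1, qf_conj]
  have key := der_est (Γ := g.Γ j (A.e j (F (z, 0)))) (M := Q ^ (k + 2)) (m := 1 / Q ^ (k + 2)) h0
    hV (g.sa j _ hz.2.2.1.2) g.one (fun w => g.lo j _ w hz.2.2.1.2) (by positivity)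
    ((div_le_one hP0).2 hP1) (((div_le_one hP0).2 hP1).trans hP1) (fun ζ hζ ξ => ?_) (fun ξ => ?_)
  · refine key.trans (le_of_eq ?_)
    rw [pow_mul', sq]
    field_simp
  · obtain ⟨a1, -, a3, a4⟩ := hb ζ hζ
    have c1 := estb_qf g (j := j) hz.2.2.1.2 a3.2 (a4.trans hC) (A.fr j F ζ ξ)
    have c2 := (hk ζ a1 ξ).2
    have c3 := g.qf_nonneg (j := j) a3.2 (A.fr j F ζ ξ)
    rw [hgr ζ hζ] at c2
    have c4 : (1 + η) * bar Λ r ζ ^ k * ‖ξ‖ ^ 2 ≤ Q * Q ^ k * ‖ξ‖ ^ 2 :=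
      mul_le_mul_of_nonneg_right
        (mul_le_mul (by rw [hQ]; nlinarith) (hbar ζ hζ).2 (hbar ζ hζ).1 (by linarith)) (sq_nonneg _)
    calc _ ≤ _ := c1
      _ ≤ Q * (Q * Q ^ k * ‖ξ‖ ^ 2) :=
        mul_le_mul (by rw [hQ]; nlinarith) (c2.trans c4) c3 (by linarith)
      _ = _ := by ring
  · have c2 := (hk z hz.1 ξ).1
    have c3 := g.qf_nonneg (j := j) hz.2.2.1.2 (A.fr j F z ξ)
    rw [hgr z (mem_ball_self h0)] at c2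
    have c4 := mul_le_mul_of_nonneg_right (hbar z (mem_ball_self h0)).2 c3
    have c5 : 1 ≤ Q * Q * (1 - η) := by
      have d1 : 1 + 2 * η ≤ Q := by rw [hQ]; nlinarith
      have d2 : 1 + 2 * η ≤ Q * Q := by nlinarith
      have d3 := mul_le_mul_of_nonneg_right d2 (by linarith [hG.half] : 0 ≤ 1 - η)
      nlinarith [mul_nonneg hη0 (by linarith [hG.half] : 0 ≤ 1 - 2 * η)]
    rw [one_div, inv_mul_le_iff₀ hP0]
    calc ‖ξ‖ ^ 2 ≤ Q * Q * (1 - η) * ‖ξ‖ ^ 2 := le_mul_of_one_le_left (sq_nonneg _) c5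
      _ = Q * Q * ((1 - η) * ‖ξ‖ ^ 2) := by ring
      _ ≤ Q * Q * (Q ^ k * qf (g.Γ j (A.e j (F (z, 0)))) (A.fr j F z ξ)) :=
        mul_le_mul_of_nonneg_left (c2.trans c4) (by positivity)
      _ = _ := by ring

theorem Met.estB (hB : g.Br C₁) {K : ℝ} (hK : 1 ≤ K) : ∃ C : ℝ, 1 ≤ C ∧
    ∀ (F : ℂ × E n → X) (r Λ η : ℝ), g.Gd F r Λ η → ∀ j z, ‖z‖ < r → η ≤ r - ‖z‖ →
      r - K / Λ ≤ ‖z‖ → A.In j 3 (F (z, 0)) → ‖deriv (A.fr j F) z‖ ≤ C * Λ := by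
  obtain ⟨k, hk⟩ := Met.sand hB
  have hC := g.one
  obtain ⟨a, ha⟩ : ∃ a, a = g.C ^ 2 + 4 := ⟨_, rfl⟩
  have ha0 : 0 ≤ a := by rw [ha]; positivity
  obtain ⟨B, hB0, hB1⟩ : ∃ B : ℝ, 0 ≤ B ∧ ∀ x, 0 ≤ x → x ≤ K →
      (1 + a * x) ^ (2 * (k + 2)) - 1 ≤ B * x := by
    refine ⟨(2 * (k + 2) : ℕ) * (1 + a * K) ^ (2 * (k + 2)) * a, by positivity, fun x h0 h1 => ?_⟩
    have := estb_pow (mul_nonneg ha0 h0) (mul_le_mul_of_nonneg_left h1 ha0) (2 * (k + 2))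
    linarith
  refine ⟨1 + 16 * g.C ^ 2 * K * B, le_add_of_nonneg_right (by positivity),
    fun F r Λ η hG j z hz hη hK' hj => ?_⟩
  have hΛ := hG.one
  obtain ⟨d, hd⟩ : ∃ d, d = r - ‖z‖ := ⟨_, rfl⟩
  have hd0 : 0 < d := by linarith
  have hx : Λ * d ≤ K := by
    have : d ≤ K / Λ := by linarith
    rwa [le_div_iff₀' (by linarith)] at this
  have hx0 : 0 < Λ * d := by positivity
  have hCK : 1 ≤ 2 * g.C * K := by nlinarith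
  have e1 : g.C * Λ * (d / (2 * g.C * K)) = Λ * d / (2 * K) := by field_simp
  have key := estb_core (t := d / (2 * g.C * K)) (x := Λ * d) hG (hk F r Λ η hG) (by positivity)
    (by rw [← hd]; exact div_le_self hd0.le hCK)
    (by rw [e1, div_le_one (by positivity)]; linarith) hj (by rw [← hd])
    (by nlinarith) (by rw [e1]; exact div_le_self hx0.le (by linarith))
  rw [← ha] at key
  calc _ ≤ _ := key
    _ ≤ 8 * g.C * (B * (Λ * d)) / (d / (2 * g.C * K)) :=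
      div_le_div_of_nonneg_right
        (mul_le_mul_of_nonneg_left (hB1 _ hx0.le hx) (by positivity)) (by positivity)
    _ = 16 * g.C ^ 2 * K * B * Λ := by field_simp; ring
    _ ≤ _ := by nlinarith

theorem Met.est (hB : g.Br C₁) : ∃ C : ℕ, 1 ≤ C ∧ ∀ (F : ℂ × E n → X) (r Λ ρ : ℝ),
    g.Gd F r Λ ρ → 2 ≤ Λ → 0 < ρ → g.TI F (r - ρ) (Λ ^ C) := by
  obtain ⟨N, hN1, hN⟩ := Met.estA hB (K := 1) le_rfl
  obtain ⟨B, hB1, hB2⟩ := Met.estB hB (K := 1) le_rfl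
  have hC := g.one
  obtain ⟨k, hk⟩ := pow_unbounded_of_one_lt (2 * g.C + B) (one_lt_two (α := ℝ))
  refine ⟨N + 1 + k, by omega, fun F r Λ ρ hG hΛ hρ => ?_⟩
  have hΛ1 := hG.one
  have hk' : 2 * g.C + B ≤ Λ ^ k := hk.le.trans (pow_le_pow_left₀ zero_le_two hΛ k)
  have p1 : 1 ≤ Λ ^ N := one_le_pow₀ hΛ1
  have p2 : Λ ^ N ≤ Λ ^ (N + 1 + k) := pow_le_pow_right₀ hΛ1 (by omega)
  have p3 : Λ ^ 1 ≤ Λ ^ (N + 1 + k) := pow_le_pow_right₀ hΛ1 (by omega)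
  have p4 : Λ ^ (N + 1 + k) = Λ ^ k * (Λ ^ N * Λ) := by ring
  have p5 : (2 * g.C + B) * (Λ ^ N * Λ) ≤ Λ ^ (N + 1 + k) := by
    rw [p4]
    exact mul_le_mul_of_nonneg_right hk' (by positivity)
  have p6 : Λ ≤ Λ ^ N * Λ := le_mul_of_one_le_left (by linarith) p1
  rw [pow_one] at p3
  refine ⟨by linarith [hG.le], p1.trans p2,
    hG.bs.mono (ball_subset_closedBall.trans (closedBall_subset_closedBall (by linarith))),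
    fun z hz => (hG.sp z (by linarith)).trans (pow_le_pow_left₀ (by linarith) p3 2),
    fun j z hz hj => ?_⟩
  have h4 : A.In j 4 (F (z, 0)) := hj.mono (by norm_num)
  obtain ⟨q1, q2⟩ := (hN F r Λ ρ hG hΛ z (by linarith)).2.1 j h4
  refine ⟨q1.trans p2, q2.trans p2, le_trans ?_ p5⟩
  rcases le_total (1 / Λ) (r - ‖z‖) with h | h
  · have hCΛ : 0 < g.C * Λ := by positivity
    obtain ⟨hV, hb⟩ := estb_ball (t := 1 / (g.C * Λ)) hG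
      ((one_div_le_one_div_of_le (by linarith) (by nlinarith)).trans h)
      (mul_one_div_cancel hCΛ.ne').le hj
    have hm : MapsTo (A.fr j F) (ball z (1 / (g.C * Λ))) (closedBall (A.fr j F z) (2 * Λ ^ N)) :=
      fun ζ hζ => by
        have := ((hN F r Λ ρ hG hΛ ζ (hb ζ hζ).1).2.1 j (hb ζ hζ).2.2.1).1
        rw [mem_closedBall_iff_norm]
        linarith [norm_sub_le (A.fr j F ζ) (A.fr j F z)]
    calc _ ≤ _ := Complex.norm_deriv_le_div_of_mapsTo_ball hV hm (by positivity)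
      _ = 2 * g.C * (Λ ^ N * Λ) := by field_simp
      _ ≤ _ := mul_le_mul_of_nonneg_right (by linarith) (by positivity)
  · exact (hB2 F r Λ ρ hG j z (by linarith) (by linarith) (by linarith) hj).trans
      (mul_le_mul (by linarith) p6 (by linarith) (by linarith))

end Vale.Agent.P272
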