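import Vale.Agent.P272.BasA

/-! P272 FamX: the chart level part of Fam. -/

open Metric Set Filter Topology Complex

noncomputable section

namespace Vale.Agent.P272

variable {n : ℕ} {Y : ℂ × E n → E n}

theorem famx_V {z : ℂ} {a : E n} (h : DifferentiableAt ℂ Y (z, a)) :
    fderiv ℂ (fun u => Y (z, a + u)) 0 = (fderiv ℂ Y (z, a)).comp (.inr ℂ ℂ (E n)) := by
  have h1 : HasFDerivAt (fun u : E n => ((z, a + u) : ℂ × E n)) (ContinuousLinearMap.inr ℂ ℂ (E n)) 0 :=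
    (hasFDerivAt_const z 0).prodMk ((hasFDerivAt_id 0).const_add a)
  have h2 : HasFDerivAt Y (fderiv ℂ Y (z, a)) (z, a + 0) := by
    rw [add_zero]; exact h.hasFDerivAt
  exact (h2.comp (0 : E n) h1).fderiv

theorem famx_V0 {z : ℂ} {a : E n} (h : DifferentiableAt ℂ Y (z, a)) :
    fderiv ℂ (fun u => Y (z, u)) a = (fderiv ℂ Y (z, a)).comp (.inr ℂ ℂ (E n)) :=
  (h.hasFDerivAt.comp a (hasFDerivAt_prodMk_right z a)).fderiv

theorem famx_w {z s : ℂ} {e : E n} (h : DifferentiableAt ℂ Y (z, (z * s) • e)) :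
    HasDerivAt (fun ζ => Y (ζ, (ζ * s) • e + 0)) (fderiv ℂ Y (z, (z * s) • e) (1, s • e)) z := by
  have h1 : HasDerivAt (fun ζ : ℂ => ((ζ, (ζ * s) • e + 0) : ℂ × E n)) (1, s • e) z := by
    refine (hasDerivAt_id z).prodMk ?_
    have := (((hasDerivAt_id z).mul_const s).smul_const e).add_const (0 : E n)
    simpa using this
  have h2 : HasFDerivAt Y (fderiv ℂ Y (z, (z * s) • e)) (z, (z * s) • e + 0) := by
    rw [add_zero]; exact h.hasFDerivAt
  exact h2.comp_hasDerivAt z h1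

theorem famx_p (z s : ℂ) (e : E n) :
    HasDerivAt (fun s : ℂ => ((z, (z * s) • e) : ℂ × E n)) (0, z • e) s := by
  refine (hasDerivAt_const s z).prodMk ?_
  simpa using ((hasDerivAt_id s).const_mul z).smul_const e

theorem famx_core {z : ℂ} {ρ ε M H : ℝ} {e : E n} (he : ‖e‖ ≤ 1) (hρ : 0 < ρ) (hε : 0 < ε)
    (hε1 : ε ≤ 1) (hM : 0 ≤ M) (h1 : ∀ ζ ∈ ball z ρ, ‖ζ‖ ≤ 1)
    (hY : DifferentiableOn ℂ Y (ball z ρ ×ˢ ball 0 (2 * ε)))
    (hn : ∀ ζ ∈ ball z ρ, ∀ u, ‖u‖ < 2 * ε → ‖Y (ζ, u) - Y (ζ, 0)‖ ≤ 4 * M * ‖u‖)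
    (hh : ∀ ζ ∈ ball z ρ, ∀ u, ‖u‖ < 2 * ε → ‖Y (z, u) - Y (ζ, u)‖ ≤ H) :
    Fam (fun s => Y (z, (z * s) • e + 0)) (fun s => deriv (fun ζ => Y (ζ, (ζ * s) • e + 0)) z)
      (fun s => fderiv ℂ (fun u => Y (z, (z * s) • e + u)) 0) ε M (H / ρ + 16 * M) ∧
    deriv (fun s => Y (z, (z * s) • e + 0)) 0 = z • fderiv ℂ (fun u => Y (z, u)) 0 e ∧
    deriv (fun s => deriv (fun ζ => Y (ζ, (ζ * s) • e + 0)) z) 0 =
      fderiv ℂ (fun u => Y (z, u)) 0 e + z • deriv (fun ζ => fderiv ℂ (fun u => Y (ζ, u)) 0) z e := by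
  have hU : IsOpen (ball z ρ ×ˢ ball (0 : E n) (2 * ε)) := isOpen_ball.prod isOpen_ball
  have hA := P278.osgood hU hY
  have hz : z ∈ ball z ρ := mem_ball_self hρ
  have hsm : ∀ ζ ∈ ball z ρ, ∀ s : ℂ, ‖(ζ * s) • e‖ ≤ ‖s‖ := fun ζ hζ s => by
    rw [norm_smul, norm_mul]
    calc ‖ζ‖ * ‖s‖ * ‖e‖ ≤ 1 * ‖s‖ * 1 := by gcongr; exact h1 ζ hζ
      _ = ‖s‖ := by ring
  have hmem : ∀ ζ ∈ ball z ρ, ∀ u : E n, ‖u‖ < 2 * ε →
      (ζ, u) ∈ ball z ρ ×ˢ ball (0 : E n) (2 * ε) := fun ζ hζ u hu => ⟨hζ, mem_ball_zero_iff.2 hu⟩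
  have hp : ∀ ζ ∈ ball z ρ, ∀ s : ℂ, ‖s‖ < ε → AnalyticAt ℂ Y (ζ, (ζ * s) • e) := fun ζ hζ s hs =>
    hA _ (hmem ζ hζ _ (by linarith [hsm ζ hζ s]))
  have hdu : ∀ ζ ∈ ball z ρ, DifferentiableOn ℂ (fun u => Y (ζ, u)) (ball 0 (2 * ε)) :=
    fun ζ hζ u hu => ((hA _ (hmem ζ hζ u (mem_ball_zero_iff.1 hu))).differentiableAt.comp u
      (hasFDerivAt_prodMk_right ζ u).differentiableAt).differentiableWithinAt
  have hD : ∀ ζ ∈ ball z ρ, ∀ u : E n, ‖u‖ < ε → ‖fderiv ℂ (fun u => Y (ζ, u)) u‖ ≤ 12 * M :=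
    fun ζ hζ u hu => by
      have hb : ∀ v ∈ closedBall u (ε / 2), ‖v‖ < 3 / 2 * ε := fun v hv => by
        have := mem_closedBall_iff_norm.1 hv
        linarith [norm_sub_norm_le v u]
      have := P278.osg2_cauchy (g := fun v => Y (ζ, v) - Y (ζ, 0)) (N := 6 * M * ε) isOpen_ball
        ((hdu ζ hζ).sub_const _) (half_pos hε)
        (fun v hv => mem_ball_zero_iff.2 (by linarith [hb v hv])) (fun v hv =>
          (hn ζ hζ v (by linarith [hb v hv])).trans (by nlinarith [hb v hv]))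
      rw [fderiv_sub_const] at this
      refine this.trans (le_of_eq ?_)
      field_simp
      ring
  have hL : ∀ ζ ∈ ball z ρ, ∀ u v : E n, ‖u‖ < ε → ‖v‖ < ε →
      ‖Y (ζ, u) - Y (ζ, v)‖ ≤ 12 * M * ‖u - v‖ := fun ζ hζ u v hu hv =>
    (convex_ball (0 : E n) ε).norm_image_sub_le_of_norm_fderiv_le (𝕜 := ℂ) (f := fun u => Y (ζ, u))
      (fun x hx => (hdu ζ hζ).differentiableAt (isOpen_ball.mem_nhds (mem_ball_zero_iff.2
        (by linarith [mem_ball_zero_iff.1 hx])))) (fun x hx => hD ζ hζ x (mem_ball_zero_iff.1 hx))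
      (mem_ball_zero_iff.2 hv) (mem_ball_zero_iff.2 hu)
  have hFd : ∀ s : ℂ, ‖s‖ < ε → HasDerivAt (fun s : ℂ => fderiv ℂ Y (z, (z * s) • e))
      (fderiv ℂ (fderiv ℂ Y) (z, (z * s) • e) (0, z • e)) s := fun s hs =>
    (hp z hz s hs).fderiv.differentiableAt.hasFDerivAt.comp_hasDerivAt s (famx_p z s e)
  have hy : ∀ s : ℂ, ‖s‖ < ε → HasDerivAt (fun s : ℂ => Y (z, (z * s) • e + 0))
      (fderiv ℂ Y (z, (z * s) • e) (0, z • e)) s := fun s hs => by
    simp only [add_zero]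
    exact (hp z hz s hs).differentiableAt.hasFDerivAt.comp_hasDerivAt s (famx_p z s e)
  have hw : ∀ s : ℂ, ‖s‖ < ε → HasDerivAt (fun s : ℂ => deriv (fun ζ => Y (ζ, (ζ * s) • e + 0)) z)
      (fderiv ℂ (fderiv ℂ Y) (z, (z * s) • e) (0, z • e) (1, s • e) +
        fderiv ℂ Y (z, (z * s) • e) (0, e)) s := fun s hs => by
    have h3 : HasDerivAt (fun s : ℂ => ((1, s • e) : ℂ × E n)) (0, e) s := by
      refine (hasDerivAt_const s (1 : ℂ)).prodMk ?_
      simpa using (hasDerivAt_id s).smul_const e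
    refine ((hFd s hs).clm_apply h3).congr_of_eventuallyEq ?_
    filter_upwards [isOpen_ball.mem_nhds (mem_ball_zero_iff.2 hs)] with s' hs'
    exact (famx_w (hp z hz s' (mem_ball_zero_iff.1 hs')).differentiableAt).deriv
  have h0 : ‖(0 : ℂ)‖ < ε := by simpa using hε
  have hz0 : ∀ ζ ∈ ball z ρ, AnalyticAt ℂ Y (ζ, 0) := fun ζ hζ => by simpa using hp ζ hζ 0 h0
  refine ⟨⟨fun s hs => (hy s (mem_ball_zero_iff.1 hs)).differentiableAt.differentiableWithinAt,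
    fun s hs => (hw s (mem_ball_zero_iff.1 hs)).differentiableAt.differentiableWithinAt, ?_, ?_, ?_,
    ?_⟩, ?_, ?_⟩
  · refine DifferentiableOn.congr (f := fun s => (fderiv ℂ Y (z, (z * s) • e)).comp
      (.inr ℂ ℂ (E n))) (fun s hs => ?_) fun s hs =>
      famx_V (hp z hz s (mem_ball_zero_iff.1 hs)).differentiableAt
    exact ((hFd s (mem_ball_zero_iff.1 hs)).differentiableAt.clm_comp
      (differentiableAt_const _)).differentiableWithinAt
  · intro s hs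
    simp only [add_zero, mul_zero, zero_smul]
    exact (hn z hz _ (by linarith [hsm z hz s])).trans (by gcongr; exact hsm z hz s)
  · intro s hs
    have := Complex.norm_deriv_le_div_of_mapsTo_ball (f := fun ζ => Y (ζ, (ζ * s) • e + 0))
      (c := z) (R₁ := ρ) (R₂ := H + 16 * M * ρ) (fun ζ hζ =>
        (famx_w (hp ζ hζ s hs).differentiableAt).differentiableAt.differentiableWithinAt)
      (fun ζ hζ => ?_) hρ
    · refine this.trans (le_of_eq ?_)
      field_simp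
    · rw [mem_closedBall_iff_norm]
      simp only [add_zero]
      have a1 := hL ζ hζ _ _ ((hsm ζ hζ s).trans_lt hs) ((hsm z hz s).trans_lt hs)
      have a2 := hh ζ hζ ((z * s) • e) (by linarith [hsm z hz s])
      have a3 : ‖(ζ * s) • e - (z * s) • e‖ ≤ ρ := by
        rw [← sub_smul, ← sub_mul, norm_smul, norm_mul]
        calc ‖ζ - z‖ * ‖s‖ * ‖e‖ ≤ ρ * 1 * 1 := by
              gcongr
              · exact (mem_ball_iff_norm.1 hζ).le
              · linarith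
          _ = ρ := by ring
      have a4 := norm_sub_le_norm_sub_add_norm_sub (Y (ζ, (ζ * s) • e)) (Y (ζ, (z * s) • e))
        (Y (z, (z * s) • e))
      rw [norm_sub_rev] at a2
      nlinarith [mul_le_mul_of_nonneg_left a3 hM, mul_nonneg hM hρ.le]
  · intro s hs
    rw [famx_V (hp z hz s hs).differentiableAt, ← famx_V0 (hp z hz s hs).differentiableAt]
    exact (hD z hz _ ((hsm z hz s).trans_lt hs)).trans (by linarith)
  · rw [(hy 0 h0).deriv, famx_V0 (hz0 z hz).differentiableAt]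
    simp only [mul_zero, zero_smul, ContinuousLinearMap.comp_apply, ContinuousLinearMap.inr_apply]
    rw [← map_smul]
    simp
  · have h4 : HasDerivAt (fun ζ => fderiv ℂ (fun u => Y (ζ, u)) 0)
        ((fderiv ℂ (fderiv ℂ Y) (z, 0) (1, 0)).comp (.inr ℂ ℂ (E n))) z := by
      have h5 : HasDerivAt (fun ζ : ℂ => fderiv ℂ Y (ζ, 0)) (fderiv ℂ (fderiv ℂ Y) (z, 0) (1, 0)) z :=
        (hz0 z hz).fderiv.differentiableAt.hasFDerivAt.comp_hasDerivAt z
          ((hasDerivAt_id z).prodMk (hasDerivAt_const z (0 : E n)))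
      have h6 := h5.clm_comp (hasDerivAt_const z (ContinuousLinearMap.inr ℂ ℂ (E n)))
      simp only [ContinuousLinearMap.comp_zero, add_zero] at h6
      refine h6.congr_of_eventuallyEq ?_
      filter_upwards [isOpen_ball.mem_nhds hz] with ζ hζ
      exact famx_V0 (hz0 ζ hζ).differentiableAt
    have hs : IsSymmSndFDerivAt ℂ Y (z, 0) :=
      ((hz0 z hz).contDiffAt (n := ⊤)).isSymmSndFDerivAt (by simp)
    rw [(hw 0 h0).deriv, h4.deriv, famx_V0 (hz0 z hz).differentiableAt]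
    simp only [mul_zero, zero_smul, ContinuousLinearMap.comp_apply, ContinuousLinearMap.inr_apply]
    rw [hs.eq, add_comm, ← map_smul]
    simp

end Vale.Agent.P272
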