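import Vale.Agent.P272.AtlA
import Vale.Agent.P272.AtlC

/-! P272 MainA (task; part of Main). Helper names start with `maina_`.
Plan. `exists_atl`; `res_met`: `mk_met` with `Γ j y = ρ^2 • g.Γ (x j) (c + ρ • y)` (`Res.tr`); `res_vol`: `mk_vol` with `ℓ j y = log (μ (x j) (c + ρ • y)) + log (ρ^(2n))` (`levi_aff`, `LinearMap.det_smul`). `schwarz_vol`: `g₀'` from `g₀`, `brody` for `g₀'` gives `H = C^2 · 4 C₁` (`dv_le` or `lo`); for `g`, `m`: `brody`, `core` at `p = chart.symm y` with `j = ch p` give `exp (ℓ j (e j p)) ≥ (cn / (16 H))^n` and `‖det (g₀'.Γ j ..)‖ ≤ n! C^n` (`det_le_norm`); transport to the chart at `x` by `compat` (`det_mul'`, `norm_det_star`). -/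

open Metric Set Filter Topology Complex

noncomputable section

namespace Vale.Agent.P272

variable {n : ℕ} {X : Type} [TopologicalSpace X] {A : Atl n X}

open scoped Manifold ContDiff

variable [ChartedSpace (E n) X] [IsManifold 𝓘(ℂ, E n) ω X] {x : Fin A.N → X} {ρ : Fin A.N → ℝ}

theorem maina_qf (r : ℝ) (Γ : L n) (a : E n) : qf ((r : ℂ) • Γ) a = r * qf Γ a := by
  rw [qf, qf, smul_apply, inner_smul_right, Complex.re_ofReal_mul]

theorem maina_star (r : ℝ) (T : L n) : star ((r : ℂ) • T) = (r : ℂ) • star T := by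
  rw [star_smul, Complex.star_def, Complex.conj_ofReal]

theorem res_met (h : A.Res x ρ) (g : HermMetric n X) : ∃ g' : Met A, ∀ j y,
    g'.Γ j y = ((ρ j ^ 2 : ℝ) : ℂ) • g.Γ (x j) (chartAt (E n) (x j) (x j) + ρ j • y) := by
  have hs : ∀ j p, p ∈ (A.e j).source → p ∈ (chartAt (E n) (x j)).source := fun j p hp =>
    h.src j ▸ hp
  obtain ⟨g', hg'⟩ := mk_met A
    (fun j y => ((ρ j ^ 2 : ℝ) : ℂ) • g.Γ (x j) (chartAt (E n) (x j) (x j) + ρ j • y))
    (fun j => ((g.smooth (x j)).comp (contDiffOn_const.add (contDiffOn_id.const_smul (ρ j)))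
      fun y hy => (h.tgt j y).1 hy).const_smul _)
    (fun j y hy => by
      rw [IsSelfAdjoint, maina_star, (g.sa (x j) _ ((h.tgt j y).1 hy)).star_eq])
    (fun j y hy a ha => by
      rw [maina_qf]
      exact mul_pos (pow_pos (h.pos j) 2) (g.pos (x j) _ ((h.tgt j y).1 hy) a ha))
    (fun j k p hj hk => by
      rw [h.app, h.app, h.tr hj hk, maina_star, g.compat (x j) (x k) p (hs j p hj) (hs k p hk)]
      simp only [smul_mul_assoc, mul_smul_comm, smul_smul, ← Complex.ofReal_mul]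
      have h1 := (h.pos j).ne'
      rw [show ρ k / ρ j * (ρ j ^ 2 * (ρ k / ρ j)) = ρ k ^ 2 by field_simp])
  exact ⟨g', fun j y => by rw [hg']⟩

end Vale.Agent.P272
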