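import Vale.Agent.P272.FamX

/-! P272 Fam (task). Helper names start with `fam_`.
Plan. `Y = e k ∘ W` is analytic on the open set `ball z (τ^4) ×ˢ ball 0 (2 ε)` (`hold` with `u = 0` gives `In k 2 (F (ζ, 0))`, then `near`, `hol`). `y s = Y (z, z s e)`, `V s = D_u Y (z, z s e)`, `w s = D Y (z, z s e) (1, s e)`. Cauchy estimate in `u` (`‖Y (ζ, u) - Y (ζ, 0)‖ ≤ 8 M ε` on the ball `2 ε`) gives `16 M`; for `w s` apply Schwarz to `ζ ↦ Y (ζ, ζ s e)` on `ball z (τ^4)`, increments `≤ 16 M ‖s‖ τ^4 + H τ^3`. `w1`: symmetry of the second derivative (`ContDiffAt.isSymmSndFDerivAt`), `fr k W = fr k F` near `z`. -/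

open Metric Set Filter Topology Complex

noncomputable section

namespace Vale.Agent.P272

variable {n : ℕ} {X : Type} [TopologicalSpace X] {A : Atl n X}

variable {F W : ℂ × E n → X} {R ε M H τ : ℝ}

theorem tb_famAt (h : A.Tb F W R (2 * ε) M H) (hR : R ≤ 1) (hM : 0 ≤ M) (hH : 0 ≤ H)
    (hτ : 0 < τ) (h1 : τ ^ 4 ≤ ε) (h2 : ε ≤ 1) (h3 : H * τ ^ 3 ≤ 1) {k : Fin A.N} (i : Fin n)
    {z : ℂ} (hz : ‖z‖ + τ ^ 4 ≤ R) (hk : A.In k 1 (F (z, 0))) :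
    A.FamAt F W k i z ε M (H / τ + 16 * M) := by
  have hρ : 0 < τ ^ 4 := by positivity
  have hε : 0 < ε := hρ.trans_le h1
  have hb : ∀ ζ ∈ ball z (τ ^ 4), ‖ζ‖ < R := fun ζ hζ => by
    have := mem_ball_iff_norm.1 hζ
    linarith [norm_sub_norm_le ζ z]
  have hzz : z ∈ ball z (τ ^ 4) := mem_ball_self hρ
  have hzR := hb z hzz
  have hk2 : A.In k 2 (F (z, 0)) := hk.mono (by norm_num)
  have hh : ∀ ζ ∈ ball z (τ ^ 4), ∀ u : E n, ‖u‖ < 2 * ε → W (ζ, u) ∈ (A.e k).source ∧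
      ‖A.e k (W (z, u)) - A.e k (W (ζ, u))‖ ≤ H * τ ^ 3 := fun ζ hζ u hu => by
    have hd : ‖z - ζ‖ ≤ τ ^ 4 := by rw [norm_sub_rev]; exact (mem_ball_iff_norm.1 hζ).le
    obtain ⟨a1, a2⟩ := h.hold k z ζ u hzR (hb ζ hζ) hu hk2 (by linarith)
    refine ⟨a1, a2.trans (mul_le_mul_of_nonneg_left ?_ hH)⟩
    calc ‖z - ζ‖ ^ (3 / 4 : ℝ) ≤ (τ ^ 4) ^ (3 / 4 : ℝ) :=
          Real.rpow_le_rpow (norm_nonneg _) hd (by norm_num)
      _ = τ ^ 3 := by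
          rw [← Real.rpow_natCast, ← Real.rpow_mul hτ.le, ← Real.rpow_natCast]; norm_num
  have h0 : ‖(0 : E n)‖ < 2 * ε := by simpa using hε
  have hin : ∀ ζ ∈ ball z (τ ^ 4), A.In k 2 (F (ζ, 0)) := fun ζ hζ => by
    obtain ⟨a1, a2⟩ := hh ζ hζ 0 h0
    rw [h.ctr ζ (hb ζ hζ)] at a1 a2
    rw [h.ctr z hzR, norm_sub_rev] at a2
    exact ⟨a1, by linarith [norm_sub_norm_le (A.e k (F (ζ, 0))) (A.e k (F (z, 0))), hk.2]⟩
  have he : ‖(eb i : E n)‖ ≤ 1 := by simp [eb]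
  obtain ⟨c1, c2, c3⟩ := famx_core (Y := A.e k ∘ W) (M := M) (H := H * τ ^ 3) he hρ hε h2 hM
    (fun ζ hζ => (hb ζ hζ).le.trans hR)
    (fun p hp => ((h.hol p.1 p.2 (hb _ hp.1) (mem_ball_zero_iff.1 hp.2)).2 k
      (hh _ hp.1 _ (mem_ball_zero_iff.1 hp.2)).1).differentiableWithinAt)
    (fun ζ hζ u hu => by
      have := (h.near k ζ u (hb ζ hζ) hu (hin ζ hζ)).2
      rwa [← h.ctr ζ (hb ζ hζ)] at this) (fun ζ hζ u hu => (hh ζ hζ u hu).2)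
  have hB : H * τ ^ 3 / τ ^ 4 = H / τ := by field_simp
  rw [hB] at c1
  have hfr : A.fr k W =ᶠ[𝓝 z] A.fr k F := by
    filter_upwards [isOpen_ball.mem_nhds hzz] with ζ hζ
    exact h.fr k ζ (hb ζ hζ) (hin ζ hζ).1
  have hs0 : shf W i 0 = W := by
    funext p
    simp [shf]
  have hsm : ∀ s : ℂ, ‖s‖ < ε → ‖(z * s) • (eb i : E n) + 0‖ < 2 * ε := fun s hs => by
    rw [add_zero, norm_smul, norm_mul]
    calc ‖z‖ * ‖s‖ * ‖(eb i : E n)‖ ≤ 1 * ‖s‖ * 1 := by gcongr; linarith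
      _ < 2 * ε := by linarith
  refine ⟨c1, by rw [hs0, h.ctr z hzR], ?_, by rw [hs0, hfr.self_of_nhds], ?_, ?_, fun s hs => ⟨?_, ?_⟩⟩
  · rw [hs0]
    refine Filter.EventuallyEq.deriv_eq ?_
    filter_upwards [isOpen_ball.mem_nhds hzz] with ζ hζ
    exact congrArg (A.e k) (h.ctr ζ (hb ζ hζ))
  · rw [← hfr.self_of_nhds]
    exact c2
  · rw [← hfr.self_of_nhds, ← hfr.deriv_eq]
    exact c3
  · exact (hh z hzz _ (hsm s hs)).1
  · have hφ : ∀ q : ℂ × E n, DifferentiableAt ℂ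
        (fun p : ℂ × E n => ((p.1, (p.1 * s) • eb i + p.2) : ℂ × E n)) q := fun q => by fun_prop
    refine Atl.Hol.comp (F := W) (φ := fun p : ℂ × E n => (p.1, (p.1 * s) • eb i + p.2)) ?_
      (Eventually.of_forall hφ)
    have ho : IsOpen (ball (0 : ℂ) R ×ˢ ball (0 : E n) (2 * ε)) := isOpen_ball.prod isOpen_ball
    filter_upwards [ho.mem_nhds (show ((z, (z * s) • eb i + 0) : ℂ × E n) ∈ _ from
      ⟨mem_ball_zero_iff.2 hzR, mem_ball_zero_iff.2 (hsm s hs)⟩)] with p hp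
    exact h.hol p.1 p.2 (mem_ball_zero_iff.1 hp.1) (mem_ball_zero_iff.1 hp.2)

theorem tb_cen (h : A.Tb F W R ε M H) (hR : 0 < R) (hε : 0 < ε) {j : Fin A.N} (i : Fin n)
    (s : ℂ) (hj : F (0, 0) ∈ (A.e j).source) :
    A.dv j (ctr (shf W i s)) 0 = A.dv j (ctr F) 0 + s • A.fr j F 0 (eb i) := by
  have h0 : ‖(0 : ℂ)‖ < R := by simpa using hR
  have hW := h.hol 0 0 h0 (by simpa using hε)
  have hc := h.ctr 0 h0
  have hd : DifferentiableAt ℂ (A.e j ∘ W) (0, 0) := hW.2 j (by rwa [hc])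
  have hd' : ∀ s : ℂ, DifferentiableAt ℂ (A.e j ∘ W) (0, ((0 : ℂ) * s) • eb i) := fun s => by
    simpa using hd
  have e1 : A.dv j (ctr (shf W i s)) 0 = _ := (famx_w (hd' s)).deriv
  have e2 : A.dv j (ctr (shf W i 0)) 0 = _ := (famx_w (hd' 0)).deriv
  have e3 : A.dv j (ctr (shf W i 0)) 0 = A.dv j (ctr F) 0 := by
    refine Filter.EventuallyEq.deriv_eq ?_
    filter_upwards [isOpen_ball.mem_nhds (mem_ball_zero_iff.2 h0)] with ζ hζ
    have : shf W i 0 (ζ, 0) = W (ζ, 0) := by simp [shf]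
    exact congrArg (A.e j) (this.trans (h.ctr ζ (mem_ball_zero_iff.1 hζ)))
  have e4 : A.fr j W 0 = _ := famx_V0 hd
  rw [e1, ← e3, e2, ← h.fr j 0 h0 hj, e4]
  simp only [zero_mul, zero_smul, ContinuousLinearMap.comp_apply, ContinuousLinearMap.inr_apply]
  rw [← map_smul, ← map_add]
  simp

end Vale.Agent.P272
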