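import Vale.Agent.P272.BasB

/-! P272 Part (task). Helper names start with `part_`.
Plan. `b : ContDiffBump (0 : E n)` with `rIn = 1`, `rOut = 3 / 2`, derivative bounded by `c` (compact support). `θ j z = if f z ∈ source j then b (e j (f z)) else 0`; near `z` either `f z ∈ source j` (composition with an analytic map, `Hol.analyticAt`) or `¬ In j (3/2) (f z)` and `θ j` vanishes near `z` (`isClosed_in`). `‖fderiv θ j‖ ≤ c C Λ` (`dv_le`), `S = ∑ θ j ≥ 1` (`cov`), `χ j = θ j / S`. -/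

open Metric Set Filter Topology Complex

noncomputable section

namespace Vale.Agent.P272

variable {n : ℕ} {X : Type} [TopologicalSpace X] {A : Atl n X}

theorem part_bump (n : ℕ) : ∃ (b : E n → ℝ) (c : ℝ), 0 ≤ c ∧ ContDiff ℝ 2 b ∧
    (∀ y, 0 ≤ b y ∧ b y ≤ 1) ∧ (∀ y, ‖y‖ ≤ 1 → b y = 1) ∧ (∀ y, 3 / 2 ≤ ‖y‖ → b y = 0) ∧
    ∀ y, ‖fderiv ℝ b y‖ ≤ c := by
  let b : ContDiffBump (0 : E n) := ⟨1, 3 / 2, one_pos, by norm_num⟩
  have h1 : ContDiff ℝ 2 b := b.contDiff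
  obtain ⟨c, hc⟩ := (b.hasCompactSupport.fderiv ℝ).exists_bound_of_continuous
    (h1.continuous_fderiv two_ne_zero)
  exact ⟨b, c, (norm_nonneg _).trans (hc 0), h1, fun y => ⟨b.nonneg, b.le_one⟩,
    fun y hy => b.one_of_mem_closedBall (mem_closedBall_zero_iff.2 hy),
    fun y hy => b.zero_of_le_dist (by rwa [dist_zero_right]), hc⟩

open Classical in
theorem part_theta [T2Space X] (g : Met A) {b : E n → ℝ} {c : ℝ} (c0 : 0 ≤ c) (hb : ContDiff ℝ 2 b)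
    (b0 : ∀ y, 3 / 2 ≤ ‖y‖ → b y = 0) (hc : ∀ y, ‖fderiv ℝ b y‖ ≤ c) {f : ℂ → X} {z : ℂ} {Λ : ℝ}
    (h0 : 0 ≤ Λ) (hf : A.Hol f z) (hs : g.sp f z ≤ Λ ^ 2) (j : Fin A.N) {θ : ℂ → ℝ}
    (hθ : ∀ w, θ w = if f w ∈ (A.e j).source then b (A.e j (f w)) else 0) :
    ContDiffAt ℝ 2 θ z ∧ ‖fderiv ℝ θ z‖ ≤ c * (g.C * Λ) ∧ (¬ A.In j 2 (f z) → θ =ᶠ[𝓝 z] 0) := by
  have C0 : 0 ≤ g.C := zero_le_one.trans g.one
  have h1 : ¬ A.In j (3 / 2) (f z) → θ =ᶠ[𝓝 z] 0 := fun h => by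
    filter_upwards [hf.holAt.1.eventually
      ((A.isClosed_in j (a := 3 / 2) (by norm_num)).isOpen_compl.mem_nhds h)] with w hw
    rw [hθ]
    split_ifs with h2
    · exact b0 _ (not_lt.1 fun h3 => hw ⟨h2, h3.le⟩)
    · rfl
  refine (and_assoc.1 ⟨?_, fun h => h1 fun h2 => h (h2.mono (by norm_num))⟩)
  by_cases h : A.In j (3 / 2) (f z)
  · have h2 : θ =ᶠ[𝓝 z] b ∘ (A.e j ∘ f) := by
      filter_upwards [hf.holAt.1.eventually ((A.e j).open_source.mem_nhds h.1)] with w hw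
      exact (hθ w).trans (if_pos hw)
    have h3 := hf.analyticAt h.1
    have h4 : ContDiffAt ℝ 2 (A.e j ∘ f) z := h3.contDiffAt.restrict_scalars ℝ
    refine ⟨(hb.contDiffAt.comp z h4).congr_of_eventuallyEq h2, ?_⟩
    rw [h2.fderiv_eq, fderiv_comp z (hb.differentiable two_ne_zero _)
      (h4.differentiableAt two_ne_zero)]
    refine (ContinuousLinearMap.opNorm_comp_le _ _).trans (mul_le_mul (hc _) ?_ (norm_nonneg _) c0)
    rw [h3.differentiableAt.fderiv_restrictScalars ℝ, ContinuousLinearMap.norm_restrictScalars,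
      ← norm_deriv_eq_norm_fderiv]
    exact g.dv_le hf.holAt (h.mono (by norm_num)) h0 hs
  · refine ⟨contDiffAt_const.congr_of_eventuallyEq (h1 h), ?_⟩
    rw [(h1 h).fderiv_eq, fderiv_zero, Pi.zero_apply, norm_zero]
    positivity

theorem part_div {θ S : ℂ → ℝ} {z : ℂ} {D D' : ℝ} (h1 : DifferentiableAt ℝ θ z)
    (h2 : DifferentiableAt ℝ S z) (t0 : 0 ≤ θ z) (t1 : θ z ≤ 1) (s1 : 1 ≤ S z)
    (d1 : ‖fderiv ℝ θ z‖ ≤ D) (d2 : ‖fderiv ℝ S z‖ ≤ D') :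
    ‖fderiv ℝ (fun w => θ w * (S w)⁻¹) z‖ ≤ D' + D := by
  have s0 : 0 < S z := by linarith
  have h3 := h1.hasFDerivAt.mul ((hasDerivAt_inv s0.ne').comp_hasFDerivAt z h2.hasFDerivAt)
  have e := h3.fderiv
  have i1 : (S z)⁻¹ ≤ 1 := inv_le_one_of_one_le₀ s1
  have i2 : (S z ^ 2)⁻¹ ≤ 1 := inv_le_one_of_one_le₀ (one_le_pow₀ s1)
  refine (congrArg norm e).trans_le ((norm_add_le _ _).trans (add_le_add ?_ ?_))
  · rw [norm_smul, norm_smul, norm_neg, Real.norm_of_nonneg t0, Real.norm_of_nonneg (by positivity)]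
    exact (mul_le_of_le_one_left (by positivity) t1).trans
      ((mul_le_of_le_one_left (norm_nonneg _) i2).trans d2)
  · rw [norm_smul, Function.comp_apply, Real.norm_of_nonneg (by positivity)]
    exact (mul_le_of_le_one_left (norm_nonneg _) i1).trans d1

theorem Met.part [T2Space X] (g : Met A) : ∃ C : ℝ, 1 ≤ C ∧ ∀ (f : ℂ → X) (r Λ : ℝ), 0 ≤ Λ →
    (∀ z, ‖z‖ < r → A.Hol f z ∧ g.sp f z ≤ Λ ^ 2) → ∃ χ, A.PU f r (C * Λ) χ := by
  classical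
  obtain ⟨b, c, c0, hb, b01, b1, b0, hc⟩ := part_bump n
  have C0 : 0 ≤ g.C := zero_le_one.trans g.one
  refine ⟨(A.N + 1) * c * g.C + 1, le_add_of_nonneg_left (by positivity), fun f r Λ h0 h => ?_⟩
  obtain ⟨θ, hθ⟩ : ∃ θ : Fin A.N → ℂ → ℝ, ∀ j w,
    θ j w = if f w ∈ (A.e j).source then b (A.e j (f w)) else 0 := ⟨_, fun _ _ => rfl⟩
  have t := fun j z (hz : ‖z‖ < r) => part_theta g c0 hb b0 hc h0 (h z hz).1 (h z hz).2 j (hθ j)
  have t0 : ∀ j w, 0 ≤ θ j w ∧ θ j w ≤ 1 := fun j w => by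
    rw [hθ]
    split_ifs
    · exact b01 _
    · exact ⟨le_rfl, zero_le_one⟩
  have s1 : ∀ w, 1 ≤ ∑ j, θ j w := fun w => by
    obtain ⟨j, h1, h2⟩ := A.cov (f w)
    refine le_trans ?_ (Finset.single_le_sum (fun i _ => (t0 i w).1) (Finset.mem_univ j))
    rw [hθ, if_pos h1, b1 _ h2.le]
  have s0 : ∀ w, ∑ j, θ j w ≠ 0 := fun w => (one_pos.trans_le (s1 w)).ne'
  have s2 : ∀ z, ‖z‖ < r → ContDiffAt ℝ 2 (fun w => ∑ j, θ j w) z := fun z hz =>
    ContDiffAt.sum fun j _ => (t j z hz).1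
  refine ⟨fun j w => θ j w * (∑ i, θ i w)⁻¹, fun j z hz => ?_, fun z _ => ?_, fun j z _ => ?_,
    fun j z hz => ?_, fun j z hz hj => ?_⟩
  · rw [mem_ball_zero_iff] at hz
    exact ((t j z hz).1.mul ((s2 z hz).inv (s0 z))).contDiffWithinAt
  · rw [← Finset.sum_mul, mul_inv_cancel₀ (s0 z)]
  · exact mul_nonneg (t0 j z).1 (inv_nonneg.2 (zero_le_one.trans (s1 z)))
  · have d2 : ‖fderiv ℝ (fun w => ∑ j, θ j w) z‖ ≤ A.N * (c * (g.C * Λ)) := by
      rw [fderiv_fun_sum fun i _ => (t i z hz).1.differentiableAt two_ne_zero]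
      refine (norm_sum_le _ _).trans ((Finset.sum_le_card_nsmul _ _ _ fun i _ =>
        (t i z hz).2.1).trans_eq ?_)
      rw [Finset.card_univ, Fintype.card_fin, nsmul_eq_mul]
    refine (part_div ((t j z hz).1.differentiableAt two_ne_zero)
      ((s2 z hz).differentiableAt two_ne_zero) (t0 j z).1 (t0 j z).2 (s1 z) (t j z hz).2.1
      d2).trans ?_
    linarith
  · filter_upwards [(t j z hz).2.2 hj] with w hw
    rw [hw, Pi.zero_apply, zero_mul]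

end Vale.Agent.P272
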