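import Vale.Agent.P272.CTa
import Vale.Agent.P272.CTb
import Vale.Agent.P272.AH

/-! P272 Solve (task). Helper names start with `solve_`.
Plan. `U 0 p = p.2`, `U (k+1) p = p.2 + CT (fun z => Q (z, U k (z, p.2))) p.1`. Induction: `C^1`, `Lin` (chain rule), `‖U k p - p.2‖ ≤ C_T B (3/2 ‖p.2‖)^2 ≤ ‖p.2‖ / 2`. `Q (z, ·)` is holomorphic (`lin_diff`) and bounded by `4 B ε^2` on the ball `2 ε`, so `16 B ε` Lipschitz on the ball `3 ε / 2` (`Complex.norm_fderiv_le_div_of_mapsTo_ball` or `P278.osg2_cauchy`, mean value inequality). So `‖U (k+1) - U k‖ ≤ 2^(-k-1)` (`ct_sub`, `ct_bound`), `db (U (k+1)) = Q (U k)` (`ct_param`), limit by `cauchySeq_of_le_geometric_two`. Take `C = 32 C_T`. -/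

open Metric Set Filter Topology Complex

noncomputable section

namespace Vale.Agent.P272

variable {n : ℕ}

/-- One step of the iteration. -/
def solve_F (Q W : ℂ × E n → E n) (p : ℂ × E n) : E n :=
  p.2 + CT (fun z => Q (z, W (z, p.2))) p.1

theorem solve_mem {r : ℝ} {p : ℂ × E n} :
    p ∈ (univ : Set ℂ) ×ˢ ball (0 : E n) r ↔ ‖p.2‖ < r := by simp

theorem solve_da {W : ℂ × E n → E n} {r : ℝ} (h : ContDiffOn ℝ 1 W (univ ×ˢ ball 0 r))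
    {p : ℂ × E n} (hp : ‖p.2‖ < r) : DifferentiableAt ℝ W p :=
  (h.contDiffAt ((isOpen_univ.prod isOpen_ball).mem_nhds (solve_mem.2 hp))).differentiableAt
    one_ne_zero

theorem solve_cont {W : ℂ × E n → E n} {r : ℝ} (h : ContDiffOn ℝ 1 W (univ ×ˢ ball 0 r))
    {s : E n} (hs : ‖s‖ < r) : Continuous fun z => W (z, s) :=
  h.continuousOn.comp_continuous (continuous_id.prodMk continuous_const)
    fun _ => solve_mem.2 hs

theorem solve_comp {Q W : ℂ × E n → E n} {ε : ℝ}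
    (hQ : ContDiffOn ℝ 1 Q (univ ×ˢ ball 0 (2 * ε))) (lQ : ∀ p, ‖p.2‖ < 2 * ε → Lin Q p)
    (hW : ContDiffOn ℝ 1 W (univ ×ˢ ball 0 ε))
    (lW : ∀ p, ‖p.2‖ < ε → Lin W p ∧ ‖W p‖ < 2 * ε) :
    ContDiffOn ℝ 1 (fun p : ℂ × E n => Q (p.1, W p)) (univ ×ˢ ball 0 ε) ∧
      ∀ p, ‖p.2‖ < ε → Lin (fun p : ℂ × E n => Q (p.1, W p)) p := by
  refine ⟨hQ.comp (contDiffOn_fst.prodMk hW) fun p hp => solve_mem.2 (lW p (solve_mem.1 hp)).2,
    fun p hp b => ?_⟩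
  have h1 : HasFDerivAt (fun p : ℂ × E n => Q (p.1, W p))
      ((fderiv ℝ Q (p.1, W p)).comp ((ContinuousLinearMap.fst ℝ ℂ (E n)).prod (fderiv ℝ W p))) p :=
    (solve_da hQ (p := (p.1, W p)) (lW p hp).2).hasFDerivAt.comp p
      (hasFDerivAt_fst.prodMk (solve_da hW hp).hasFDerivAt)
  rw [h1.fderiv]
  simp only [ContinuousLinearMap.comp_apply, ContinuousLinearMap.prod_apply,
    ContinuousLinearMap.coe_fst']
  rw [(lW p hp).1 b]
  exact lQ (p.1, W p) (lW p hp).2 _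

theorem solve_reg {Q W : ℂ × E n → E n} {ε : ℝ}
    (hQ : ContDiffOn ℝ 1 Q (univ ×ˢ ball 0 (2 * ε))) (lQ : ∀ p, ‖p.2‖ < 2 * ε → Lin Q p)
    (zQ : ∀ p, ‖p.2‖ < 2 * ε → 1 ≤ ‖p.1‖ → Q p = 0)
    (hW : ContDiffOn ℝ 1 W (univ ×ˢ ball 0 ε))
    (lW : ∀ p, ‖p.2‖ < ε → Lin W p ∧ ‖W p‖ < 2 * ε) :
    ContDiffOn ℝ 1 (solve_F Q W) (univ ×ˢ ball 0 ε) ∧
      ∀ p, ‖p.2‖ < ε → Lin (solve_F Q W) p ∧ db (solve_F Q W) p = Q (p.1, W p) := by
  obtain ⟨h1, h2⟩ := solve_comp hQ lQ hW lW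
  obtain ⟨h3, h4⟩ := ct_param (q := fun p : ℂ × E n => Q (p.1, W p)) isOpen_ball h1
    (fun z s hs hz => zQ (z, W (z, s)) (lW (z, s) (mem_ball_zero_iff.1 hs)).2 hz)
    (fun p hp => h2 p (mem_ball_zero_iff.1 hp))
  refine ⟨contDiffOn_snd.add h3, fun p hp => ?_⟩
  obtain ⟨h5, h6⟩ := h4 p (mem_ball_zero_iff.2 hp)
  have h7 : HasFDerivAt (solve_F Q W) (ContinuousLinearMap.snd ℝ ℂ (E n) +
      fderiv ℝ (fun p : ℂ × E n => CT (fun z => Q (z, W (z, p.2))) p.1) p) p :=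
    hasFDerivAt_snd.add (solve_da h3 hp).hasFDerivAt
  constructor
  · intro b
    rw [h7.fderiv]
    simp only [add_apply, ContinuousLinearMap.coe_snd']
    rw [smul_add]
    exact congrArg (I • b + ·) (h5 b)
  · rw [← h6]
    unfold db
    rw [h7.fderiv]
    simp only [add_apply, ContinuousLinearMap.coe_snd', zero_add]

theorem solve_lip {Q : ℂ × E n → E n} {ε B : ℝ} (hε : 0 < ε) (hB : 0 ≤ B)
    (hQ : ContDiffOn ℝ 1 Q (univ ×ˢ ball 0 (2 * ε))) (lQ : ∀ p, ‖p.2‖ < 2 * ε → Lin Q p)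
    (bQ : ∀ p, ‖p.2‖ < 2 * ε → ‖Q p‖ ≤ B * ‖p.2‖ ^ 2) (z : ℂ) {x y : E n}
    (hx : ‖x‖ < 3 / 2 * ε) (hy : ‖y‖ < 3 / 2 * ε) :
    ‖Q (z, x) - Q (z, y)‖ ≤ 8 * B * ε * ‖x - y‖ := by
  have hd : ∀ u ∈ ball (0 : E n) (2 * ε), DifferentiableAt ℂ (fun u => Q (z, u)) u := fun u hu =>
    (lin_diff (solve_da hQ (p := (z, u)) (mem_ball_zero_iff.1 hu))
      (lQ (z, u) (mem_ball_zero_iff.1 hu))).1
  have hsub : ∀ u ∈ ball (0 : E n) (3 / 2 * ε), closedBall u (ε / 2) ⊆ ball 0 (2 * ε) :=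
    fun u hu => closedBall_subset_ball' (by rw [mem_ball] at hu; linarith)
  refine (convex_ball (0 : E n) (3 / 2 * ε)).norm_image_sub_le_of_norm_fderiv_le (𝕜 := ℂ)
    (f := fun u => Q (z, u)) (fun u hu => hd u (ball_subset_ball (by linarith) hu))
    (fun u hu => ?_) (mem_ball_zero_iff.2 hy) (mem_ball_zero_iff.2 hx)
  refine (P278.osg2_cauchy (N := B * (2 * ε) ^ 2) isOpen_ball
    (fun u hu => (hd u hu).differentiableWithinAt) (half_pos hε) (hsub u hu)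
    fun w hw => ?_).trans (le_of_eq ?_)
  · have h1 := mem_ball_zero_iff.1 (hsub u hu hw)
    refine (bQ (z, w) h1).trans ?_
    gcongr
  · field_simp
    ring

/-- The iterates. -/
def solve_U (Q : ℂ × E n → E n) : ℕ → ℂ × E n → E n
  | 0 => fun p => p.2
  | k + 1 => solve_F Q (solve_U Q k)

theorem solve (n : ℕ) : ∃ C : ℝ, 1 ≤ C ∧ ∀ (Q : ℂ × E n → E n) (ε B : ℝ), 0 < ε → ε ≤ 1 → 0 ≤ B →
    C * B * ε ≤ 1 → ContDiffOn ℝ 1 Q (univ ×ˢ ball 0 (2 * ε)) →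
    (∀ p, ‖p.2‖ < 2 * ε → Lin Q p ∧ ‖Q p‖ ≤ B * ‖p.2‖ ^ 2 ∧ (1 ≤ ‖p.1‖ → Q p = 0)) →
    ∃ (U : ℕ → ℂ × E n → E n) (u : ℂ × E n → E n),
      (∀ k, ContDiffOn ℝ 1 (U k) (univ ×ˢ ball 0 ε)) ∧
      (∀ k p, ‖p.2‖ < ε → Lin (U k) p ∧ ‖U k p‖ < 2 * ε ∧
        ‖db (U k) p - Q (p.1, U k p)‖ ≤ (1 / 2) ^ k ∧ ‖U k p - u p‖ ≤ (1 / 2) ^ k) ∧
      (∀ p, ‖p.2‖ < ε → ‖u p - p.2‖ ≤ C * B * ‖p.2‖ ^ 2) ∧
      ∀ z z' s, ‖s‖ < ε → ‖u (z, s) - u (z', s)‖ ≤ ‖z - z'‖ ^ (3 / 4 : ℝ) := by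
  obtain ⟨T, hT1, hT⟩ := ct_bound n
  refine ⟨32 * T, by linarith, fun Q ε B hε hε1 hB hC hQ hQ' => ?_⟩
  have lQ := fun p hp => (hQ' p hp).1
  have bQ := fun p hp => (hQ' p hp).2.1
  have zQ := fun p hp => (hQ' p hp).2.2
  have hTB : 0 ≤ T * B := by positivity
  have hBε : B * ε ≤ 1 / 32 := by nlinarith [mul_nonneg hB hε.le]
  have lt1 : ∀ {W : ℂ × E n → E n} {p : ℂ × E n}, ‖p.2‖ < ε →
      ‖W p - p.2‖ ≤ 9 / 4 * T * B * ‖p.2‖ ^ 2 → ‖W p‖ ≤ 3 / 2 * ‖p.2‖ := by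
    intro W p hp h
    have h1 : ‖W p‖ ≤ ‖W p - p.2‖ + ‖p.2‖ := norm_le_norm_sub_add _ _
    have h2 : T * B * ‖p.2‖ ≤ T * B * ε := by gcongr
    nlinarith [norm_nonneg p.2]
  have qb : ∀ {W : ℂ × E n → E n} {s : E n}, ‖s‖ < ε →
      (∀ z, ‖W (z, s)‖ ≤ 3 / 2 * ‖s‖) → ∀ z, ‖Q (z, W (z, s))‖ ≤ 9 / 4 * B * ‖s‖ ^ 2 := by
    intro W s hs h z
    refine (bQ (z, W (z, s)) (by linarith [h z])).trans ?_
    calc B * ‖W (z, s)‖ ^ 2 ≤ B * (3 / 2 * ‖s‖) ^ 2 := by gcongr; exact h z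
      _ = _ := by ring
  have inv : ∀ k, ContDiffOn ℝ 1 (solve_U Q k) (univ ×ˢ ball 0 ε) ∧
      ∀ p, ‖p.2‖ < ε → Lin (solve_U Q k) p ∧
        ‖solve_U Q k p - p.2‖ ≤ 9 / 4 * T * B * ‖p.2‖ ^ 2 := by
    intro k
    induction k with
    | zero =>
      refine ⟨contDiffOn_snd, fun p _ => ⟨fun b => ?_, ?_⟩⟩
      · have h1 : fderiv ℝ (solve_U Q 0) p = ContinuousLinearMap.snd ℝ ℂ (E n) :=
          hasFDerivAt_snd.fderiv
        rw [h1]
        rfl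
      · simp only [solve_U, sub_self, norm_zero]
        positivity
    | succ k ih =>
      have lW : ∀ p, ‖p.2‖ < ε → Lin (solve_U Q k) p ∧ ‖solve_U Q k p‖ < 2 * ε := fun p hp =>
        ⟨(ih.2 p hp).1, by linarith [lt1 hp (ih.2 p hp).2]⟩
      obtain ⟨h1, h2⟩ := solve_reg hQ lQ zQ ih.1 lW
      refine ⟨h1, fun p hp => ⟨(h2 p hp).1, ?_⟩⟩
      have h3 := (hT _ _ (solve_cont (solve_comp hQ lQ ih.1 lW).1 hp)
        (fun z hz => zQ (z, solve_U Q k (z, p.2)) (lW (z, p.2) hp).2 hz)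
        (qb hp fun z => lt1 (p := (z, p.2)) hp (ih.2 (z, p.2) hp).2)).1 p.1
      simp only [solve_U, solve_F, add_sub_cancel_left]
      exact h3.trans (le_of_eq (by ring))
  have nb : ∀ k p, ‖p.2‖ < ε → ‖solve_U Q k p‖ ≤ 3 / 2 * ‖p.2‖ := fun k p hp =>
    lt1 hp ((inv k).2 p hp).2
  have lW : ∀ k p, ‖p.2‖ < ε → Lin (solve_U Q k) p ∧ ‖solve_U Q k p‖ < 2 * ε := fun k p hp =>
    ⟨((inv k).2 p hp).1, by linarith [nb k p hp]⟩
  have cq : ∀ k s, ‖s‖ < ε → Continuous fun z => Q (z, solve_U Q k (z, s)) := fun k s hs =>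
    solve_cont (solve_comp hQ lQ (inv k).1 (lW k)).1 hs
  have zq : ∀ k s, ‖s‖ < ε → ∀ z, 1 ≤ ‖z‖ → Q (z, solve_U Q k (z, s)) = 0 := fun k s hs z hz =>
    zQ (z, solve_U Q k (z, s)) (lW k (z, s) hs).2 hz
  have lip : ∀ k p, ‖p.2‖ < ε → ‖Q (p.1, solve_U Q k p) - Q (p.1, solve_U Q (k + 1) p)‖ ≤
      8 * B * ε * ‖solve_U Q k p - solve_U Q (k + 1) p‖ := fun k p hp =>
    solve_lip hε hB hQ lQ bQ p.1 (by linarith [nb k p hp]) (by linarith [nb (k + 1) p hp])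
  have geo : ∀ k p, ‖p.2‖ < ε → ‖solve_U Q k p - solve_U Q (k + 1) p‖ ≤ 1 / 2 / 2 ^ k := by
    intro k
    induction k with
    | zero =>
      intro p hp
      have h1 := ((inv 1).2 p hp).2
      have h2 : T * B * ‖p.2‖ ≤ T * B * ε := by gcongr
      rw [norm_sub_rev]
      refine h1.trans ?_
      nlinarith [norm_nonneg p.2]
    | succ k ih =>
      intro p hp
      have h1 := (hT _ (8 * B * ε * (1 / 2 / 2 ^ k)) ((cq k p.2 hp).sub (cq (k + 1) p.2 hp))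
        (fun z hz => sub_eq_zero.2 ((zq k p.2 hp z hz).trans (zq (k + 1) p.2 hp z hz).symm))
        (fun z => (lip k (z, p.2) hp).trans
          (mul_le_mul_of_nonneg_left (ih (z, p.2) hp) (by positivity)))).1 p.1
      have h2 := ct_sub (cq k p.2 hp) (cq (k + 1) p.2 hp) (zq k p.2 hp) (zq (k + 1) p.2 hp) p.1
      have h3 : solve_U Q (k + 1) p - solve_U Q (k + 1 + 1) p =
          CT (fun z => Q (z, solve_U Q k (z, p.2))) p.1 -
            CT (fun z => Q (z, solve_U Q (k + 1) (z, p.2))) p.1 :=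
        add_sub_add_left_eq_sub _ _ _
      rw [h3, ← h2]
      refine h1.trans ?_
      have h4 : (0 : ℝ) < 1 / 2 / 2 ^ k := by positivity
      have h5 : (1 : ℝ) / 2 / 2 ^ (k + 1) = 1 / 2 / 2 ^ k / 2 := by rw [pow_succ]; field_simp
      rw [h5]
      nlinarith
  have lim : ∀ p : ℂ × E n, ‖p.2‖ < ε → ∃ a, Tendsto (fun k => solve_U Q k p) atTop (𝓝 a) :=
    fun p hp => cauchySeq_tendsto_of_complete
      (cauchySeq_of_le_geometric_two (C := 1) fun k => by rw [dist_eq_norm]; exact geo k p hp)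
  choose! u hu using lim
  refine ⟨solve_U Q, u, fun k => (inv k).1, fun k p hp => ⟨(lW k p hp).1, (lW k p hp).2, ?_, ?_⟩,
    fun p hp => ?_, fun z z' s hs => ?_⟩
  · cases k with
    | zero =>
      have h1 : fderiv ℝ (solve_U Q 0) p = ContinuousLinearMap.snd ℝ ℂ (E n) :=
        hasFDerivAt_snd.fderiv
      have h2 : db (solve_U Q 0) p = 0 := by
        unfold db
        rw [h1]
        simp
      rw [h2, zero_sub, norm_neg, pow_zero]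
      refine (bQ (p.1, p.2) (by linarith)).trans ?_
      have h3 : B * ‖p.2‖ ≤ B * ε := by gcongr
      nlinarith [norm_nonneg p.2]
    | succ k =>
      have h1 : db (solve_U Q (k + 1)) p = Q (p.1, solve_U Q k p) :=
        ((solve_reg hQ lQ zQ (inv k).1 (lW k)).2 p hp).2
      rw [h1]
      refine (lip k p hp).trans ?_
      have h2 := geo k p hp
      have h3 : (1 / 2 : ℝ) ^ (k + 1) = 1 / 2 / 2 ^ k := by rw [pow_succ, one_div_pow]; field_simp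
      rw [h3]
      nlinarith [norm_nonneg (solve_U Q k p - solve_U Q (k + 1) p)]
  · rw [← dist_eq_norm, one_div_pow]
    exact dist_le_of_le_geometric_two_of_tendsto (C := 1)
      (fun k => by rw [dist_eq_norm]; exact geo k p hp) (hu p hp) k
  · refine le_of_tendsto' ((hu p hp).sub_const p.2).norm fun k => ((inv k).2 p hp).2.trans ?_
    nlinarith [mul_nonneg hTB (sq_nonneg ‖p.2‖)]
  · refine le_of_tendsto' ((hu (z, s) hs).sub (hu (z', s) hs)).norm fun k => ?_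
    have h0 : 0 ≤ ‖z - z'‖ ^ (3 / 4 : ℝ) := by positivity
    cases k with
    | zero => simpa only [solve_U, sub_self, norm_zero] using h0
    | succ k =>
      have h1 := (hT _ _ (cq k s hs) (zq k s hs) (qb hs fun z => nb k (z, s) hs)).2 z z'
      have h3 : solve_U Q (k + 1) (z, s) - solve_U Q (k + 1) (z', s) =
          CT (fun z => Q (z, solve_U Q k (z, s))) z - CT (fun z => Q (z, solve_U Q k (z, s))) z' :=
        add_sub_add_left_eq_sub _ _ _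
      rw [h3]
      refine h1.trans (mul_le_of_le_one_left h0 ?_)
      have h2 : T * B * ‖s‖ ≤ T * B * ε := by gcongr
      nlinarith [norm_nonneg s]

end Vale.Agent.P272
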