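import Vale.Agent.P272.GQ
import Vale.Agent.P272.Part
import Vale.Agent.P272.Solve

/-! P272 Tube (task). Helper names start with `tube_`.
Plan. `part`, `kap` with `ε₁ = 1 / (32 C^4 M^2)`, `gq` with `δ = 2 ε`; cut-off `χ₀` (`ContDiffBump`, equal to 1 on `closedBall 0 (r - σ)`, support in a smaller closed ball than `ball 0 r`; if `r - σ ≤ 0` the claim is empty), `solve` for `Q p = χ₀ p.1 • Qf p.1 (G p)`. `W p = G (p.1, u p)`. In chart `k` on the open set `(dom k ∩ ball 0 (r - σ)) ×ˢ ball 0 ε`: `y m = e k ∘ G (p.1, U m p)`, `IP.db_le`, `KP.eq`, `IP.anti`, `ah_limit`, `holAt_of_chart`. `fr`: differentiate `Kc k (z, y s) = u (z, s) = s + O(s^2)` at `0`. `hold`: `anti` at `z`, `loc`, mean value inequality with `KP.der` along the segment. -/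

open Metric Set Filter Topology Complex

noncomputable section

namespace Vale.Agent.P272

variable {n : ℕ} {X : Type} [TopologicalSpace X] {A : Atl n X}

section

variable {F G : ℂ × E n → X} {r R ε ε₁ δ M B : ℝ} {χ : Fin A.N → ℂ → ℝ} {k : Fin A.N} {z : ℂ}

theorem tube_dom (hz : ‖z‖ < r) (hk : A.In k 2 (F (z, 0))) : z ∈ A.dom (ctr F) r k :=
  ⟨hz, hk.1, hk.2.trans_lt (by norm_num)⟩

theorem tube_K (hG : A.GQ χ F G r δ M B) (hz : z ∈ A.dom (ctr F) r k) {v : E n} (hv : ‖v‖ < δ) :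
    A.Kc χ F k (z, A.e k (G (z, v))) = v ∧
      A.Qc χ F k (z, A.e k (G (z, v))) = A.Qf χ F z (G (z, v)) := by
  have h1 := (A.e k).left_inv (hG.near k (z, v) hz hv).1
  unfold Atl.Kc Atl.Qc
  simp only [h1, and_true]
  exact hG.eq (z, v) hz.1 hv

theorem tube_mem (hG : A.GQ χ F G r δ M B) (hM : 1 ≤ M) (h : 2 * M * δ ≤ ε₁)
    (hz : z ∈ A.dom (ctr F) r k) {v : E n} (hv : ‖v‖ < δ) :
    (z, A.e k (G (z, v))) ∈ A.tk F r ε₁ k :=
  ⟨hz, (hG.near k (z, v) hz hv).2.trans_lt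
    ((mul_lt_mul_of_pos_left hv (by positivity)).trans_le h)⟩

theorem tube_Q (hG : A.GQ χ F G r δ M B) (hB : 0 ≤ B) (hr : r ≤ 1) (h0 : 0 < R) (hR : R < r) :
    ∃ Q : ℂ × E n → E n, ContDiffOn ℝ 1 Q (univ ×ˢ ball 0 δ) ∧
      (∀ p : ℂ × E n, ‖p.2‖ < δ → Lin Q p ∧ ‖Q p‖ ≤ 4 * B * M ^ 4 * ‖p.2‖ ^ 2 ∧
        (1 ≤ ‖p.1‖ → Q p = 0)) ∧ ∀ p : ℂ × E n, ‖p.1‖ < R → Q p = A.Qf χ F p.1 (G p) := by
  let b : ContDiffBump (0 : ℂ) := ⟨R, (R + r) / 2, h0, by linarith⟩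
  have b0 : ∀ z : ℂ, (R + r) / 2 ≤ ‖z‖ → b z = 0 := fun z hz =>
    b.zero_of_le_dist (by rw [dist_zero_right]; exact hz)
  have hO : IsOpen (ball (0 : ℂ) r ×ˢ ball (0 : E n) δ) := isOpen_ball.prod isOpen_ball
  have hq : ∀ p : ℂ × E n, ‖p.1‖ < r → ‖p.2‖ < δ →
      ContDiffAt ℝ 1 (fun p => A.Qf χ F p.1 (G p)) p := fun p h1 h2 =>
    hG.qdiff.contDiffAt (hO.mem_nhds ⟨mem_ball_zero_iff.2 h1, mem_ball_zero_iff.2 h2⟩)
  have hc : ∀ p : ℂ × E n, ‖p.2‖ < δ →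
      ContDiffAt ℝ 1 (fun p : ℂ × E n => b p.1 • A.Qf χ F p.1 (G p)) p := fun p h2 => by
    by_cases h1 : ‖p.1‖ < r
    · exact ((b.contDiff.comp contDiff_fst).contDiffAt).smul (hq p h1 h2)
    · refine (contDiffAt_const (c := 0)).congr_of_eventuallyEq ?_
      have : ∀ᶠ q : ℂ × E n in 𝓝 p, (R + r) / 2 < ‖q.1‖ :=
        continuous_fst.norm.continuousAt.eventually (lt_mem_nhds (by linarith))
      filter_upwards [this] with q hq'
      rw [b0 _ hq'.le, zero_smul]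
  refine ⟨fun p => b p.1 • A.Qf χ F p.1 (G p),
    fun p hp => (hc p (mem_ball_zero_iff.1 hp.2)).contDiffWithinAt, fun p h2 => ⟨?_, ?_, fun h => ?_⟩,
    fun p hp => ?_⟩
  · obtain ⟨z, v⟩ := p
    refine lin_of_diff ((hc _ h2).differentiableAt one_ne_zero) ?_
    by_cases h1 : ‖z‖ < r
    · exact (lin_diff ((hq _ h1 h2).differentiableAt one_ne_zero)
        (hG.qlin _ h1 h2).1).1.const_smul (b z)
    · simp only [b0 z (by linarith), zero_smul]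
      exact differentiableAt_const _
  · by_cases h1 : ‖p.1‖ < r
    · rw [norm_smul, Real.norm_of_nonneg b.nonneg]
      exact (mul_le_of_le_one_left (norm_nonneg _) b.le_one).trans (hG.qlin _ h1 h2).2
    · simp only [b0 p.1 (by linarith), zero_smul, norm_zero]
      positivity
  · simp only [b0 p.1 (by linarith), zero_smul]
  · simp only [b.one_of_mem_closedBall (mem_closedBall_zero_iff.2 hp.le), one_smul]

theorem tube_hol (hK : A.KP χ F r ε₁ M B) (hG : A.GQ χ F G r δ M B) (h : 2 * M * δ ≤ ε₁)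
    (hR : R ≤ r) {U : ℕ → ℂ × E n → E n} {u : ℂ × E n → E n}
    (h1 : ∀ m, ContDiffOn ℝ 1 (U m) (univ ×ˢ ball 0 ε))
    (h2 : ∀ m (p : ℂ × E n), ‖p.1‖ < R → ‖p.2‖ < ε → Lin (U m) p ∧ ‖U m p‖ < δ ∧
      ‖db (U m) p - A.Qf χ F p.1 (G (p.1, U m p))‖ ≤ (1 / 2) ^ m ∧ ‖U m p - u p‖ ≤ (1 / 2) ^ m)
    (h3 : ∀ p : ℂ × E n, ‖p.2‖ < ε → ‖u p‖ < δ) {s : E n} (hz : ‖z‖ < R) (hs : ‖s‖ < ε) :
    A.HolAt (fun p => G (p.1, u p)) (z, s) := by
  obtain ⟨k, hk⟩ : ∃ k, A.In k 2 (F (z, 0)) := ⟨_, Atl.in_ch _ one_le_two⟩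
  have I := hK.ip k
  have hM := I.one
  obtain ⟨T, hT⟩ : ∃ T : Set (ℂ × E n), T = (A.dom (ctr F) r k ∩ ball 0 R) ×ˢ ball 0 ε := ⟨_, rfl⟩
  have hO : IsOpen T := hT ▸ (I.op.inter isOpen_ball).prod isOpen_ball
  have hm : ∀ p ∈ T, p.1 ∈ A.dom (ctr F) r k ∧ ‖p.1‖ < R ∧ ‖p.2‖ < ε := fun p hp => by
    rw [hT] at hp
    exact ⟨hp.1.1, mem_ball_zero_iff.1 hp.1.2, mem_ball_zero_iff.1 hp.2⟩
  have hp0 : (z, s) ∈ T := hT ▸
    ⟨⟨tube_dom (hz.trans_le hR) hk, mem_ball_zero_iff.2 hz⟩, mem_ball_zero_iff.2 hs⟩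
  have hU : ∀ m, ContDiffOn ℝ 1 (U m) T := fun m => (h1 m).mono fun p hp =>
    ⟨mem_univ _, mem_ball_zero_iff.2 (hm p hp).2.2⟩
  have hy : ∀ m, ContDiffOn ℝ 1 (fun p : ℂ × E n => A.e k (G (p.1, U m p))) T := fun m =>
    (hG.diff k).comp (contDiffOn_fst.prodMk (hU m)) fun p hp =>
      ⟨(hm p hp).1, mem_ball_zero_iff.2 (h2 m p (hm p hp).2.1 (hm p hp).2.2).2.1⟩
  have key := ah_limit hO (w := fun p => A.e k (G (p.1, u p))) (c := 2 * M) hy
    (fun m p hp => ?_) fun m p hp => ?_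
  · refine Atl.holAt_of_chart (k := k) ?_ (key.differentiableAt (hO.mem_nhds hp0))
    filter_upwards [hO.mem_nhds hp0] with p hp
    exact (hG.near k (p.1, u p) (hm p hp).1 (h3 p (hm p hp).2.2)).1
  · obtain ⟨a1, a2, a3⟩ := hm p hp
    obtain ⟨b1, b2, b3, -⟩ := h2 m p a2 a3
    have c1 := tube_mem hG hM h a1 b2
    have c2 := I.db_le (y := fun p : ℂ × E n => A.e k (G (p.1, U m p))) (u := U m)
      (((hy m).contDiffAt (hO.mem_nhds hp)).differentiableAt one_ne_zero)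
      (((hU m).contDiffAt (hO.mem_nhds hp)).differentiableAt one_ne_zero) c1 (by
        filter_upwards [hO.mem_nhds hp] with q hq
        exact (tube_K hG (hm q hq).1 (h2 m q (hm q hq).2.1 (hm q hq).2.2).2.1).1) b1
    rw [hK.eq k _ c1, (tube_K hG a1 b2).2] at c2
    exact ⟨c2.1, c2.2.trans (mul_le_mul_of_nonneg_left b3 (by positivity))⟩
  · obtain ⟨a1, a2, a3⟩ := hm p hp
    obtain ⟨-, b2, -, b4⟩ := h2 m p a2 a3
    have c1 := I.anti (tube_mem hG hM h a1 b2) (tube_mem hG hM h a1 (h3 p a3))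
    rw [(tube_K hG a1 b2).1, (tube_K hG a1 (h3 p a3)).1] at c1
    exact c1.trans (mul_le_mul_of_nonneg_left b4 (by positivity))

theorem tube_der [T2Space X] {g : Met A} {D : ℝ} (h : g.TI F r M) (hχ : A.PU (ctr F) r D χ)
    (hz : ‖z‖ < r) (hk : F (z, 0) ∈ (A.e k).source) :
    HasFDerivAt (fun y => A.Kc χ F k (z, y)) (Ring.inverse (A.fr k F z)) (A.e k (F (z, 0))) := by
  have h1 : ∀ j ∈ (Finset.univ : Finset (Fin A.N)), HasFDerivAt (fun y => χ j z •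
      Ring.inverse (A.fr j F z) (A.e j ((A.e k).symm y) - A.e j (F (z, 0))))
      (χ j z • Ring.inverse (A.fr k F z)) (A.e k (F (z, 0))) := fun j _ => by
    by_cases hj : A.In j 2 (F (z, 0))
    · have a1 : HasFDerivAt (fun y => A.e j ((A.e k).symm y)) (A.tr j k (F (z, 0)))
          (A.e k (F (z, 0))) := (A.hol j k _ hj.1 hk).hasFDerivAt
      rw [← kapa_inv h hz hj.1 hk]
      have a2 := (Ring.inverse (A.fr j F z)).hasFDerivAt.comp _ (a1.sub_const (A.e j (F (z, 0))))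
      exact a2.const_smul (χ j z)
    · have a1 : χ j z = 0 := (hχ.supp j z hz hj).eq_of_nhds
      simp only [a1, zero_smul]
      exact (hasFDerivAt_const (𝕜 := ℂ) (0 : E n) (A.e k (F (z, 0)))).congr_fderiv
        (zero_smul ℝ (Ring.inverse (A.fr k F z))).symm
  have h2 := HasFDerivAt.fun_sum h1
  rw [← Finset.sum_smul, hχ.sum z hz, one_smul] at h2
  exact h2

theorem tube_id {v : E n → E n} {c : ℝ} (hε : 0 < ε) (h : ∀ s, ‖s‖ < ε → ‖v s - s‖ ≤ c * ‖s‖ ^ 2) :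
    HasFDerivAt v (1 : L n) 0 := by
  have h0 : v 0 = 0 := by simpa using h 0 (by simpa using hε)
  rw [hasFDerivAt_iff_isLittleO_nhds_zero]
  refine Asymptotics.IsBigO.trans_isLittleO (g := fun s : E n => ‖s‖ ^ 2)
    (Asymptotics.IsBigO.of_bound c ?_) (Asymptotics.isLittleO_norm_pow_id one_lt_two)
  filter_upwards [ball_mem_nhds (0 : E n) hε] with s hs
  simpa [h0] using h s (mem_ball_zero_iff.1 hs)

theorem tube_seg [T2Space X] {g : Met A} (h : g.TI F r M) (hk : A.In k 2 (F (z, 0))) {z' : ℂ}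
    (hz : ‖z‖ < r) (hz' : ‖z'‖ < r) (hd : ‖z - z'‖ ≤ ε) (hε : g.C * M * ε < 1) {ζ : ℂ}
    (hζ : ζ ∈ segment ℝ z z') : ζ ∈ A.dom (ctr F) r k ∧
      ‖A.e k (F (ζ, 0)) - A.e k (F (z, 0))‖ ≤ g.C * M * ε := by
  have hM := h.one
  have hC := g.one
  have hb : segment ℝ z z' ⊆ ball 0 r :=
    (convex_ball 0 r).segment_subset (mem_ball_zero_iff.2 hz) (mem_ball_zero_iff.2 hz')
  have h1 : ‖ζ - z‖ ≤ ε := by
    have : segment ℝ z z' ⊆ closedBall z ε := (convex_closedBall z ε).segment_subset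
      (mem_closedBall_self ((norm_nonneg _).trans hd)) (mem_closedBall_iff_norm'.2 hd)
    exact mem_closedBall_iff_norm.1 (this hζ)
  have h2 : g.C * M * ‖ζ - z‖ ≤ g.C * M * ε := mul_le_mul_of_nonneg_left h1 (by positivity)
  have h3 : segment ℝ z ζ ⊆ ball 0 r :=
    (convex_ball 0 r).segment_subset (mem_ball_zero_iff.2 hz) (hb hζ)
  obtain ⟨a1, a2⟩ := g.loc (f := ctr F) (j := k) (Λ := M) (by positivity)
    (fun w hw => ⟨(h.bs w (h3 hw)).1.ctr.holAt, h.sp w (mem_ball_zero_iff.1 (h3 hw))⟩)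
    (hk.mono (by norm_num)) (h2.trans_lt hε)
  refine ⟨⟨mem_ball_zero_iff.1 (hb hζ), a1.1, ?_⟩, a2.trans h2⟩
  have a3 := norm_le_norm_add_norm_sub' (A.e k (ctr F ζ)) (A.e k (ctr F z))
  have a4 : ‖A.e k (ctr F z)‖ ≤ 2 := hk.2
  linarith

theorem tube_mv (hK : A.KP χ F r ε₁ M B) (hB : 0 ≤ B) {z' : ℂ} {y : E n}
    (h : ∀ ζ ∈ segment ℝ z z', (ζ, y) ∈ A.tk F r ε₁ k) :
    ‖A.Kc χ F k (z', y) - A.Kc χ F k (z, y)‖ ≤ B * M ^ 3 * ‖z' - z‖ := by
  have I := hK.ip k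
  have hM := I.one
  refine (convex_segment z z').norm_image_sub_le_of_norm_hasFDerivWithin_le
    (f := fun ζ => A.Kc χ F k (ζ, y))
    (f' := fun ζ => (fderiv ℝ (A.Kc χ F k) (ζ, y)).comp (ContinuousLinearMap.inl ℝ ℂ (E n)))
    (fun ζ hζ => ?_) (fun ζ hζ => ?_) (left_mem_segment ℝ z z') (right_mem_segment ℝ z z')
  · have a1 : DifferentiableAt ℝ (A.Kc χ F k) (ζ, y) :=
      (I.diff.contDiffAt (I.isOpen.mem_nhds (h ζ hζ))).differentiableAt one_ne_zero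
    have a2 : HasFDerivAt (fun e : ℂ => (e, y)) (ContinuousLinearMap.inl ℝ ℂ (E n)) ζ :=
      hasFDerivAt_prodMk_left ζ y
    exact (a1.hasFDerivAt.comp (f := fun e : ℂ => (e, y)) ζ a2).hasFDerivWithinAt
  · exact ContinuousLinearMap.opNorm_le_bound _ (by positivity) fun a => hK.der k _ (h ζ hζ) a

end

theorem Met.tube [T2Space X] (g : Met A) : ∃ C : ℝ, 1 ≤ C ∧ ∀ (F : ℂ × E n → X) (r M ε σ : ℝ),
    g.TI F r M → 0 < ε → C * M ^ 4 * ε ≤ 1 → 0 < σ →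
      ∃ W, A.Tb F W (r - σ) ε M (C * M ^ 4) := by
  obtain ⟨c, hc, hpart⟩ := g.part
  obtain ⟨B, hB, hkap⟩ := g.kap c hc
  obtain ⟨S, hS, hsol⟩ := solve n
  have hC := g.one
  have c6 : 1 ≤ g.C ^ 6 := one_le_pow₀ hC
  have BS : 1 ≤ B * S := one_le_mul_of_one_le_of_one_le hB hS
  refine ⟨256 * g.C ^ 6 * (B * S), by nlinarith, fun F r M ε σ h hε hCε hσ => ?_⟩
  rcases le_or_gt (r - σ) 0 with hR | hR
  · have hn : ∀ z : ℂ, ¬ ‖z‖ < r - σ := fun z hz => by linarith [norm_nonneg z]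
    exact ⟨F, fun z _ hz => (hn z hz).elim, fun z hz => (hn z hz).elim,
      fun _ z hz => (hn z hz).elim, fun _ z _ hz => (hn z hz).elim,
      fun _ z _ _ hz => (hn z hz).elim⟩
  have hM := h.one
  have M3 : 1 ≤ M ^ 3 := one_le_pow₀ hM
  obtain ⟨χ, hχ⟩ := hpart (ctr F) r M (by positivity) fun z hz =>
    ⟨(h.bs z (mem_ball_zero_iff.2 hz)).1.ctr, h.sp z hz⟩
  obtain ⟨ε₁, he⟩ : ∃ ε₁ : ℝ, 32 * g.C ^ 4 * M ^ 2 * ε₁ = 1 :=
    ⟨1 / (32 * g.C ^ 4 * M ^ 2), by field_simp⟩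
  have hK := hkap F r M ε₁ χ h hχ he.le
  have e1 : 8 * g.C ^ 2 * M * ε ≤ ε₁ := by
    refine le_of_mul_le_mul_left ?_ (by positivity : 0 < 32 * g.C ^ 4 * M ^ 2)
    rw [he]
    calc _ = 256 * g.C ^ 6 * 1 * (M ^ 3 * 1) * ε := by ring
      _ ≤ 256 * g.C ^ 6 * (B * S) * (M ^ 3 * M) * ε := by gcongr
      _ ≤ 1 := by rw [← pow_succ]; exact hCε
  have e0 : 0 < ε₁ := lt_of_lt_of_le (by positivity) e1
  have e2 : g.C ^ 2 * ε₁ ≤ 1 := by
    calc _ = 1 * (g.C ^ 2 * 1) * 1 * ε₁ := by ring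
      _ ≤ 32 * (g.C ^ 2 * g.C ^ 2) * M ^ 2 * ε₁ := by
        gcongr
        · norm_num
        · exact one_le_pow₀ hC
        · exact one_le_pow₀ hM
      _ = 1 := by rw [← he]; ring
  have c2 : g.C ≤ g.C ^ 2 := le_self_pow₀ hC two_ne_zero
  have Mε : 0 < M * ε := by positivity
  have e3 : g.C * M * ε ≤ g.C ^ 2 * M * ε := by gcongr
  have e4 : M * ε ≤ g.C * M * ε := by nlinarith
  have e5 : ε₁ ≤ 1 := by nlinarith
  have e6 : ε ≤ 1 := by nlinarith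
  have e7 : S * (4 * B * M ^ 4) * ε ≤ 1 := by
    calc _ = 4 * 1 * (B * S) * M ^ 4 * ε := by ring
      _ ≤ 256 * g.C ^ 6 * (B * S) * M ^ 4 * ε := by gcongr; norm_num
      _ ≤ 1 := hCε
  obtain ⟨G, hG⟩ := g.gq (δ := 2 * ε) h hK (by positivity) e2 (by linarith)
  have hδ : 2 * M * (2 * ε) ≤ ε₁ := by linarith
  obtain ⟨Q, q1, q2, q3⟩ := tube_Q hG (by positivity) h.le hR (by linarith)
  obtain ⟨U, u, u1, u2, u3, u4⟩ := hsol Q ε (4 * B * M ^ 4) hε e6 (by positivity) e7 q1 q2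
  have u5 : ∀ p : ℂ × E n, ‖p.2‖ < ε → ‖u p‖ ≤ 2 * ‖p.2‖ := fun p hp => by
    have a1 := norm_le_norm_add_norm_sub' (u p) p.2
    have a2 := u3 p hp
    have a3 : S * (4 * B * M ^ 4) * ‖p.2‖ ≤ 1 :=
      (mul_le_mul_of_nonneg_left hp.le (by positivity)).trans e7
    nlinarith [norm_nonneg p.2]
  have u6 : ∀ p : ℂ × E n, ‖p.2‖ < ε → ‖u p‖ < 2 * ε := fun p hp => by linarith [u5 p hp]
  have hlt : ∀ z : ℂ, ‖z‖ < r - σ → ‖z‖ < r := fun z hz => by linarith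
  have near : ∀ k z s, z ∈ A.dom (ctr F) r k → ‖s‖ < ε → G (z, u (z, s)) ∈ (A.e k).source ∧
      ‖A.e k (G (z, u (z, s))) - A.e k (F (z, 0))‖ ≤ 4 * M * ‖s‖ := fun k z s hz hs => by
    obtain ⟨a1, a2⟩ := hG.near k (z, u (z, s)) hz (u6 _ hs)
    refine ⟨a1, a2.trans ?_⟩
    have := mul_le_mul_of_nonneg_left (u5 (z, s) hs) (by positivity : 0 ≤ 2 * M)
    linarith
  have hol : ∀ z s, ‖z‖ < r - σ → ‖s‖ < ε → A.HolAt (fun p => G (p.1, u p)) (z, s) :=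
    fun z s hz hs => tube_hol hK hG hδ (by linarith) u1
      (fun m p a1 a2 => by rw [← q3 (p.1, U m p) a1]; exact u2 m p a2) u6 hz hs
  have n0 : ‖(0 : E n)‖ < ε := by simpa using hε
  have cen : ∀ z, ‖z‖ < r - σ → G (z, u (z, 0)) = F (z, 0) := fun z hz => by
    have hk := Atl.in_ch (A := A) (F (z, 0)) one_le_two
    obtain ⟨a1, a2⟩ := near _ z 0 (tube_dom (hlt z hz) hk) n0
    rw [norm_zero, mul_zero, norm_le_zero_iff, sub_eq_zero] at a2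
    exact (A.e _).injOn a1 hk.1 a2
  refine ⟨fun p => G (p.1, u p), hol, cen, fun j z hz hj => ?_,
    fun k z s hz hs hk => near k z s (tube_dom (hlt z hz) hk) hs,
    fun k z z' s hz hz' hs hk hd => ?_⟩
  · obtain ⟨k, hk⟩ : ∃ k, A.In k 2 (F (z, 0)) := ⟨_, Atl.in_ch _ one_le_two⟩
    have hd := tube_dom (hlt z hz) hk
    have a0 := hol z 0 hz n0
    have a1 : G (z, u (z, 0)) ∈ (A.e k).source := (near k z 0 hd n0).1
    have a2 : HasFDerivAt (fun s => A.e k (G (z, u (z, s))))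
        (A.fr k (fun p => G (p.1, u p)) z) 0 :=
      DifferentiableAt.hasFDerivAt ((a0.2 k a1).comp (f := fun s : E n => (z, s)) 0
        ((differentiableAt_const z).prodMk differentiableAt_id))
    have a3 := tube_der h hχ (hlt z hz) hk.1
    rw [← cen z hz] at a3
    have a4 := a3.comp (f := fun s => A.e k (G (z, u (z, s)))) 0 a2
    have a5 : HasFDerivAt (fun s => u (z, s)) (1 : L n) 0 := tube_id hε fun s hs => u3 (z, s) hs
    have a6 : Ring.inverse (A.fr k F z) * A.fr k (fun p => G (p.1, u p)) z = 1 := by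
      refine a4.unique (a5.congr_of_eventuallyEq ?_)
      filter_upwards [ball_mem_nhds (0 : E n) hε] with s hs
      exact (tube_K hG hd (u6 (z, s) (mem_ball_zero_iff.1 hs))).1
    have a7 : A.fr k (fun p => G (p.1, u p)) z = A.fr k F z := by
      rw [← one_mul (A.fr k (fun p => G (p.1, u p)) z), ← ((hK.ip k).inv z hd).1, mul_assoc, a6,
        mul_one]
    rw [Atl.fr_chg a0 (k := k) (cen z hz ▸ hj) a1,
      Atl.fr_chg (h.bs z (mem_ball_zero_iff.2 (hlt z hz))).1.holAt hj hk.1, a7]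
    exact congrArg (fun x => A.tr j k x * A.fr k F z) (cen z hz)
  · have sg := fun ζ hζ => tube_seg h hk (hlt z hz) (hlt z' hz') hd (by linarith) (ζ := ζ) hζ
    obtain ⟨d', s'⟩ := sg z' (right_mem_segment ℝ z z')
    have d := tube_dom (hlt z hz) hk
    obtain ⟨a1, a2⟩ := near k z' s d' hs
    refine ⟨a1, ?_⟩
    have a3 : ∀ ζ ∈ segment ℝ z z', (ζ, A.e k (G (z', u (z', s)))) ∈ A.tk F r ε₁ k := fun ζ hζ => by
      refine ⟨(sg ζ hζ).1, ?_⟩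
      have b1 := (sg ζ hζ).2
      have b2 : 4 * M * ‖s‖ ≤ 4 * M * ε := mul_le_mul_of_nonneg_left hs.le (by positivity)
      have b3 := norm_sub_le_norm_sub_add_norm_sub (A.e k (G (z', u (z', s)))) (A.e k (F (z', 0)))
        (A.e k (F (ζ, 0)))
      have b4 := norm_sub_le_norm_sub_add_norm_sub (A.e k (F (z', 0))) (A.e k (F (z, 0)))
        (A.e k (F (ζ, 0)))
      rw [norm_sub_rev] at b1
      show ‖A.e k (G (z', u (z', s))) - A.e k (F (ζ, 0))‖ < ε₁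
      linarith
    have a4 := tube_mv hK (by positivity) a3
    have a5 := (hK.ip k).anti (tube_mem hG hM hδ d (u6 (z, s) hs)) (a3 z (left_mem_segment ℝ z z'))
    rw [(tube_K hG d' (u6 (z', s) hs)).1, norm_sub_rev z'] at a4
    rw [(tube_K hG d (u6 (z, s) hs)).1] at a5
    have a6 := norm_sub_le_norm_sub_add_norm_sub (u (z, s)) (u (z', s))
      (A.Kc χ F k (z, A.e k (G (z', u (z', s)))))
    have a7 := u4 z z' s hs
    have a8 : ‖z - z'‖ ≤ ‖z - z'‖ ^ (3 / 4 : ℝ) :=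
      Real.self_le_rpow_of_le_one (norm_nonneg _) (hd.trans e6) (by norm_num)
    obtain ⟨t, ht⟩ : ∃ t, t = ‖z - z'‖ ^ (3 / 4 : ℝ) := ⟨_, rfl⟩
    rw [← ht] at a7 a8 ⊢
    have t0 : 0 ≤ t := (norm_nonneg _).trans a8
    have b1 : B * M ^ 3 * ‖z - z'‖ ≤ B * M ^ 3 * t := by gcongr
    have b2 : 1 * 1 * t ≤ B * M ^ 3 * t := by gcongr
    calc _ ≤ _ := a5
      _ ≤ 2 * M * (2 * (B * M ^ 3 * t)) := mul_le_mul_of_nonneg_left (by linarith) (by positivity)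
      _ = 4 * 1 * (B * 1) * M ^ 4 * t := by ring
      _ ≤ 256 * g.C ^ 6 * (B * S) * M ^ 4 * t := by gcongr; norm_num

end Vale.Agent.P272
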