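import Vale.Agent.P272.EstB
import Vale.Agent.P272.Tube
import Vale.Agent.P272.Fam

/-! P272 StepW (task). Helper names start with `stepw_`.
Plan. `M = Λ^c` with `c` the largest exponent of `est`, `estA` (monotonicity of `TI` in `M`), `D` the larger of the constants of `estA`, `estB`; `ε = 1 / (8 C_T M^4)`, `tube` with radius `2 ε`, `σ = t^24`, so `R = r - 2 t^24`; `famAt` with `τ = t^6`, `B = C_T M^4 / t^6 + 16 M`, `P = Λ^C` with `C ≥ 4 c + 5` and `C ≥ 32 C_T`, `C ≥ D`, `C ≥ 2`. -/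

open Metric Set Filter Topology Complex

noncomputable section

namespace Vale.Agent.P272

variable {n : ℕ} {X : Type} [TopologicalSpace X] {A : Atl n X}

theorem stepw_ti {g : Met A} {F : ℂ × E n → X} {r M M' : ℝ} (h : g.TI F r M) (hM : M ≤ M') :
    g.TI F r M' :=
  ⟨h.le, h.one.trans hM, h.bs, fun z hz => (h.sp z hz).trans
    (pow_le_pow_left₀ (zero_le_one.trans h.one) hM 2), fun j z hz hj =>
      ⟨(h.fr j z hz hj).1.trans hM, (h.fr j z hz hj).2.1.trans hM, (h.fr j z hz hj).2.2.trans hM⟩⟩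

theorem Met.stepW [T2Space X] {g : Met A} {C₁ : ℝ} (hB : g.Br C₁) {K : ℝ} (hK : 1 ≤ K) :
    ∃ (C : ℕ) (D : ℝ), 1 ≤ C ∧ 1 ≤ D ∧ ∀ (F : ℂ × E n → X) (r Λ t : ℝ), (C : ℝ) ≤ Λ → 0 < t →
      t * Λ ^ C ≤ 1 → 3 / 4 ≤ r → g.Gd F r Λ (t ^ 24) →
      ∃ W M ε B, g.SW F W r Λ t M ε B K D (Λ ^ C) := by
  obtain ⟨c₁, hc₁, hA⟩ := Met.estA hB hK
  obtain ⟨D₂, hD₂, hE⟩ := Met.estB hB hK
  obtain ⟨c₃, hc₃, hT⟩ := Met.est hB
  obtain ⟨T, hT1, htube⟩ := g.tube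
  have c1 : (1 : ℝ) ≤ c₁ := by exact_mod_cast hc₁
  refine ⟨4 * (c₁ + c₃) + 1 + ⌈c₁ + D₂ + 32 * T⌉₊, c₁ + D₂, by omega, by linarith,
    fun F r Λ t hΛ ht htP hr hG => ?_⟩
  have hΛ' : c₁ + D₂ + 32 * T ≤ Λ := by
    refine (Nat.le_ceil _).trans (le_trans ?_ hΛ)
    exact_mod_cast Nat.le_add_left _ _
  have L2 : 2 ≤ Λ := by linarith
  have L1 : 1 ≤ Λ := by linarith
  obtain ⟨M, hM⟩ : ∃ M, M = Λ ^ (c₁ + c₃) := ⟨_, rfl⟩
  obtain ⟨P, hP⟩ : ∃ P, P = Λ ^ (4 * (c₁ + c₃) + 1 + ⌈c₁ + D₂ + 32 * T⌉₊) := ⟨_, rfl⟩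
  rw [← hP] at htP ⊢
  have M1 : Λ ^ c₁ ≤ M := hM ▸ pow_le_pow_right₀ L1 (by omega)
  have M3 : Λ ^ c₃ ≤ M := hM ▸ pow_le_pow_right₀ L1 (by omega)
  have ΛM : Λ ≤ M := (le_self_pow₀ L1 (by omega)).trans M1
  have M0 : 1 ≤ M := L1.trans ΛM
  have M4 : M ≤ M ^ 4 := le_self_pow₀ M0 (by norm_num)
  obtain ⟨H, hH⟩ : ∃ H, H = T * M ^ 4 := ⟨_, rfl⟩
  have MH : M ≤ H := by rw [hH]; nlinarith
  have HP : 32 * H ≤ P := by
    have e1 : Λ * M ^ 4 ≤ P := by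
      rw [hM, hP, ← pow_mul, ← pow_succ']
      exact pow_le_pow_right₀ L1 (by omega)
    rw [hH, ← mul_assoc]
    exact (mul_le_mul_of_nonneg_right (by linarith) (by positivity)).trans e1
  have H0 : 0 < H := by linarith
  have tH : t * H ≤ 1 / 32 := by nlinarith
  have t1 : t ≤ 1 / 32 := by nlinarith
  have tp : ∀ k : ℕ, k ≠ 0 → t ^ k ≤ t := fun k hk => pow_le_of_le_one ht.le (by linarith) hk
  have t24 := tp 24 (by norm_num)
  have t0 : 0 < t ^ 24 := by positivity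
  have t6 : 0 < t ^ 6 := by positivity
  obtain ⟨ε, hε⟩ : ∃ ε, ε = 1 / (8 * H) := ⟨_, rfl⟩
  have e0 : 0 < ε := by rw [hε]; positivity
  have eH : ε * H = 1 / 8 := by rw [hε]; field_simp
  have hti : g.TI F (r - t ^ 24) M := stepw_ti (hT F r Λ _ hG L2 t0) M3
  obtain ⟨W, hW⟩ := htube F _ M (2 * ε) (t ^ 24) hti (by linarith) (by rw [← hH]; linarith) t0
  rw [← hH] at hW
  have e4 : (t ^ 6) ^ 4 = t ^ 24 := by ring
  have hA' := hA F r Λ _ hG L2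
  refine ⟨W, M, ε, H / t ^ 6 + 16 * M, hG, hr, ht, hK, by linarith, by linarith, ΛM, by linarith,
    ?_, ?_, e0, by nlinarith, by nlinarith, hti, fun z i hz => ?_, fun j i s hj => ?_,
    fun z hz => ⟨(hA' z hz).1.1.trans M1, fun ξ => ?_⟩, fun z hz hz' => ?_, fun j z hz hz' hj => ?_⟩
  · linarith [div_pos H0 t6]
  · rw [add_mul, div_mul_cancel₀ _ t6.ne']
    nlinarith [tp 6 (by norm_num)]
  · refine tb_famAt hW (by linarith [hG.le]) (by linarith) H0.le t6 ?_ (by nlinarith) ?_ i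
      (by rw [e4]; linarith) ⟨(A.cov _).choose_spec.1, (A.cov _).choose_spec.2.le⟩
    · rw [e4]
      refine t24.trans (le_of_mul_le_mul_right ?_ H0)
      linarith
    · rw [← pow_mul]
      nlinarith [tp (6 * 3) (by norm_num)]
  · exact tb_cen hW (by linarith) (by linarith) i s hj.1
  · have h1 := (hA' z hz).1.2 ξ
    have h2 : 0 ≤ qf (g.Gr F z) ξ :=
      nonneg_of_mul_nonneg_right ((sq_nonneg _).trans h1) (by positivity)
    exact h1.trans (mul_le_mul_of_nonneg_right M1 h2)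
  · refine ((hA' z hz).2.2 hz').1.trans (mul_le_mul_of_nonneg_right (by linarith) ?_)
    exact add_nonneg t0.le (mul_nonneg (by linarith) (sub_nonneg.2 hz))
  · refine ⟨(((hA' z (by linarith)).2.2 hz').2 j ⟨hj.1, by linarith [hj.2]⟩).trans (by linarith),
      (hE F r Λ _ hG j z (by linarith) (by linarith) hz' hj).trans ?_⟩
    exact mul_le_mul_of_nonneg_right (by linarith) (by linarith)

end Vale.Agent.P272
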