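import Vale.Agent.P272.AH
import Vale.Agent.P272.Lin

/-! P272 InvP (task). Helper names start with `invp_`.
Plan. For fixed `z`, `y ↦ Φ (z, y) - P z y` has derivative of norm `≤ 1 / (2M)` on the convex ball: mean value inequality, `ApproximatesLinearOn` (`surjOn_closedBall_of_nonlinearRightInverse`) or a direct contraction `y ↦ y + V z (u - Φ (z, y))`. `IP.smooth`: `Θ p = (p.1, Φ p)` is `C^1` with invertible real derivative (injective by `app`, finite dimension), injective on the tube by `anti`; near `p₀` the local inverse (`ContDiffAt.toOpenPartialHomeomorph`, `ContDiffAt.to_localInverse`, `eventually_right_inverse`) maps into the open tube, so it agrees with `(p.1, G p)`. `IP.db_le`: chain rule; with `A b = fderiv Φ (0, b)` complex linear, `‖b‖ ≤ 2M ‖A b‖`: `A (db y) = db u - db Φ`. -/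

open Metric Set Filter Topology Complex

noncomputable section

namespace Vale.Agent.P272

variable {n : ℕ}

variable {O : Set ℂ} {y₀ : ℂ → E n} {ε M : ℝ} {Φ : ℂ × E n → E n} {P V : ℂ → L n}

theorem IP.isOpen (h : IP O y₀ ε M Φ P V) : IsOpen (tub O y₀ ε) := by
  have h1 : ContinuousOn (fun p : ℂ × E n => ‖p.2 - y₀ p.1‖) (Prod.fst ⁻¹' O) :=
    (continuousOn_snd.sub (h.cont.comp continuousOn_fst fun _ hp => hp)).norm
  exact h1.isOpen_inter_preimage (h.op.preimage continuous_fst) (isOpen_Iio (a := ε))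

theorem invp_cd (h : IP O y₀ ε M Φ P V) {p : ℂ × E n} (hp : p ∈ tub O y₀ ε) :
    ContDiffAt ℝ 1 Φ p := h.diff.contDiffAt (h.isOpen.mem_nhds hp)

theorem invp_mv (h : IP O y₀ ε M Φ P V) {z : ℂ} {y y' : E n} (h1 : (z, y) ∈ tub O y₀ ε)
    (h2 : (z, y') ∈ tub O y₀ ε) :
    ‖P z (y - y') - (Φ (z, y) - Φ (z, y'))‖ ≤ ‖y - y'‖ / (2 * M) := by
  have hM : 0 < 2 * M := by linarith [h.one]
  have key := (convex_ball (y₀ z) ε).norm_image_sub_le_of_norm_hasFDerivWithin_le (𝕜 := ℝ)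
    (f := fun w => Φ (z, w) - P z w) (C := 1 / (2 * M))
    (f' := fun w => (fderiv ℝ Φ (z, w)).comp (ContinuousLinearMap.inr ℝ ℂ (E n)) -
      (P z).restrictScalars ℝ) (fun w hw => by
      have h3 : (z, w) ∈ tub O y₀ ε := ⟨h1.1, mem_ball_iff_norm.1 hw⟩
      exact ((((invp_cd h h3).differentiableAt one_ne_zero).hasFDerivAt.comp w
        (hasFDerivAt_prodMk_right z w)).sub
          ((P z).restrictScalars ℝ).hasFDerivAt).hasFDerivWithinAt) (fun w hw => by
      have h3 : (z, w) ∈ tub O y₀ ε := ⟨h1.1, mem_ball_iff_norm.1 hw⟩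
      refine ContinuousLinearMap.opNorm_le_bound _ (by positivity) fun b => ?_
      exact (h.app _ h3 b).trans_eq (by ring))
    (mem_ball_iff_norm.2 h1.2) (mem_ball_iff_norm.2 h2.2)
  rw [norm_sub_rev y' y] at key
  refine le_of_eq_of_le ?_ (key.trans_eq (by ring))
  rw [map_sub]
  exact congrArg _ (by abel)

theorem invp_key (h : IP O y₀ ε M Φ P V) {z : ℂ} (hz : z ∈ O) {b c : E n}
    (hb : ‖P z b - c‖ ≤ ‖b‖ / (2 * M)) : ‖b‖ ≤ 2 * M * ‖c‖ := by
  have hM : 0 < M := by linarith [h.one]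
  obtain ⟨h1, -, h2⟩ := h.inv z hz
  have h3 : ‖b‖ ≤ M * ‖P z b‖ := by
    have e : V z (P z b) = b := congrArg (fun T : L n => T b) h1
    calc ‖b‖ = ‖V z (P z b)‖ := by rw [e]
      _ ≤ _ := (V z).le_of_opNorm_le h2 _
  have h4 : ‖P z b‖ ≤ ‖c‖ + ‖b‖ / (2 * M) := by
    have := norm_le_norm_add_norm_sub' (P z b) c
    linarith
  have h5 := mul_le_mul_of_nonneg_left h4 hM.le
  have h6 : M * (‖c‖ + ‖b‖ / (2 * M)) = M * ‖c‖ + ‖b‖ / 2 := by field_simp
  linarith

theorem invp_lo (h : IP O y₀ ε M Φ P V) {p : ℂ × E n} (hp : p ∈ tub O y₀ ε) (b : E n) :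
    ‖b‖ ≤ 2 * M * ‖fderiv ℝ Φ p (0, b)‖ :=
  invp_key h hp.1 ((norm_sub_rev _ _).trans_le (h.app p hp b))

theorem IP.anti (h : IP O y₀ ε M Φ P V) {z : ℂ} {y y' : E n} (h1 : (z, y) ∈ tub O y₀ ε)
    (h2 : (z, y') ∈ tub O y₀ ε) : ‖y - y'‖ ≤ 2 * M * ‖Φ (z, y) - Φ (z, y')‖ := by
  exact invp_key h h1.1 (invp_mv h h1 h2)

theorem IP.surj (h : IP O y₀ ε M Φ P V) {z : ℂ} (hz : z ∈ O) {u : E n} (hu : 2 * M * ‖u‖ < ε) :
    ∃ y, (z, y) ∈ tub O y₀ ε ∧ Φ (z, y) = u := by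
  have hM : 0 < M := by linarith [h.one]
  obtain ⟨h1, h2, h3⟩ := h.inv z hz
  set s := closedBall (y₀ z) (2 * M * ‖u‖) with hs
  have h0 : y₀ z ∈ s := mem_closedBall_self (by positivity)
  have hst : ∀ y ∈ s, (z, y) ∈ tub O y₀ ε := fun y hy =>
    ⟨hz, (mem_closedBall_iff_norm.1 hy).trans_lt hu⟩
  set f : E n → E n := fun y => y + V z (u - Φ (z, y)) with hf
  have hl : ∀ y ∈ s, ∀ y' ∈ s, ‖f y - f y'‖ ≤ ‖y - y'‖ / 2 := fun y hy y' hy' => by
    have e0 : V z (P z (y - y')) = y - y' := congrArg (fun T : L n => T (y - y')) h1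
    have e : f y - f y' = V z (P z (y - y') - (Φ (z, y) - Φ (z, y'))) := by
      rw [map_sub, e0, hf]
      simp only [map_sub]
      abel
    rw [e]
    calc _ ≤ M * ‖P z (y - y') - (Φ (z, y) - Φ (z, y'))‖ := (V z).le_of_opNorm_le h3 _
      _ ≤ M * (‖y - y'‖ / (2 * M)) :=
          mul_le_mul_of_nonneg_left (invp_mv h (hst y hy) (hst y' hy')) hM.le
      _ = _ := by field_simp
  have hm : MapsTo f s s := fun y hy => by
    have e : f y - y₀ z = f y - f (y₀ z) + V z u := by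
      simp only [hf, h.zero z hz, sub_zero]
      abel
    have h4 := hl y hy _ h0
    have h5 := (V z).le_of_opNorm_le h3 u
    have h6 := mem_closedBall_iff_norm.1 hy
    rw [hs, mem_closedBall_iff_norm, e]
    exact (norm_add_le _ _).trans (by linarith)
  have hc : ContractingWith (1 / 2) (hm.restrict f s s) := by
    refine ⟨by norm_num, LipschitzWith.of_dist_le_mul fun y y' => ?_⟩
    have := hl y y.2 y' y'.2
    rw [Subtype.dist_eq, Subtype.dist_eq y, dist_eq_norm, dist_eq_norm]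
    refine this.trans_eq ?_
    push_cast
    ring
  obtain ⟨y, hy, hfix, -⟩ := hc.exists_fixedPoint' isClosed_closedBall.isComplete hm h0
    (edist_ne_top _ _)
  refine ⟨y, hst y hy, ?_⟩
  have e1 : V z (u - Φ (z, y)) = 0 := add_eq_left.1 hfix
  have e2 : P z (V z (u - Φ (z, y))) = u - Φ (z, y) :=
    congrArg (fun T : L n => T (u - Φ (z, y))) h2
  rw [e1, map_zero] at e2
  exact (sub_eq_zero.1 e2.symm).symm

theorem IP.smooth (h : IP O y₀ ε M Φ P V) {G : ℂ × E n → E n} {T : Set (ℂ × E n)} (hT : IsOpen T)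
    (hG : ∀ p ∈ T, (p.1, G p) ∈ tub O y₀ ε ∧ Φ (p.1, G p) = p.2) : ContDiffOn ℝ 1 G T := by
  intro p hp
  obtain ⟨h1, h2⟩ := hG p hp
  have hc := invp_cd h h1
  set q : ℂ × E n := (p.1, G p) with hq
  set D : ℂ × E n →L[ℝ] ℂ × E n :=
    (ContinuousLinearMap.fst ℝ ℂ (E n)).prod (fderiv ℝ Φ q) with hD
  have hi : Function.Injective (D : ℂ × E n →ₗ[ℝ] ℂ × E n) := by
    refine (injective_iff_map_eq_zero _).2 fun v hv => ?_
    obtain ⟨a, b⟩ := v
    have e1 : a = 0 := congrArg Prod.fst hv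
    have e2 : fderiv ℝ Φ q (a, b) = 0 := congrArg Prod.snd hv
    have h3 := invp_lo h h1 b
    rw [e1] at e2
    rw [e2, norm_zero, mul_zero] at h3
    rw [e1, norm_le_zero_iff.1 h3]
    rfl
  set D' := (LinearEquiv.ofInjectiveEndo _ hi).toContinuousLinearEquiv with hD'
  have hΘ : ContDiffAt ℝ 1 (fun r : ℂ × E n => (r.1, Φ r)) q := contDiffAt_fst.prodMk hc
  have hΘ' : HasFDerivAt (fun r : ℂ × E n => (r.1, Φ r)) (D' : ℂ × E n →L[ℝ] ℂ × E n) q :=
    hasFDerivAt_fst.prodMk (hc.differentiableAt one_ne_zero).hasFDerivAt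
  have h3 := hΘ.to_localInverse hΘ' one_ne_zero
  have h4 := (hΘ.toOpenPartialHomeomorph _ hΘ' one_ne_zero).eventually_right_inverse'
    (hΘ.mem_toOpenPartialHomeomorph_source hΘ' one_ne_zero)
  have h5 := hΘ.localInverse_apply_image hΘ' one_ne_zero
  have e : (q.1, Φ q) = p := Prod.ext rfl h2
  have h4' : ∀ᶠ r in 𝓝 (q.1, Φ q), ((hΘ.localInverse hΘ' one_ne_zero r).1,
    Φ (hΘ.localInverse hΘ' one_ne_zero r)) = r := h4
  beta_reduce at h3 h5
  rw [e] at h3 h4' h5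
  set R := hΘ.localInverse hΘ' one_ne_zero with hR
  have h6 : ∀ᶠ r in 𝓝 p, R r ∈ tub O y₀ ε :=
    h3.continuousAt.eventually (h.isOpen.mem_nhds (h5.symm ▸ h1))
  refine ((contDiffAt_snd.comp p h3).congr_of_eventuallyEq ?_).contDiffWithinAt
  filter_upwards [h4', h6, hT.mem_nhds hp] with r a1 a2 a3
  obtain ⟨b1, b2⟩ := hG r a3
  have c1 : (R r).1 = r.1 := (Prod.ext_iff.1 a1).1
  have c2 : Φ (R r) = r.2 := congrArg Prod.snd a1
  have c3 : R r = (r.1, (R r).2) := Prod.ext c1 rfl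
  rw [c3] at a2 c2
  have c4 := h.anti b1 a2
  rw [b2, c2, sub_self, norm_zero, mul_zero] at c4
  exact sub_eq_zero.1 (norm_le_zero_iff.1 c4)

theorem IP.db_le (h : IP O y₀ ε M Φ P V) {y u : ℂ × E n → E n} {p : ℂ × E n}
    (hy : DifferentiableAt ℝ y p) (hu : DifferentiableAt ℝ u p) (hp : (p.1, y p) ∈ tub O y₀ ε)
    (he : ∀ᶠ q in 𝓝 p, Φ (q.1, y q) = u q) (hl : Lin u p) :
    Lin y p ∧ ‖db y p‖ ≤ 2 * M * ‖db u p - db Φ (p.1, y p)‖ := by
  have h1 := ((invp_cd h hp).differentiableAt one_ne_zero).hasFDerivAt.comp p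
    (hasFDerivAt_fst.prodMk hy.hasFDerivAt)
  have h2 := (h1.congr_of_eventuallyEq (EventuallyEq.symm he)).unique hu.hasFDerivAt
  set D := fderiv ℝ Φ (p.1, y p) with hD
  have e : ∀ a b, fderiv ℝ u p (a, b) = D (a, 0) + D (0, fderiv ℝ y p (a, b)) := fun a b => by
    rw [← h2, ← map_add, Prod.mk_add_mk, add_zero, zero_add]
    rfl
  have hI : ∀ b, D (0, I • b) = I • D (0, b) := h.lin _ hp
  have hs : ∀ b b', D (0, b + b') = D (0, b) + D (0, b') := fun b b' => by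
    rw [← map_add, Prod.mk_add_mk, add_zero]
  have h0 : D (0, 0) = 0 := map_zero D
  refine ⟨fun b => ?_, ?_⟩
  · have h3 := hl b
    rw [e, e, h0, zero_add, zero_add, ← hI] at h3
    have h4 := invp_lo h hp (fderiv ℝ y p (0, I • b) - I • fderiv ℝ y p (0, b))
    have h5 := hs (fderiv ℝ y p (0, I • b) - I • fderiv ℝ y p (0, b)) (I • fderiv ℝ y p (0, b))
    rw [sub_add_cancel, h3] at h5
    rw [← hD, right_eq_add.1 h5, norm_zero, mul_zero] at h4
    exact sub_eq_zero.1 (norm_le_zero_iff.1 h4)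
  · have h3 : db u p - db Φ (p.1, y p) = D (0, db y p) := by
      rw [db, db, db, ← hD, e, e, hs, hI, smul_add]
      abel
    rw [h3]
    exact invp_lo h hp _

end Vale.Agent.P272
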