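import Vale.Agent.P272.KapB
import Vale.Agent.P272.InvP

/-! P272 GQ (task). Helper names start with `gq_`.
Plan. For `‖z‖ < r`, `‖u‖ < δ` choose `y` by `IP.surj` in the chart `k₀ = ch (F (z, 0))`, `G (z, u) = (e k₀).symm y`, `‖y - y₀‖ ≤ 2 M ‖u‖` (`IP.anti`, `zero`). In another chart `k`: `trans` puts `(z, e k (G p))` in the tube, `Kc k (z, e k (G p)) = u` (`left_inv`), `anti` again. `IP.smooth`, `IP.db_le` with `u = Prod.snd` (gives `Lin`), and near `p`, `Qf p.1 (G p) = Qc k (p.1, e k (G p))`; chain rule. -/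

open Metric Set Filter Topology Complex

noncomputable section

namespace Vale.Agent.P272

variable {n : ℕ} {X : Type} [TopologicalSpace X] {A : Atl n X}

theorem gq_dom {F : ℂ × E n → X} {r : ℝ} {z : ℂ} (hz : ‖z‖ < r) :
    z ∈ A.dom (ctr F) r (A.ch (F (z, 0))) :=
  ⟨hz, (Atl.ch_in (F (z, 0))).1, (Atl.ch_in (F (z, 0))).2.trans (by norm_num)⟩

theorem gq_anti {O : Set ℂ} {y₀ : ℂ → E n} {ε M : ℝ} {Φ : ℂ × E n → E n} {P V : ℂ → L n}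
    (h : IP O y₀ ε M Φ P V) {z : ℂ} {y : E n} (h1 : (z, y) ∈ tub O y₀ ε) :
    ‖y - y₀ z‖ ≤ 2 * M * ‖Φ (z, y)‖ := by
  have h2 : (z, y₀ z) ∈ tub O y₀ ε := by
    refine ⟨h1.1, ?_⟩
    rw [sub_self, norm_zero]
    exact (norm_nonneg _).trans_lt h1.2
  have h3 := h.anti h1 h2
  rwa [h.zero z h1.1, sub_zero] at h3

theorem gq_ex [T2Space X] (g : Met A) {F : ℂ × E n → X} {r M ε δ B : ℝ} {χ : Fin A.N → ℂ → ℝ}
    (h : g.TI F r M) (hK : A.KP χ F r ε M B) (hε : g.C ^ 2 * ε ≤ 1)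
    (hδ : 2 * g.C ^ 2 * M * δ ≤ ε) (p : ℂ × E n) : ∃ w : X, ‖p.1‖ < r → ‖p.2‖ < δ →
      A.Kf χ F p.1 w = p.2 ∧ ∀ k, p.1 ∈ A.dom (ctr F) r k →
        w ∈ (A.e k).source ∧ (p.1, A.e k w) ∈ A.tk F r ε k := by
  by_cases hp : ‖p.1‖ < r ∧ ‖p.2‖ < δ
  swap
  · exact ⟨F p, fun h1 h2 => absurd ⟨h1, h2⟩ hp⟩
  obtain ⟨z, u⟩ := p
  obtain ⟨hz, hu⟩ : ‖z‖ < r ∧ ‖u‖ < δ := hp
  have hC : 1 ≤ g.C ^ 2 := one_le_pow₀ g.one
  have hM := h.one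
  have h0 := norm_nonneg u
  have h1 : g.C ^ 2 * (2 * M * ‖u‖) < ε := by
    refine lt_of_lt_of_le ?_ hδ
    calc g.C ^ 2 * (2 * M * ‖u‖) = 2 * g.C ^ 2 * M * ‖u‖ := by ring
      _ < _ := mul_lt_mul_of_pos_left hu (by positivity)
  have h2 : 0 ≤ 2 * M * ‖u‖ := by positivity
  have h3 : 2 * M * ‖u‖ < ε := lt_of_le_of_lt (le_mul_of_one_le_left h2 hC) h1
  have h4 : ε ≤ 1 := (le_mul_of_one_le_left (h2.trans h3.le) hC).trans hε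
  have hd := gq_dom (A := A) (F := F) hz
  obtain ⟨y, hy, he⟩ := (hK.ip _).surj hd h3
  have h5 := gq_anti (hK.ip _) hy
  rw [he] at h5
  have h6 : g.C ^ 2 * ‖y - A.e (A.ch (F (z, 0))) (F (z, 0))‖ < ε :=
    lt_of_le_of_lt (mul_le_mul_of_nonneg_left h5 (by positivity)) h1
  refine ⟨(A.e (A.ch (F (z, 0)))).symm y, fun _ _ => ⟨he, fun k hk => ?_⟩⟩
  obtain ⟨-, t2, t3⟩ := g.trans (j := k) (x := F (z, 0)) ⟨hk.2.1, hk.2.2.le⟩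
    (Atl.in_ch _ (by norm_num)) (h6.trans_le h4)
  rw [add_sub_cancel] at t2 t3
  exact ⟨t2, hk, t3.trans_lt h6⟩

theorem gq_lin {Q y : ℂ × E n → E n} {p : ℂ × E n} (hQ : DifferentiableAt ℝ Q (p.1, y p))
    (hy : DifferentiableAt ℝ y p) (h1 : Lin Q (p.1, y p)) (h2 : Lin y p) :
    Lin (fun q => Q (q.1, y q)) p := by
  have h3 : HasFDerivAt (fun q : ℂ × E n => Q (q.1, y q)) _ p :=
    hQ.hasFDerivAt.comp p (hasFDerivAt_fst.prodMk hy.hasFDerivAt)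
  intro b
  rw [h3.fderiv]
  change fderiv ℝ Q (p.1, y p) (0, fderiv ℝ y p (0, I • b)) =
    I • fderiv ℝ Q (p.1, y p) (0, fderiv ℝ y p (0, b))
  rw [h2 b, h1]

theorem Met.gq [T2Space X] (g : Met A) {F : ℂ × E n → X} {r M ε δ B : ℝ} {χ : Fin A.N → ℂ → ℝ}
    (h : g.TI F r M) (hK : A.KP χ F r ε M B) (hB : 0 ≤ B) (hε : g.C ^ 2 * ε ≤ 1)
    (hδ : 2 * g.C ^ 2 * M * δ ≤ ε) : ∃ G, A.GQ χ F G r δ M B := by
  choose G hG using gq_ex g h hK hε hδ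
  have hT : ∀ k, IsOpen (A.dom (ctr F) r k ×ˢ ball (0 : E n) δ) := fun k =>
    (hK.ip k).op.prod isOpen_ball
  have h1 : ∀ k (p : ℂ × E n), p.1 ∈ A.dom (ctr F) r k → ‖p.2‖ < δ →
      G p ∈ (A.e k).source ∧ (p.1, A.e k (G p)) ∈ A.tk F r ε k ∧
        A.Kc χ F k (p.1, A.e k (G p)) = p.2 ∧
        A.Qf χ F p.1 (G p) = A.Qc χ F k (p.1, A.e k (G p)) := by
    intro k p hp hu
    obtain ⟨a1, a2⟩ := hG p hp.1 hu
    obtain ⟨a3, a4⟩ := a2 k hp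
    refine ⟨a3, a4, ?_, ?_⟩
    · rw [Atl.Kc, (A.e k).left_inv a3, a1]
    · rw [Atl.Qc, (A.e k).left_inv a3]
  have h2 : ∀ k (p : ℂ × E n), p.1 ∈ A.dom (ctr F) r k → ‖p.2‖ < δ →
      ‖A.e k (G p) - A.e k (F (p.1, 0))‖ ≤ 2 * M * ‖p.2‖ := by
    intro k p hp hu
    obtain ⟨-, a2, a3, -⟩ := h1 k p hp hu
    have a4 := gq_anti (hK.ip k) a2
    rwa [a3] at a4
  have h3 : ∀ k, ContDiffOn ℝ 1 (A.e k ∘ G) (A.dom (ctr F) r k ×ˢ ball 0 δ) := fun k =>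
    (hK.ip k).smooth (hT k) fun p hp =>
      ⟨(h1 k p hp.1 (mem_ball_zero_iff.1 hp.2)).2.1, (h1 k p hp.1 (mem_ball_zero_iff.1 hp.2)).2.2.1⟩
  have h4 : ∀ p : ℂ × E n, ‖p.1‖ < r → ‖p.2‖ < δ →
      A.dom (ctr F) r (A.ch (F (p.1, 0))) ×ˢ ball (0 : E n) δ ∈ 𝓝 p := fun p hz hu =>
    (hT _).mem_nhds ⟨gq_dom hz, mem_ball_zero_iff.2 hu⟩
  have h5 : ∀ p : ℂ × E n, ‖p.1‖ < r → ‖p.2‖ < δ → (fun q => A.Qf χ F q.1 (G q)) =ᶠ[𝓝 p]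
      fun q => A.Qc χ F (A.ch (F (p.1, 0))) (q.1, (A.e (A.ch (F (p.1, 0))) ∘ G) q) := by
    intro p hz hu
    filter_upwards [h4 p hz hu] with q hq
    exact (h1 _ q hq.1 (mem_ball_zero_iff.1 hq.2)).2.2.2
  have h6 : ∀ p : ℂ × E n, ‖p.1‖ < r → ‖p.2‖ < δ → ContDiffAt ℝ 1
      (A.Qc χ F (A.ch (F (p.1, 0)))) (p.1, (A.e (A.ch (F (p.1, 0))) ∘ G) p) := fun p hz hu =>
    (hK.diff _).contDiffAt ((hK.ip _).isOpen.mem_nhds (h1 _ p (gq_dom hz) hu).2.1)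
  refine ⟨G, fun p hz hu => (hG p hz hu).1, fun k p hp hu => ⟨(h1 k p hp hu).1, h2 k p hp hu⟩, h3,
    fun p hp => ?_, fun p hz hu => ⟨?_, ?_⟩⟩
  · have hz := mem_ball_zero_iff.1 hp.1
    have hu := mem_ball_zero_iff.1 hp.2
    exact (((h6 p hz hu).comp p (contDiffAt_fst.prodMk
      ((h3 _).contDiffAt (h4 p hz hu)))).congr_of_eventuallyEq (h5 p hz hu)).contDiffWithinAt
  · have hy := ((h3 _).contDiffAt (h4 p hz hu)).differentiableAt one_ne_zero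
    have ht := (h1 _ p (gq_dom hz) hu).2.1
    have hl := ((hK.ip _).db_le (u := Prod.snd) hy differentiableAt_snd ht (by
      filter_upwards [h4 p hz hu] with q hq
      exact (h1 _ q hq.1 (mem_ball_zero_iff.1 hq.2)).2.2.1) (fun b => by simp [fderiv_snd])).1
    have hq := gq_lin ((h6 p hz hu).differentiableAt one_ne_zero) hy (hK.lin _ _ ht) hl
    intro b
    rw [(h5 p hz hu).fderiv_eq]
    exact hq b
  · obtain ⟨-, a2, -, a4⟩ := h1 _ p (gq_dom hz) hu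
    rw [a4]
    refine (hK.le _ _ a2).trans ?_
    calc _ ≤ B * M ^ 2 * (2 * M * ‖p.2‖) ^ 2 := mul_le_mul_of_nonneg_left
          (pow_le_pow_left₀ (norm_nonneg _) (h2 _ p (gq_dom hz) hu) 2) (by positivity)
      _ = _ := by ring

end Vale.Agent.P272
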