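import Vale.Agent.P272.Defs

/-! P272 Game1 (task). Helper names start with `game1_`.
Plan (one epoch, `N` steps of time `t^16`). Net `S` = points `(a + b i) / m`, `|a|, |b| ≤ m`, `m = ⌈100 / t^25⌉`; `card S ≤ (203 / t^25)^2`; every `w` with `‖w‖ ≤ r` has a net point `z` with `‖z‖ ≤ r`, `‖z - w‖ ≤ 12 / m` (round `w (1 - 8 / m)` if `‖w‖ ≥ 1 / 4`, round `w` otherwise).
`Pen σ = ∑_{z ∈ S, r₀ - (K+1)/Λ ≤ ‖z‖ ≤ rad σ} exp (p (X σ z / Λ^2 - 1 / 2))`, `r₀` the initial radius, `Φ σ s = a σ + β (1/4 - s) / ν * (J σ + 2 s)`, `D = 1 + C p^2 t^16`. Induction on `i ≤ N`: there is a state with `T (t^24)` (and `T (t^25)` if `0 < i`), `rad ≥ r₀ - 4 i t^24`, `X ≤ Λ^2`, and `Φ σ (s + i t^16) - Pen σ * D^(N - i) ≥ Φ σ₀ s - Pen σ₀ * D^N + i t^16 β / 2` (choose `k` above the average, `Finset.exists_le_of_sum_le`; the averages of `Φ` gain `t^16 β (1 - 2 s / ν) ≥ t^16 β / 2`; use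 `step (K + 2)`). `Pen σ₀ * D^N ≤ card S * exp (-p / 4) * exp (p / 8) ≤ 1 / Λ`. For the new state `Φ ≤ H + β (Λ^C + 1)`: the averaged inequality is used with the bound of `J` of the new state replaced as follows: prove `X ≤ Λ^2` for the new state by contradiction from `Pen ≤ Φ + 2`, where `J (σ' k) ≤ (2 Λ)^C'` is not available, so the hypothesis `hJ` below supplies it. Net points have `X < 7/8 Λ^2`, deep points (`‖w‖ < r₀ - K / Λ`) use `hX` with `K^2 ≥ 4 C₁`, and `4 N t^24 ≤ 1 / Λ`. -/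

open Metric Set Filter Topology Complex

noncomputable section

namespace Vale.Agent.P272

variable {n : ℕ}

theorem game1_round (x : ℝ) : ∃ a : ℤ, |(a : ℝ)| ≤ |x| ∧ |(a : ℝ) - x| ≤ 1 := by
  rcases le_total 0 x with h | h
  · have h1 : (0 : ℝ) ≤ (⌊x⌋ : ℤ) := by exact_mod_cast Int.floor_nonneg.2 h
    have h2 := Int.floor_le x
    have h3 := Int.lt_floor_add_one x
    refine ⟨⌊x⌋, by rwa [abs_of_nonneg h, abs_of_nonneg h1], abs_le.2 ⟨?_, ?_⟩⟩ <;> linarith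
  · have h1 : ((⌈x⌉ : ℤ) : ℝ) ≤ 0 := by exact_mod_cast Int.ceil_le.2 (by exact_mod_cast h)
    have h2 := Int.le_ceil x
    have h3 := Int.ceil_lt_add_one x
    refine ⟨⌈x⌉, ?_, abs_le.2 ⟨?_, ?_⟩⟩
    · rw [abs_of_nonpos h, abs_of_nonpos h1]
      linarith
    · linarith
    · linarith

theorem game1_round' {m : ℕ} (hm : (0 : ℝ) < m) {x : ℝ} (hx : |x| ≤ 1) :
    ∃ a ∈ Finset.Icc (-(m : ℤ)) m, |(a : ℝ) / m| ≤ |x| ∧ |(a : ℝ) / m - x| ≤ 1 / m := by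
  obtain ⟨a, h1, h2⟩ := game1_round (m * x)
  rw [abs_mul, abs_of_pos hm] at h1
  refine ⟨a, ?_, ?_, ?_⟩
  · have h3 : |(a : ℝ)| ≤ m := h1.trans (mul_le_of_le_one_right hm.le hx)
    have h4 : |a| ≤ (m : ℤ) := by exact_mod_cast h3
    exact Finset.mem_Icc.2 (abs_le.1 h4)
  · rw [abs_div, abs_of_pos hm, div_le_iff₀ hm, mul_comm]
    exact h1
  · have e : (a : ℝ) / m - x = (a - m * x) / m := by field_simp
    rw [e, abs_div, abs_of_pos hm]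
    exact div_le_div_of_nonneg_right h2 hm.le

theorem game1_net {ε : ℝ} (h0 : 0 < ε) (h1 : ε ≤ 1) :
    ∃ S : Finset ℂ, (S.card : ℝ) ≤ (203 / ε) ^ 2 ∧
      ∀ w : ℂ, ‖w‖ ≤ 1 → ∃ z ∈ S, ‖z‖ ≤ ‖w‖ ∧ ‖z - w‖ ≤ ε / 4 := by
  classical
  obtain ⟨m, hm1, hm2⟩ : ∃ m : ℕ, 100 / ε ≤ m ∧ (m : ℝ) < 100 / ε + 1 :=
    ⟨⌈100 / ε⌉₊, Nat.le_ceil _, Nat.ceil_lt_add_one (by positivity)⟩
  have hm : (0 : ℝ) < m := lt_of_lt_of_le (by positivity) hm1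
  refine ⟨(Finset.Icc (-(m : ℤ)) m ×ˢ Finset.Icc (-(m : ℤ)) m).image
    fun x => (⟨x.1 / m, x.2 / m⟩ : ℂ), ?_, fun w hw => ?_⟩
  · have h2 : (Finset.Icc (-(m : ℤ)) m).card = 2 * m + 1 := by
      rw [Int.card_Icc]
      omega
    have h3 := Finset.card_image_le (s := Finset.Icc (-(m : ℤ)) m ×ˢ Finset.Icc (-(m : ℤ)) m)
      (f := fun x => (⟨x.1 / m, x.2 / m⟩ : ℂ))
    rw [Finset.card_product, h2, ← sq] at h3
    have h4 : 1 ≤ 1 / ε := one_le_one_div h0 h1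
    have h5 : (2 * m + 1 : ℝ) ≤ 203 / ε := by linear_combination 2 * hm2.le + 3 * h4
    exact le_trans (by exact_mod_cast h3) (pow_le_pow_left₀ (by positivity) h5 2)
  · obtain ⟨a, ha, ha1, ha2⟩ := game1_round' hm ((abs_re_le_norm w).trans hw)
    obtain ⟨b, hb, hb1, hb2⟩ := game1_round' hm ((abs_im_le_norm w).trans hw)
    refine ⟨⟨a / m, b / m⟩, Finset.mem_image.2 ⟨(a, b), Finset.mk_mem_product ha hb, rfl⟩, ?_, ?_⟩
    · refine le_of_pow_le_pow_left₀ two_ne_zero (norm_nonneg w) ?_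
      rw [Complex.sq_norm, Complex.sq_norm, normSq_apply, normSq_apply]
      have h2 := sq_le_sq.2 ha1
      have h3 := sq_le_sq.2 hb1
      linear_combination h2 + h3
    · refine (norm_le_abs_re_add_abs_im _).trans ?_
      have h2 : 1 / (m : ℝ) ≤ ε / 100 := by
        rw [div_le_div_iff₀ hm (by norm_num)]
        rw [div_le_iff₀ h0] at hm1
        linarith
      simp only [sub_re, sub_im]
      linarith

section

variable {St κ : Type} [Fintype κ] (G : Game St κ)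

/-- The penalty. -/
def game1_pen (S : Finset ℂ) (ρ p Λ : ℝ) (σ : St) : ℝ :=
  ∑ z ∈ S.filter fun z => ρ ≤ ‖z‖ ∧ ‖z‖ ≤ G.rad σ, Real.exp (p * G.X σ z / Λ ^ 2)

/-- The potential. -/
def game1_phi (σ : St) (s : ℝ) : ℝ := G.a σ + G.β * (1 / 4 - s) / G.ν * (G.J σ + 2 * s)

theorem game1_pen_nn (S : Finset ℂ) (ρ p Λ : ℝ) (σ : St) : 0 ≤ game1_pen G S ρ p Λ σ :=
  Finset.sum_nonneg fun _ _ => (Real.exp_pos _).le

theorem game1_pen_sum (S : Finset ℂ) {ρ p Λ r D : ℝ} {σ : St} {σ' : κ → St}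
    (h1 : ∀ k, G.rad (σ' k) = r) (h2 : r ≤ G.rad σ) (hD : 0 ≤ D)
    (h3 : ∀ z : ℂ, ‖z‖ ≤ r → ρ ≤ ‖z‖ → ∑ k, Real.exp (p * G.X (σ' k) z / Λ ^ 2) ≤
      Fintype.card κ * (Real.exp (p * G.X σ z / Λ ^ 2) * D)) :
    ∑ k, game1_pen G S ρ p Λ (σ' k) ≤ Fintype.card κ * (game1_pen G S ρ p Λ σ * D) := by
  simp only [game1_pen, h1]
  rw [Finset.sum_comm, Finset.sum_mul, Finset.mul_sum]
  refine (Finset.sum_le_sum fun z hz => h3 z (Finset.mem_filter.1 hz).2.2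
    (Finset.mem_filter.1 hz).2.1).trans (Finset.sum_le_sum_of_subset_of_nonneg (fun z hz => ?_)
      fun z _ _ => by positivity)
  rw [Finset.mem_filter] at hz ⊢
  exact ⟨hz.1, hz.2.1, hz.2.2.trans h2⟩

theorem game1_avg {σ : St} {σ' : κ → St} {s τ : ℝ} (hs : 0 ≤ s) (hτ : 0 ≤ τ) (h1 : s + τ ≤ 1 / 4)
    (h2 : Fintype.card κ * (G.a σ + τ * G.β * (1 + G.J σ / G.ν)) ≤ ∑ k, G.a (σ' k))
    (h3 : Fintype.card κ * (G.J σ - 2 * τ) ≤ ∑ k, G.J (σ' k)) :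
    Fintype.card κ * (game1_phi G σ s + τ * G.β / 2) ≤ ∑ k, game1_phi G (σ' k) (s + τ) := by
  have hβ := G.hβ
  have hν : 0 < G.ν := lt_of_lt_of_le one_pos G.hν
  have h4 : 0 ≤ G.β * (1 / 4 - (s + τ)) / G.ν :=
    div_nonneg (mul_nonneg hβ.le (sub_nonneg.2 h1)) hν.le
  have h5 := mul_le_mul_of_nonneg_left h3 h4
  have h6 : s / G.ν ≤ 1 / 4 := (div_le_self hs G.hν).trans (by linarith)
  have h7 : (0 : ℝ) ≤ Fintype.card κ * (τ * G.β) := by positivity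
  have h8 := mul_le_mul_of_nonneg_left h6 h7
  simp only [game1_phi, Finset.sum_add_distrib, ← Finset.mul_sum, Finset.sum_const,
    Finset.card_univ, nsmul_eq_mul]
  linear_combination h2 + h5 + 2 * h8

theorem game1_phi_le {σ : St} {η s B : ℝ} (hT : G.T σ η) (hr : 1 / 2 ≤ G.rad σ) (hs : 0 ≤ s)
    (h1 : s ≤ 1 / 4) (hB : 0 ≤ B) (hJ : G.J σ ≤ B) : game1_phi G σ s ≤ G.H + G.β * (B + 1) := by
  have hβ := G.hβ
  have hν : 0 < G.ν := lt_of_lt_of_le one_pos G.hν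
  have h2 : 0 ≤ G.β * (1 / 4 - s) := mul_nonneg hβ.le (sub_nonneg.2 h1)
  have h3 : G.β * (1 / 4 - s) / G.ν ≤ G.β :=
    (div_le_self h2 G.hν).trans (mul_le_of_le_one_right hβ.le (by linarith))
  have h4 : G.β * (1 / 4 - s) / G.ν * (G.J σ + 2 * s) ≤ G.β * (1 / 4 - s) / G.ν * (B + 1) :=
    mul_le_mul_of_nonneg_left (by linarith) (div_nonneg h2 hν.le)
  have h5 := mul_le_mul_of_nonneg_right h3 (by linarith : 0 ≤ B + 1)
  have h6 := (G.ha σ η hT hr).2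
  unfold game1_phi
  linarith

theorem game1_X {S : Finset ℂ} {ε K Λ p r₀ η : ℝ} {σ : St} (hε : 0 < ε) (hε1 : ε ≤ 1 / Λ)
    (hS : ∀ w : ℂ, ‖w‖ ≤ 1 → ∃ z ∈ S, ‖z‖ ≤ ‖w‖ ∧ ‖z - w‖ ≤ ε / 4) (hK : 2 ≤ K)
    (hK1 : 4 * G.C₁ ≤ K ^ 2) (hΛ : 1 ≤ Λ) (hp : 1 ≤ p) (hT : G.T σ η)
    (hr : r₀ - 1 / Λ ≤ G.rad σ) (hr1 : G.rad σ ≤ 1)
    (hL : ∀ z w, ‖z‖ ≤ G.rad σ → ‖w‖ ≤ G.rad σ → G.X σ w ≤ G.X σ z + ‖z - w‖ / ε)
    (hP : game1_pen G S (r₀ - (K + 1) / Λ) p Λ σ < Real.exp (5 / 8 * p)) (w : ℂ)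
    (hw : ‖w‖ ≤ G.rad σ) : G.X σ w ≤ Λ ^ 2 := by
  have hΛ0 : 0 < Λ := lt_of_lt_of_le one_pos hΛ
  have hu : 0 < 1 / Λ := by positivity
  rcases lt_or_ge ‖w‖ (r₀ - K / Λ) with h | h
  · have h1 : K / 2 * (1 / Λ) ≤ (K - 1) * (1 / Λ) :=
      mul_le_mul_of_nonneg_right (by linarith) hu.le
    have h2 : K / 2 * (1 / Λ) ≤ G.rad σ - ‖w‖ := by linear_combination h1 + hr + h.le
    have h3 : 0 < K / 2 * (1 / Λ) := by positivity
    have h4 : 0 < G.rad σ - ‖w‖ := h3.trans_le h2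
    refine (G.hX σ η w hT (sub_pos.1 h4)).trans ?_
    rw [div_le_iff₀ (by positivity)]
    have h5 := mul_le_mul_of_nonneg_left (pow_le_pow_left₀ h3.le h2 2) (sq_nonneg Λ)
    have e : Λ ^ 2 * (K / 2 * (1 / Λ)) ^ 2 = K ^ 2 / 4 := by
      field_simp
      norm_num
    linarith
  · obtain ⟨z, hz, h1, h2⟩ := hS w (hw.trans hr1)
    have h3 : ‖w‖ - ‖z‖ ≤ ‖z - w‖ := by
      rw [norm_sub_rev]
      exact norm_sub_norm_le w z
    have h4 : r₀ - (K + 1) / Λ ≤ ‖z‖ := by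
      linear_combination h + h3 + h2 + hε1 + 3 / 4 * hε.le
    have h5 : Real.exp (p * G.X σ z / Λ ^ 2) ≤ game1_pen G S (r₀ - (K + 1) / Λ) p Λ σ :=
      Finset.single_le_sum (f := fun z => Real.exp (p * G.X σ z / Λ ^ 2))
        (fun _ _ => (Real.exp_pos _).le) (Finset.mem_filter.2 ⟨hz, h4, h1.trans hw⟩)
    have h6 := Real.exp_lt_exp.1 (h5.trans_lt hP)
    rw [div_lt_iff₀ (by positivity)] at h6
    have h7 : G.X σ z < 5 / 8 * Λ ^ 2 :=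
      lt_of_mul_lt_mul_left (a := p) (by linear_combination h6) (by linarith)
    have h8 : ‖z - w‖ / ε ≤ 1 / 4 := by
      rw [div_le_iff₀ hε]
      linarith
    have h9 := hL z w (h1.trans hw) hw
    have h10 : 1 ≤ Λ ^ 2 := one_le_pow₀ hΛ
    linarith

theorem game1_base {S : Finset ℂ} {c ρ Λ p x : ℝ} {N : ℕ} {σ : St} (hS : (S.card : ℝ) ≤ c)
    (hΛ : 1 ≤ Λ) (hp : 1 ≤ p) (hc : c * Λ ≤ Real.exp (p / 8)) (hx : 0 ≤ x) (hN : N * x ≤ p / 8)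
    (hX : ∀ z, ‖z‖ ≤ G.rad σ → G.X σ z ≤ Λ ^ 2 / 4) :
    Real.exp (-(p / 2)) * game1_pen G S ρ p Λ σ * (1 + x) ^ N ≤ 1 / Λ := by
  have hΛ0 : 0 < Λ := lt_of_lt_of_le one_pos hΛ
  have h1 : game1_pen G S ρ p Λ σ ≤ c * Real.exp (p / 4) := by
    refine (Finset.sum_le_card_nsmul _ _ (Real.exp (p / 4)) fun z hz => ?_).trans ?_
    · refine Real.exp_le_exp.2 ?_
      rw [div_le_iff₀ (by positivity)]
      have h2 := mul_le_mul_of_nonneg_left (hX z (Finset.mem_filter.1 hz).2.2)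
        (by linarith : 0 ≤ p)
      linear_combination h2
    · rw [nsmul_eq_mul]
      refine mul_le_mul_of_nonneg_right (le_trans ?_ hS) (Real.exp_pos _).le
      exact_mod_cast Finset.card_filter_le _ _
  have h2 : (1 + x) ^ N ≤ Real.exp (p / 8) := by
    have h3 : 1 + x ≤ Real.exp x := by linarith [Real.add_one_le_exp x]
    refine (pow_le_pow_left₀ (by linarith) h3 N).trans ?_
    rw [← Real.exp_nat_mul]
    exact Real.exp_le_exp.2 hN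
  have h3 : 0 ≤ c := (Nat.cast_nonneg _).trans hS
  have h4 : Real.exp (-(p / 2)) * Real.exp (p / 4) * Real.exp (p / 8) * Real.exp (p / 8) = 1 := by
    rw [← Real.exp_add, ← Real.exp_add, ← Real.exp_add, ← Real.exp_zero]
    exact congrArg Real.exp (by ring)
  have h5 : Real.exp (-(p / 2)) * game1_pen G S ρ p Λ σ * (1 + x) ^ N ≤
      Real.exp (-(p / 2)) * (c * Real.exp (p / 4)) * Real.exp (p / 8) :=
    mul_le_mul (mul_le_mul_of_nonneg_left h1 (Real.exp_pos _).le) h2 (by positivity)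
      (by positivity)
  refine h5.trans ?_
  rw [le_div_iff₀ hΛ0]
  have h6 := mul_le_mul_of_nonneg_left hc (by positivity :
    0 ≤ Real.exp (-(p / 2)) * Real.exp (p / 4) * Real.exp (p / 8))
  linear_combination h6 + h4

end

theorem Game.epoch {St κ : Type} [Fintype κ] [Nonempty κ] (G : Game St κ) {K : ℝ} (hK : 2 ≤ K)
    (hK1 : 4 * G.C₁ ≤ K ^ 2) {C : ℕ} {Λ t p s : ℝ} {N : ℕ} (hΛ : 1 ≤ Λ) (ht : 0 < t)
    (ht1 : t * Λ ≤ 1) (hp : 1 ≤ p) (hpΛ : p ≤ Λ) (hs : 0 ≤ s) (hN : s + N * t ^ 16 ≤ 1 / 4)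
    (hτ : 8 * C * p * (N * t ^ 16) ≤ 1) (hcard : (203 / t ^ 25) ^ 2 * Λ ≤ Real.exp (p / 8))
    {B : ℝ} (hB0 : 0 ≤ B) (hB : G.H + G.β * (B + 1) + 2 < Real.exp (p / 8))
    (hJ : ∀ σ, G.T σ (t ^ 24) → 3 / 4 ≤ G.rad σ → G.rad σ ≤ 1 →
      (∀ z, ‖z‖ ≤ G.rad σ → G.X σ z ≤ (2 * Λ) ^ 2) → G.J σ ≤ B)
    (step : ∀ σ, 3 / 4 ≤ G.rad σ → G.rad σ ≤ 1 → G.T σ (t ^ 24) →
      (∀ z, ‖z‖ ≤ G.rad σ → G.X σ z ≤ Λ ^ 2) →
      ∃ (σ' : κ → St) (r : ℝ), G.rad σ - 4 * t ^ 24 ≤ r ∧ r ≤ G.rad σ ∧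
        (∀ k, G.rad (σ' k) = r ∧ G.T (σ' k) (t ^ 25) ∧
          (∀ z, ‖z‖ ≤ r → G.X (σ' k) z ≤ (2 * Λ) ^ 2) ∧ ∀ z w, ‖z‖ ≤ r → ‖w‖ ≤ r →
          G.X (σ' k) w ≤ G.X (σ' k) z + ‖z - w‖ / t ^ 25) ∧
        Fintype.card κ * (G.a σ + t ^ 16 * G.β * (1 + G.J σ / G.ν)) ≤ ∑ k, G.a (σ' k) ∧
        Fintype.card κ * (G.J σ - 2 * t ^ 16) ≤ ∑ k, G.J (σ' k) ∧
        ∀ z : ℂ, ‖z‖ ≤ r → G.rad σ - (K + 2) / Λ ≤ ‖z‖ →
          ∑ k, Real.exp (p * G.X (σ' k) z / Λ ^ 2) ≤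
            Fintype.card κ * (Real.exp (p * G.X σ z / Λ ^ 2) * (1 + C * p ^ 2 * t ^ 16)))
    {σ₀ : St} (h0 : G.T σ₀ (t ^ 24)) (hr : 3 / 4 + 1 / Λ ≤ G.rad σ₀) (hr1 : G.rad σ₀ ≤ 1)
    (hX : ∀ z, ‖z‖ ≤ G.rad σ₀ → G.X σ₀ z ≤ Λ ^ 2 / 4)
    (hΦ : -1 ≤ G.a σ₀ + G.β * (1 / 4 - s) / G.ν * (G.J σ₀ + 2 * s)) :
    ∃ σ, G.T σ (t ^ 24) ∧ (0 < N → G.T σ (t ^ 25)) ∧ G.rad σ₀ - 1 / Λ ≤ G.rad σ ∧
      G.rad σ ≤ 1 ∧ (∀ z, ‖z‖ ≤ G.rad σ → G.X σ z ≤ Λ ^ 2) ∧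
      G.a σ₀ + G.β * (1 / 4 - s) / G.ν * (G.J σ₀ + 2 * s) + N * t ^ 16 * G.β / 2 - 1 / Λ ≤
        G.a σ + G.β * (1 / 4 - (s + N * t ^ 16)) / G.ν * (G.J σ + 2 * (s + N * t ^ 16)) := by
  have hΛ0 : 0 < Λ := lt_of_lt_of_le one_pos hΛ
  have ht2 : t ≤ 1 / Λ := (le_div_iff₀ hΛ0).2 ht1
  have hu : 1 / Λ ≤ 1 := (div_le_one hΛ0).2 hΛ
  have ht3 : t ≤ 1 := ht2.trans hu
  have hε : t ^ 25 ≤ t ^ 24 := pow_le_pow_of_le_one ht.le ht3 (by norm_num)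
  have hε1 : t ^ 25 ≤ 1 / Λ := (pow_le_of_le_one ht.le ht3 (by norm_num)).trans ht2
  have hq : 4 * (N * t ^ 24) ≤ 1 / Λ := by
    have h1 : t ^ 8 ≤ 1 / Λ := (pow_le_of_le_one ht.le ht3 (by norm_num)).trans ht2
    have h2 : 4 * (N * t ^ 16) ≤ 1 := by linarith
    have h3 := mul_le_mul_of_nonneg_right h2 (pow_pos ht 8).le
    linear_combination h1 + h3
  obtain ⟨S, hS1, hS2⟩ := game1_net (pow_pos ht 25) (hε1.trans hu)
  have hx : (0 : ℝ) ≤ C * p ^ 2 * t ^ 16 := by positivity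
  have hb := game1_base G (ρ := G.rad σ₀ - (K + 1) / Λ) (N := N) hS1 hΛ hp hcard hx (by
    have h1 := mul_le_mul_of_nonneg_left hτ (by linarith : 0 ≤ p / 8)
    linear_combination h1) hX
  change -1 ≤ game1_phi G σ₀ s at hΦ
  have key : ∀ i : ℕ, i ≤ N → ∃ σ, G.T σ (t ^ 24) ∧ (0 < i → G.T σ (t ^ 25)) ∧
      G.rad σ₀ - 4 * (i * t ^ 24) ≤ G.rad σ ∧ G.rad σ ≤ G.rad σ₀ ∧
      (∀ z, ‖z‖ ≤ G.rad σ → G.X σ z ≤ Λ ^ 2) ∧
      game1_phi G σ₀ s + i * t ^ 16 * G.β / 2 - 1 / Λ ≤ game1_phi G σ (s + i * t ^ 16) -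
        Real.exp (-(p / 2)) * game1_pen G S (G.rad σ₀ - (K + 1) / Λ) p Λ σ *
          (1 + C * p ^ 2 * t ^ 16) ^ (N - i) := by
    intro i
    induction i with
    | zero =>
      refine fun _ => ⟨σ₀, h0, fun h => absurd h (lt_irrefl 0), by simp, le_rfl, fun z hz => ?_, ?_⟩
      · linarith [hX z hz, sq_nonneg Λ]
      · simp only [Nat.cast_zero, zero_mul, add_zero, Nat.sub_zero, zero_div]
        linarith
    | succ i ih =>
      intro hi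
      obtain ⟨σ, a1, -, a3, a4, a5, a6⟩ := ih (Nat.le_of_succ_le hi)
      have hi1 : ((i + 1 : ℕ) : ℝ) ≤ N := by exact_mod_cast hi
      have hi2 : ((i + 1 : ℕ) : ℝ) = i + 1 := Nat.cast_succ i
      have hi3 : (0 : ℝ) ≤ i := Nat.cast_nonneg i
      have b1 := mul_le_mul_of_nonneg_right hi1 (pow_pos ht 24).le
      have b2 := mul_le_mul_of_nonneg_right hi1 (pow_pos ht 16).le
      have b3 := pow_pos ht 24
      have b4 := pow_pos ht 16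
      have b5 : 0 ≤ i * t ^ 16 := mul_nonneg hi3 b4.le
      rw [hi2, add_mul, one_mul] at b1 b2
      obtain ⟨σ', r, c1, c2, c3, c4, c5, c6⟩ := step σ (by linarith) (a4.trans hr1) a1 a5
      have d1 := game1_avg G (s := s + i * t ^ 16) (by linarith) b4.le (by linarith) c4 c5
      have d2 := game1_pen_sum G S (ρ := G.rad σ₀ - (K + 1) / Λ) (fun k => (c3 k).1) c2
        (by linarith : 0 ≤ 1 + C * p ^ 2 * t ^ 16) fun z hz hz' => c6 z hz (by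
          have h1 : 0 < 1 / Λ := by positivity
          linear_combination hz' + a4 + h1.le)
      have d3 : 0 ≤ Real.exp (-(p / 2)) * (1 + C * p ^ 2 * t ^ 16) ^ (N - (i + 1)) := by positivity
      have d4 := mul_le_mul_of_nonneg_left d2 d3
      have d5 : N - i = N - (i + 1) + 1 := by omega
      rw [d5, pow_succ (1 + C * p ^ 2 * t ^ 16)] at a6
      have d6 := mul_le_mul_of_nonneg_left a6 (Nat.cast_nonneg (Fintype.card κ) : (0 : ℝ) ≤ _)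
      obtain ⟨k, -, hk⟩ := Finset.exists_le_of_sum_le (s := (Finset.univ : Finset κ))
        Finset.univ_nonempty
        (f := fun _ => game1_phi G σ₀ s + (i + 1) * t ^ 16 * G.β / 2 - 1 / Λ)
        (g := fun k => game1_phi G (σ' k) (s + i * t ^ 16 + t ^ 16) -
          Real.exp (-(p / 2)) * (1 + C * p ^ 2 * t ^ 16) ^ (N - (i + 1)) *
            game1_pen G S (G.rad σ₀ - (K + 1) / Λ) p Λ (σ' k)) (by
          rw [Finset.sum_const, Finset.card_univ, nsmul_eq_mul, Finset.sum_sub_distrib,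
            ← Finset.mul_sum]
          linear_combination d1 + d4 + d6)
      obtain ⟨e1, e2, e3, e4⟩ := c3 k
      subst e1
      have e5 := G.mono _ _ _ hε e2
      have e6 : G.rad σ₀ - 1 / Λ ≤ G.rad (σ' k) := by linarith
      have e7 : G.rad (σ' k) ≤ 1 := (c2.trans a4).trans hr1
      have e8 := game1_phi_le G e5 (s := s + i * t ^ 16 + t ^ 16) (by linarith) (by linarith)
        (by linarith) hB0 (hJ _ e5 (by linarith) e7 e3)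
      have e9 : game1_pen G S (G.rad σ₀ - (K + 1) / Λ) p Λ (σ' k) < Real.exp (5 / 8 * p) := by
        have f1 : 1 ≤ (1 + C * p ^ 2 * t ^ 16) ^ (N - (i + 1)) := one_le_pow₀ (by linarith)
        have f2 := mul_le_mul_of_nonneg_left f1 (mul_nonneg (Real.exp_pos (-(p / 2))).le
          (game1_pen_nn G S (G.rad σ₀ - (K + 1) / Λ) p Λ (σ' k)))
        have f3 : Real.exp (-(p / 2)) * Real.exp (5 / 8 * p) = Real.exp (p / 8) := by
          rw [← Real.exp_add]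
          exact congrArg Real.exp (by ring)
        have f4 : 0 ≤ (i + 1) * t ^ 16 * G.β / 2 := by
          have := G.hβ
          positivity
        refine lt_of_mul_lt_mul_left (a := Real.exp (-(p / 2))) ?_ (Real.exp_pos _).le
        rw [f3]
        linear_combination hB + f2 + hk + e8 + hΦ + hu + f4
      refine ⟨σ' k, e5, fun _ => e2, ?_, c2.trans a4,
        game1_X G (pow_pos ht 25) hε1 hS2 hK hK1 hΛ hp e2 e6 e7 e4 e9, ?_⟩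
      · rw [hi2]
        linarith
      · rw [hi2, show s + (i + 1) * t ^ 16 = s + i * t ^ 16 + t ^ 16 by ring]
        linear_combination hk
  obtain ⟨σ, a1, a2, a3, a4, a5, a6⟩ := key N le_rfl
  refine ⟨σ, a1, a2, by linarith, a4.trans hr1, a5, ?_⟩
  rw [Nat.sub_self, pow_zero, mul_one] at a6
  have h1 := mul_nonneg (Real.exp_pos (-(p / 2))).le
    (game1_pen_nn G S (G.rad σ₀ - (K + 1) / Λ) p Λ σ)
  unfold game1_phi at a6
  linarith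

end Vale.Agent.P272
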