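import Vale.Agent.P272.Defs

/-! P272 Schw (task). Helper names start with `schw_`.
Plan. `a z = circleAverage (fun ζ => (herglotzRieszKernel 0 z ζ / 2) • η ζ) 0 R` (file Analysis/Complex/Poisson: `differentiableOn_circleAverage_herglotzRieszKernel_smul`, `hasDerivAt_circleAverage_herglotzRieszKernel_smul`, `DiffContOnCl.circleAverage_poissonKernel_smul` for the constant 1). `a + star a` is the Poisson integral (`star` commutes with the integral through the real linear map `starL' ℝ`). With `P = (R^2 - ‖z‖^2) / ‖ζ - z‖^2`, average 1: `‖η ζ - η z‖ ≤ Lp ‖ζ - z‖ ≤ Lp (√σ + ‖ζ - z‖^2 / √σ) / 2` and `P ‖ζ - z‖^2 ≤ 4 σ`.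
Bound of `a`: `‖a 0‖ ≤ b / 2`, `‖a' w‖ ≤ b R avg ‖ζ - w‖^(-2) = b R / (R^2 - ‖w‖^2) ≤ b / (R - ‖w‖)`, integrate along the radius (`image_norm_le_of_norm_deriv_right_le_deriv_boundary`): `‖a z‖ ≤ b (1 / 2 + log (2 / σ))`. -/

open Metric Set Filter Topology Complex

noncomputable section

namespace Vale.Agent.P272

variable {n : ℕ}

theorem schw_K {R : ℝ} {w : ℂ} (hw : w ∈ ball (0 : ℂ) R) :
    ContinuousOn (herglotzRieszKernel 0 w) (sphere 0 R) := by
  have h := continuousOn_herglotzRieszKernel_sphere hw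
  rwa [abs_of_pos (pos_of_mem_ball hw)] at h

theorem schw_P {R : ℝ} {w : ℂ} (hw : w ∈ ball (0 : ℂ) R) :
    ContinuousOn (poissonKernel 0 w) (sphere 0 R) := by
  rw [poissonKernel_eq_re_herglotzRieszKernel]
  exact continuous_re.comp_continuousOn (schw_K hw)

theorem schw_const {V : Type} [NormedAddCommGroup V] [NormedSpace ℂ V] [CompleteSpace V] {R : ℝ}
    {w : ℂ} (hw : w ∈ ball (0 : ℂ) R) (v : V) :
    Real.circleAverage (fun ζ => poissonKernel 0 w ζ • v) 0 R = v :=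
  (diffContOnCl_const (c := v)).circleAverage_poissonKernel_smul hw

theorem schw_one {R : ℝ} {w : ℂ} (hw : w ∈ ball (0 : ℂ) R) :
    Real.circleAverage (poissonKernel 0 w) 0 R = 1 := by
  have h := ofRealCLM.circleAverage_comp_comm
    ((schw_P hw).circleIntegrable (pos_of_mem_ball hw).le)
  have e : ofRealCLM ∘ poissonKernel 0 w = fun ζ => poissonKernel 0 w ζ • (1 : ℂ) := by
    funext ζ
    simp
  rw [e, schw_const hw] at h
  exact ofReal_eq_one.1 h.symm

theorem schw_bd {V : Type} [NormedAddCommGroup V] [NormedSpace ℝ V] {R α β : ℝ} {w : ℂ}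
    (hw : w ∈ ball (0 : ℂ) R) {g : ℂ → V}
    (h : ∀ ζ : ℂ, ‖ζ‖ = R → ‖g ζ‖ ≤ α * poissonKernel 0 w ζ + β) :
    ‖Real.circleAverage g 0 R‖ ≤ α + β := by
  have hR := pos_of_mem_ball hw
  have hP := (schw_P hw).circleIntegrable hR.le
  have h1 : CircleIntegrable (fun ζ => α • poissonKernel 0 w ζ) 0 R :=
    ((schw_P hw).const_smul α).circleIntegrable hR.le
  have h2 : CircleIntegrable (fun _ : ℂ => β) 0 R := continuousOn_const.circleIntegrable hR.le
  have e := Real.circleAverage_fun_add h1 h2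
  rw [Real.circleAverage_fun_smul, schw_one hw, Real.circleAverage_const, smul_eq_mul, mul_one] at e
  rw [← e, Real.circleAverage_def, Real.circleAverage_def, norm_smul, smul_eq_mul,
    Real.norm_of_nonneg (by positivity)]
  refine mul_le_mul_of_nonneg_left (intervalIntegral.norm_integral_le_of_norm_le (by positivity)
    (Eventually.of_forall fun θ _ => h _ ?_) (h1.add h2)) (by positivity)
  rw [norm_circleMap_zero, abs_of_pos hR]

theorem schw_pos {R : ℝ} {w ζ : ℂ} (hw : ‖w‖ < R) (hζ : ‖ζ‖ = R) : 0 < ‖ζ - w‖ :=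
  norm_pos_iff.2 (sub_ne_zero.2 fun h => hw.ne (h ▸ hζ))

theorem schw_der {V : Type} [NormedAddCommGroup V] [NormedSpace ℂ V] {R b : ℝ} {w : ℂ}
    (hw : w ∈ ball (0 : ℂ) R) {f : ℂ → V} (hb0 : 0 ≤ b) (hb : ∀ ζ, ‖ζ‖ = R → ‖f ζ‖ ≤ b / 2) :
    ‖Real.circleAverage (fun ζ => (2 * ζ / (ζ - w) ^ 2) • f ζ) 0 R‖ ≤ b / (R - ‖w‖) := by
  have hw' := mem_ball_zero_iff.1 hw
  have hR := pos_of_mem_ball hw
  refine (schw_bd hw (α := b / (R - ‖w‖)) (β := 0) fun ζ hζ => ?_).trans_eq (add_zero _)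
  have hd := schw_pos hw' hζ
  have h0 : 0 < R - ‖w‖ := sub_pos.2 hw'
  have e : b / (R - ‖w‖) * poissonKernel 0 w ζ = b * (R + ‖w‖) / ‖ζ - w‖ ^ 2 := by
    rw [poissonKernel_def, sub_zero, sub_zero, hζ]
    field_simp
    ring
  rw [add_zero, e, norm_smul, norm_div, norm_mul, norm_pow, hζ, Complex.norm_ofNat,
    div_mul_eq_mul_div]
  refine div_le_div_of_nonneg_right ?_ (by positivity)
  nlinarith [hb ζ hζ, mul_nonneg hb0 (norm_nonneg w)]

theorem schw_log {V : Type} [NormedAddCommGroup V] [NormedSpace ℂ V] {R b : ℝ} {z : ℂ}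
    (hz : ‖z‖ < R) {f : ℂ → V} (hf : CircleIntegrable f 0 R) (hb0 : 0 ≤ b)
    (hb : ∀ ζ, ‖ζ‖ = R → ‖f ζ‖ ≤ b / 2) :
    ‖Real.circleAverage (fun ζ => herglotzRieszKernel 0 z ζ • f ζ) 0 R‖ ≤
      b / 2 + b * (Real.log R - Real.log (R - ‖z‖)) := by
  have hR : 0 < R := (norm_nonneg z).trans_lt hz
  have hn : ∀ t ∈ Icc (0 : ℝ) 1, ‖(t : ℂ) * z‖ = t * ‖z‖ := fun t ht => by
    rw [norm_mul, norm_real, Real.norm_of_nonneg ht.1]
  have hlt : ∀ t ∈ Icc (0 : ℝ) 1, t * ‖z‖ < R := fun t ht =>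
    (mul_le_of_le_one_left (norm_nonneg z) ht.2).trans_lt hz
  have hm : ∀ t ∈ Icc (0 : ℝ) 1, (t : ℂ) * z ∈ ball (0 : ℂ) R := fun t ht =>
    mem_ball_zero_iff.2 ((hn t ht).trans_lt (hlt t ht))
  have hD : ∀ t ∈ Icc (0 : ℝ) 1, HasDerivAt
      (fun t : ℝ => Real.circleAverage (fun ζ => herglotzRieszKernel 0 (t * z) ζ • f ζ) 0 R)
      (z • Real.circleAverage (fun ζ => (2 * ζ / (ζ - t * z) ^ 2) • f ζ) 0 R) t := fun t ht => by
    have h1 : HasDerivAt (fun s : ℂ => s * z) z (t : ℂ) := by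
      simpa using (hasDerivAt_id (t : ℂ)).mul_const z
    exact HasDerivAt.scomp (h := fun s : ℝ => (s : ℂ) * z) t
      (hasDerivAt_circleAverage_herglotzRieszKernel_smul hf (hm t ht)) h1.comp_ofReal
  have hB : ∀ t ∈ Icc (0 : ℝ) 1, HasDerivAt
      (fun t : ℝ => b / 2 + b * (Real.log R - Real.log (R - t * ‖z‖)))
      (‖z‖ * (b / (R - t * ‖z‖))) t := fun t ht => by
    have h1 : HasDerivAt (fun s : ℝ => R - s * ‖z‖) (-‖z‖) t := by
      simpa using ((hasDerivAt_id t).mul_const ‖z‖).const_sub R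
    refine ((((h1.log (sub_pos.2 (hlt t ht)).ne').const_sub _).const_mul b).const_add _).congr_deriv ?_
    ring
  have h := image_norm_le_of_norm_deriv_right_le_deriv_boundary'
    (fun t ht => (hD t ht).continuousAt.continuousWithinAt)
    (fun t ht => (hD t (Ico_subset_Icc_self ht)).hasDerivWithinAt) ?_
    (fun t ht => (hB t ht).continuousAt.continuousWithinAt)
    (fun t ht => (hB t (Ico_subset_Icc_self ht)).hasDerivWithinAt) (fun t ht => ?_)
    (right_mem_Icc.2 zero_le_one)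
  · simpa only [ofReal_one, one_mul] using h
  · simp only [ofReal_zero, zero_mul, sub_zero, sub_self, mul_zero, add_zero]
    refine (schw_bd (mem_ball_self hR) (α := 0) (β := b / 2) fun ζ hζ => ?_).trans_eq (zero_add _)
    have h0 : ζ ≠ 0 := norm_pos_iff.1 (hζ ▸ hR)
    rw [herglotzRieszKernel_def, sub_self, add_zero, sub_zero, sub_zero, div_self h0, one_smul,
      zero_mul, zero_add]
    exact hb ζ hζ
  · have ht' := Ico_subset_Icc_self ht
    rw [norm_smul, ← hn t ht']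
    exact mul_le_mul_of_nonneg_left (schw_der (hm t ht') hb0 hb) (norm_nonneg z)

theorem schw_ineq {P d s : ℝ} (hs : 0 < s) (hP : 0 ≤ P) (h : P * d ^ 2 ≤ 4 * s ^ 2) :
    P * d ≤ s / 2 * P + 2 * s := by
  refine le_of_mul_le_mul_left ?_ (by positivity : 0 < 2 * s)
  nlinarith [mul_nonneg hP (sq_nonneg (s - d))]

theorem schwarz_int {η : ℂ → L n} {R σ b Lp : ℝ} (h1 : 1 / 2 ≤ R) (h2 : R ≤ 1) (h3 : 0 < σ)
    (h4 : σ ≤ 1 / 8) (hLp : 0 ≤ Lp)
    (hL : ∀ z w, ‖z‖ ≤ R → ‖w‖ ≤ R → ‖η z - η w‖ ≤ Lp * ‖z - w‖)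
    (sa : ∀ z, ‖z‖ ≤ R → IsSelfAdjoint (η z)) (hb : ∀ z, ‖z‖ = R → ‖η z‖ ≤ b) :
    ∃ a : ℂ → L n, DifferentiableOn ℂ a (ball 0 R) ∧
      (∀ z, ‖z‖ ≤ R - σ / 2 → ‖a z‖ ≤ 2 * b * Real.log (1 / σ)) ∧
      ∀ z, R - 2 * σ ≤ ‖z‖ → ‖z‖ ≤ R - σ / 2 → ‖η z - a z - star (a z)‖ ≤ 3 * Lp * √σ := by
  have hR : 0 < R := by linarith
  have hb0 : 0 ≤ b := (norm_nonneg _).trans (hb R (by rw [norm_real, Real.norm_of_nonneg hR.le]))
  have hc : ContinuousOn η (sphere 0 R) :=
    (LipschitzOnWith.of_dist_le_mul (K := ⟨Lp, hLp⟩) fun z hz w hw => by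
      rw [dist_eq_norm, dist_eq_norm]
      exact hL z w (mem_sphere_zero_iff_norm.1 hz).le
        (mem_sphere_zero_iff_norm.1 hw).le).continuousOn
  have hfc : ContinuousOn (fun ζ => (1 / 2 : ℂ) • η ζ) (sphere 0 R) :=
    hc.const_smul (1 / 2 : ℂ)
  have hf := hfc.circleIntegrable hR.le
  refine ⟨_, differentiableOn_circleAverage_herglotzRieszKernel_smul hf, fun z hz => ?_,
    fun z hz hz' => ?_⟩
  · refine (schw_log (by linarith) hf hb0 fun ζ hζ => ?_).trans ?_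
    · rw [norm_smul, norm_div, norm_one, Complex.norm_ofNat]
      linarith [hb ζ hζ]
    · have l1 := Real.log_nonpos hR.le h2
      have l2 := Real.log_le_log (half_pos h3) (show σ / 2 ≤ R - ‖z‖ by linarith)
      have l3 := Real.log_le_log h3 h4
      rw [Real.log_div h3.ne' two_ne_zero] at l2
      rw [one_div, Real.log_inv, show (8 : ℝ) = 2 ^ 3 by norm_num, Real.log_pow] at l3
      rw [one_div, Real.log_inv]
      push_cast at l3
      have l4 : 1 / 2 + (Real.log R - Real.log (R - ‖z‖)) ≤ 2 * -Real.log σ := by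
        linarith [Real.log_two_gt_d9]
      nlinarith [mul_le_mul_of_nonneg_left l4 hb0]
  · have hz1 : ‖z‖ < R := by linarith
    have hzb : z ∈ ball (0 : ℂ) R := mem_ball_zero_iff.2 hz1
    have hKc : ContinuousOn (fun ζ => herglotzRieszKernel 0 z ζ • (1 / 2 : ℂ) • η ζ) (sphere 0 R) :=
      (schw_K hzb).smul hfc
    have hK := hKc.circleIntegrable hR.le
    have hS := ((starL' ℝ : L n ≃L[ℝ] L n) : L n →L[ℝ] L n).circleAverage_comp_comm hK
    have hK' : CircleIntegrable (((starL' ℝ : L n ≃L[ℝ] L n) : L n →L[ℝ] L n) ∘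
        fun ζ => herglotzRieszKernel 0 z ζ • (1 / 2 : ℂ) • η ζ) 0 R :=
      (((starL' ℝ : L n ≃L[ℝ] L n) : L n →L[ℝ] L n).continuous.comp_continuousOn
        hKc).circleIntegrable hR.le
    have h0 : CircleIntegrable (fun ζ => poissonKernel 0 z ζ • η z) 0 R :=
      ((schw_P hzb).smul continuousOn_const).circleIntegrable hR.le
    have e := Real.circleAverage_sub (h0.sub hK) hK'
    rw [Real.circleAverage_sub h0 hK, schw_const hzb, hS] at e
    have hs := Real.sqrt_pos.2 h3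
    refine (e.symm ▸ schw_bd hzb (α := Lp * (√σ / 2)) (β := Lp * (2 * √σ)) fun ζ hζ => ?_ :
      ‖_‖ ≤ _).trans (by nlinarith [mul_nonneg hLp hs.le])
    have hd := schw_pos hz1 hζ
    have hP : poissonKernel 0 z ζ * ‖ζ - z‖ ^ 2 = R ^ 2 - ‖z‖ ^ 2 := by
      rw [poissonKernel_def, sub_zero, sub_zero, hζ, div_mul_cancel₀ _ (by positivity)]
    have hP0 : 0 ≤ poissonKernel 0 z ζ := by
      rw [poissonKernel_def, sub_zero, sub_zero, hζ]
      exact div_nonneg (by nlinarith [norm_nonneg z]) (by positivity)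
    have e1 : herglotzRieszKernel 0 z ζ • (1 / 2 : ℂ) • η ζ +
        star (herglotzRieszKernel 0 z ζ • (1 / 2 : ℂ) • η ζ) = poissonKernel 0 z ζ • η ζ := by
      have e0 : herglotzRieszKernel 0 z ζ * (1 / 2) + star (herglotzRieszKernel 0 z ζ * (1 / 2)) =
          (poissonKernel 0 z ζ : ℂ) := by
        rw [poissonKernel_eq_re_herglotzRieszKernel, star_def, add_conj]
        simp
        ring
      rw [smul_smul, star_smul, (sa ζ hζ.le).star_eq]
      exact (add_smul _ _ _).symm.trans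
        ((congrArg (· • η ζ) e0).trans (Complex.coe_smul (E := L n) _ _))
    have e2 : poissonKernel 0 z ζ • η z - herglotzRieszKernel 0 z ζ • (1 / 2 : ℂ) • η ζ -
        star (herglotzRieszKernel 0 z ζ • (1 / 2 : ℂ) • η ζ) = poissonKernel 0 z ζ • (η z - η ζ) := by
      rw [sub_sub, e1, smul_sub]
    refine (congrArg norm e2).trans_le ?_
    have h5 := schw_ineq (d := ‖ζ - z‖) hs hP0 (by
      rw [hP, Real.sq_sqrt h3.le]
      nlinarith [norm_nonneg z])
    have h6 := hL z ζ hz1.le hζ.le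
    rw [norm_sub_rev z] at h6
    rw [norm_smul, Real.norm_of_nonneg hP0]
    nlinarith [mul_le_mul_of_nonneg_left h6 hP0, mul_le_mul_of_nonneg_left h5 hLp]

end Vale.Agent.P272
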