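import Vale.Agent.P272.Lip
import Vale.Agent.P272.Schw

/-! P272 Imp (task). Helper names start with `imp_`.
Plan. `lip_est`, `schwarz_int` for `η z = Gr F z - 1` on the circle `R - d` (`Gr_sa`); `‖a‖ ≤ 1 / 2`, `S z = Ring.inverse (1 + a z)` is holomorphic, a unit, of norm `≤ 2` (`unit_of_lo`), `F' p = F (p.1, S p.1 p.2)` (`Hol.comp`, `fr_reparam`, `Gr_reparam`, `jf_reparam`). `Gr F' - 1 = star S * (η - a - star a - star a * a) * S`. `AnalyticOnNhd.circleAverage_log_norm_of_ne_zero` for `det (S z)` (`analyticAt_det`, `det_ne`), `jf_int`. -/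

open Metric Set Filter Topology Complex

noncomputable section

namespace Vale.Agent.P272

variable {n : ℕ} {X : Type} [TopologicalSpace X] {A : Atl n X}

theorem imp_tol {B : Type} [NormedRing B] [StarRing B] [NormedStarGroup B] {G a S : B} {x y : ℝ}
    (h : (1 + a) * S = 1) (hS : ‖S‖ ≤ 2) (ha : ‖a‖ ≤ x)
    (hG : ‖G - 1 - a - star a‖ ≤ y) : ‖star S * G * S - 1‖ ≤ 4 * x ^ 2 + 4 * y := by
  have e : star S * G * S - 1 = star S * (G - 1 - a - star a - star a * a) * S := by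
    have h' : star S * (1 + star a) = 1 := by simpa using congrArg star h
    have : G - 1 - a - star a - star a * a = G - (1 + star a) * (1 + a) := by noncomm_ring
    rw [this, mul_sub, sub_mul, ← mul_assoc, h', one_mul, h]
  have h1 : ‖star a * a‖ ≤ x ^ 2 := by
    refine (norm_mul_le _ _).trans ?_
    rw [norm_star, sq]
    exact mul_self_le_mul_self (norm_nonneg _) ha
  have h2 := (norm_sub_le _ _).trans (add_le_add hG h1)
  have h3 := (norm_mul_le _ _).trans (mul_le_mul ((norm_star S).trans_le hS) h2 (norm_nonneg _)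
    zero_le_two)
  rw [e]
  exact (norm_mul_le _ _).trans ((mul_le_mul h3 hS (norm_nonneg _)
    ((norm_nonneg _).trans h3)).trans_eq (by ring))

theorem Met.imp [T2Space X] (g : Met A) : ∃ C : ℝ, 1 ≤ C ∧
    ∀ (F : ℂ × E n → X) (R d σ η M : ℝ), g.Cr F R M → R ≤ 1 → 1 / 2 ≤ R - d → 0 < d → 0 < σ →
      σ ≤ 1 / 8 → (∀ z, ‖z‖ = R - d → ‖g.Gr F z - 1‖ ≤ η) → 4 * η * Real.log (1 / σ) ≤ 1 →
      ∃ F' : ℂ × E n → X, ctr F' = ctr F ∧ g.Cr F' (R - d - σ / 2) (4 * M) ∧
        (∀ z, R - d - 2 * σ ≤ ‖z‖ → ‖z‖ < R - d - σ / 2 →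
          ‖g.Gr F' z - 1‖ ≤ 16 * (η * Real.log (1 / σ)) ^ 2 + C * M ^ 3 / d * √σ) ∧
        ∀ (v : Vol g) (r : ℝ), 0 < r → r < R - d - σ / 2 → v.Jf F' r = v.Jf F r := by
  obtain ⟨C, C1, hC⟩ := g.lip_est
  refine ⟨12 * C, by linarith, fun F R d σ η M h hR h1 hd hσ h2 hη h3 => ?_⟩
  have M1 := h.one
  obtain ⟨a, a1, a2, a3⟩ := schwarz_int (η := fun z => g.Gr F z - 1) (Lp := C * M ^ 3 / d) h1
    (by linarith) hσ h2 (by positivity) (fun z w hz hw => by
      rw [sub_sub_sub_cancel_right]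
      exact (hC F R M d h hd (by linarith) z w hz hw).1)
    (fun z _ => IsSelfAdjoint.sub (R := L n) (g.Gr_sa F z) (IsSelfAdjoint.one (L n))) hη
  have s1 : ∀ z, ‖z‖ < R - d - σ / 2 → IsUnit (1 + a z) ∧ ‖Ring.inverse (1 + a z)‖ ≤ 2 :=
    fun z hz => unit_of_lo zero_le_two fun w => by
      have b1 := (a z).le_of_opNorm_le ((a2 z hz.le).trans (show _ ≤ 1 / 2 by linarith)) w
      have b2 := norm_sub_le ((1 + a z) w) (a z w)
      rw [show (1 + a z) w - a z w = w by simp] at b2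
      linarith
  have s2 : DifferentiableOn ℂ (fun z => Ring.inverse (1 + a z)) (ball 0 (R - d - σ / 2)) :=
    fun z hz => (((a1.differentiableAt (isOpen_ball.mem_nhds (ball_subset_ball (by linarith)
      hz))).const_add 1).inverse (s1 z (mem_ball_zero_iff.1 hz)).1).differentiableWithinAt
  obtain ⟨S, hS⟩ : ∃ S, S = fun z => Ring.inverse (1 + a z) := ⟨_, rfl⟩
  rw [← hS] at s2
  have s3 : ∀ z, ‖z‖ < R - d - σ / 2 → IsUnit (S z) ∧ ‖S z‖ ≤ 2 ∧ (1 + a z) * S z = 1 :=
    fun z hz => hS ▸ ⟨(s1 z hz).1.ringInverse, (s1 z hz).2, Ring.mul_inverse_cancel _ (s1 z hz).1⟩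
  have m1 : ∀ z : ℂ, ‖z‖ < R - d - σ / 2 → z ∈ ball (0 : ℂ) R := fun z hz =>
    mem_ball_zero_iff.2 (by linarith)
  have e : ctr (fun p : ℂ × E n => F (p.1, S p.1 p.2)) = ctr F := funext fun z => by simp [ctr]
  refine ⟨fun p => F (p.1, S p.1 p.2), e, ⟨by linarith, fun z hz => ?_, fun z hz => ?_,
    fun z hz => ?_⟩, fun z h4 hz => ?_, fun v r hr h4 => ?_⟩
  · obtain ⟨b1, b2⟩ := h.bs z (m1 z (mem_ball_zero_iff.1 hz))
    refine ⟨Atl.Hol.comp (φ := fun p : ℂ × E n => (p.1, S p.1 p.2)) (by simpa using b1) ?_,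
      fun j hj => ?_⟩
    · filter_upwards [continuousAt_fst.preimage_mem_nhds (isOpen_ball.mem_nhds hz)] with q hq
      exact differentiableAt_fst.prodMk ((((s2.differentiableAt (isOpen_ball.mem_nhds hq)).comp q
        differentiableAt_fst)).clm_apply differentiableAt_snd)
    · have hj : F (z, 0) ∈ (A.e j).source := by simpa using hj
      rw [Atl.fr_reparam b1.holAt hj]
      exact (b2 j hj).mul (s3 z (mem_ball_zero_iff.1 hz)).1
  · rw [e]
    exact (h.sp z (by linarith)).trans (by nlinarith)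
  · rw [g.Gr_reparam (h.bs z (m1 z hz)).1.holAt]
    have b1 := (norm_mul_le _ _).trans (mul_le_mul ((norm_star _).trans_le (s3 z hz).2.1)
      (h.gr z (by linarith)) (norm_nonneg _) zero_le_two)
    exact (norm_mul_le _ _).trans ((mul_le_mul b1 (s3 z hz).2.1 (norm_nonneg _)
      (by positivity)).trans_eq (by ring))
  · rw [g.Gr_reparam (h.bs z (m1 z hz)).1.holAt]
    exact (imp_tol (s3 z hz).2.2 (s3 z hz).2.1 (a2 z hz.le) (a3 z h4 hz.le)).trans_eq (by ring)
  · have m2 : ∀ z ∈ closedBall (0 : ℂ) |r|, ‖z‖ < R - d - σ / 2 := fun z hz => by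
      rw [abs_of_pos hr] at hz
      exact (mem_closedBall_zero_iff.1 hz).trans_lt h4
    have b1 : AnalyticOnNhd ℂ (fun z => (S z).det ^ 2) (closedBall 0 |r|) := fun z hz =>
      ((analyticAt_det _).comp (s2.analyticAt (isOpen_ball.mem_nhds
        (mem_ball_zero_iff.2 (m2 z hz))))).pow 2
    have b2 : ∀ z ∈ closedBall (0 : ℂ) |r|, (S z).det ^ 2 ≠ 0 := fun z hz =>
      pow_ne_zero _ (det_ne (s3 z (m2 z hz)).1)
    have b3 : ∀ z ∈ closedBall (0 : ℂ) |r|, v.jf (fun p => F (p.1, S p.1 p.2)) z =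
        v.jf F z + Real.log ‖(S z).det ^ 2‖ := fun z hz => by
      rw [norm_pow]
      exact v.jf_reparam h.bs (m1 z (m2 z hz)) S (s3 z (m2 z hz)).1
    rw [Vol.Jf, Vol.Jf, b3 0 (mem_closedBall_self (abs_nonneg r)),
      Real.circleAverage_congr_sphere fun z hz => b3 z (sphere_subset_closedBall hz),
      Real.circleAverage_fun_add (v.jf_int hr.le (h.bs.mono (closedBall_subset_ball (by linarith))))
        ((b1.continuousOn.norm.log fun z hz => norm_ne_zero_iff.2 (b2 z hz)).mono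
          sphere_subset_closedBall).circleIntegrable', b1.circleAverage_log_norm_of_ne_zero b2]
    ring

end Vale.Agent.P272
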