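import Vale.Agent.P272.Loc
import Vale.Agent.P272.AH

/-! P272 KapA0 (task; part of KapA). Helper names start with `kapa0_`.
Plan. Near a point `p` of the tube each term `j` either vanishes identically (`supp`) or `In j 2 (F (p.1, 0))`, and then `kapa_term`: the map `q ↦ Ring.inverse (fr j F q.1) (e j ((e k).symm q.2) - e j (F (q.1, 0)))` is complex analytic at `p` (`trans`, `tr_analytic`, `fr_analytic`, `analyticAt_inverse`). The derivative in `b` is `∑ χ j • P j (D τ j b)`; `P j * tr j k = P k` (`fr_chg`), `∑ χ j = 1`, `trans2`. -/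

open Metric Set Filter Topology Complex

noncomputable section

namespace Vale.Agent.P272

variable {n : ℕ} {X : Type} [TopologicalSpace X] {A : Atl n X}

variable [T2Space X] {g : Met A} {F : ℂ × E n → X} {r M D ε : ℝ} {χ : Fin A.N → ℂ → ℝ}

theorem kapa_term (h : g.TI F r M) (hε : g.C ^ 2 * ε ≤ 1) {j k : Fin A.N} {p : ℂ × E n}
    (hp : p ∈ A.tk F r ε k) (hj : A.In j 3 (F (p.1, 0))) :
    AnalyticAt ℂ (fun q : ℂ × E n => Ring.inverse (A.fr j F q.1)
      (A.e j ((A.e k).symm q.2) - A.e j (F (q.1, 0)))) p := by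
  obtain ⟨⟨hz, hk, hk3⟩, hε'⟩ := hp
  have hb := h.bs p.1 (mem_ball_zero_iff.2 hz)
  have c0 : 0 < g.C ^ 2 := pow_pos (lt_of_lt_of_le one_pos g.one) 2
  have ht := g.trans hj (k := k) ⟨hk, hk3.le⟩ (h := p.2 - A.e k (F (p.1, 0)))
    ((mul_lt_mul_of_pos_left hε' c0).trans_le hε)
  rw [add_sub_cancel] at ht
  have h1 : AnalyticAt ℂ (A.e j ∘ (A.e k).symm) p.2 := by
    have := A.tr_analytic ht.2.1 ((A.e k).map_target ht.1)
    rwa [(A.e k).right_inv ht.1] at this
  have h2 : AnalyticAt ℂ (fun q : ℂ × E n => A.e j ((A.e k).symm q.2)) p :=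
    h1.comp (f := fun q : ℂ × E n => q.2) analyticAt_snd
  have h3 : AnalyticAt ℂ (fun q : ℂ × E n => A.e j (F (q.1, 0))) p :=
    (hb.1.analyticAt hj.1).comp (f := fun q : ℂ × E n => (q.1, (0 : E n)))
      (analyticAt_fst.prod analyticAt_const)
  have h4 : AnalyticAt ℂ (fun q : ℂ × E n => A.fr j F q.1) p :=
    (hb.1.fr_analytic hj.1).comp (f := fun q : ℂ × E n => q.1) analyticAt_fst
  have h5 : AnalyticAt ℂ (fun q : ℂ × E n => Ring.inverse (A.fr j F q.1)) p :=
    (analyticAt_inverse (𝕜 := ℂ) (hb.2 j hj.1).unit).comp_of_eq h4 rfl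
  exact ((ContinuousLinearMap.id ℂ (L n)).analyticAt_bilinear _).comp₂ h5 (h2.sub h3)

theorem kapa_inv (h : g.TI F r M) {j k : Fin A.N} {z : ℂ} (hz : ‖z‖ < r)
    (hj : F (z, 0) ∈ (A.e j).source) (hk : F (z, 0) ∈ (A.e k).source) :
    Ring.inverse (A.fr j F z) * A.tr j k (F (z, 0)) = Ring.inverse (A.fr k F z) := by
  have hb := h.bs z (mem_ball_zero_iff.2 hz)
  have h1 := A.fr_chg hb.1.holAt hj hk
  have h2 := Ring.inverse_mul_cancel _ (hb.2 j hj)
  have h3 := Ring.mul_inverse_cancel _ (hb.2 k hk)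
  calc Ring.inverse (A.fr j F z) * A.tr j k (F (z, 0))
      = Ring.inverse (A.fr j F z) * (A.tr j k (F (z, 0)) * A.fr k F z) *
          Ring.inverse (A.fr k F z) := by
        rw [mul_assoc, mul_assoc, h3, mul_one]
    _ = _ := by rw [← h1, h2, one_mul]

end Vale.Agent.P272
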