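import Vale.Agent.P272.Loc
import Vale.Agent.P272.AH
import Vale.Agent.P272.KapA0

/-! P272 KapA (task). Helper names start with `kapa_`.
Plan. Near a point `p` of the tube each term `j` either vanishes identically (`supp`) or `In j 2 (F (p.1, 0))`, and then `kapa_term`: the map `q ↦ Ring.inverse (fr j F q.1) (e j ((e k).symm q.2) - e j (F (q.1, 0)))` is complex analytic at `p` (`trans`, `tr_analytic`, `fr_analytic`, `analyticAt_inverse`). The derivative in `b` is `∑ χ j • P j (D τ j b)`; `P j * tr j k = P k` (`fr_chg`), `∑ χ j = 1`, `trans2`. -/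

open Metric Set Filter Topology Complex

noncomputable section

namespace Vale.Agent.P272

variable {n : ℕ} {X : Type} [TopologicalSpace X] {A : Atl n X}

variable [T2Space X] {g : Met A} {F : ℂ × E n → X} {r M D ε : ℝ} {χ : Fin A.N → ℂ → ℝ}

omit [T2Space X] in
theorem kapa_eps (h : g.TI F r M) (hε : 32 * g.C ^ 4 * M ^ 2 * ε ≤ 1) (h0 : 0 ≤ ε) :
    4 * g.C ^ 2 * ε ≤ 1 := by
  have h1 : 1 ≤ g.C ^ 2 := one_le_pow₀ g.one
  have h2 : 1 ≤ M ^ 2 := one_le_pow₀ h.one
  have h3 : 1 ≤ g.C ^ 2 * M ^ 2 := one_le_mul_of_one_le_of_one_le h1 h2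
  have h4 : 0 ≤ g.C ^ 2 * ε := mul_nonneg (zero_le_one.trans h1) h0
  nlinarith [mul_le_mul_of_nonneg_left h3 h4]

theorem kapa_diff (h : g.TI F r M) (hχ : A.PU (ctr F) r D χ)
    (hε : 32 * g.C ^ 4 * M ^ 2 * ε ≤ 1) {k : Fin A.N} {p : ℂ × E n} (hp : p ∈ A.tk F r ε k) :
    ContDiffAt ℝ 1 (A.Kc χ F k) p := by
  have h0 : 0 ≤ ε := (norm_nonneg _).trans hp.2.le
  have h1 := kapa_eps h hε h0
  have h2 : g.C ^ 2 * ε ≤ 1 := by nlinarith [mul_nonneg (sq_nonneg g.C) h0]
  unfold Atl.Kc Atl.Kf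
  refine ContDiffAt.sum fun j _ => ?_
  by_cases hj : A.In j 2 (F (p.1, 0))
  · have a1 : ContDiffAt ℝ 1 (fun q : ℂ × E n => χ j q.1) p :=
      (((hχ.diff j).contDiffAt (isOpen_ball.mem_nhds (mem_ball_zero_iff.2 hp.1.1))).of_le
        (by norm_num)).comp p contDiffAt_fst
    have a2 := ((kapa_term h h2 hp (hj.mono (by norm_num))).contDiffAt (n := 1)).restrict_scalars ℝ
    exact a1.smul a2
  · refine (contDiffAt_const (c := 0)).congr_of_eventuallyEq ?_
    filter_upwards [continuous_fst.continuousAt.eventually (hχ.supp j p.1 hp.1.1 hj)] with q hq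
    rw [hq, Pi.zero_apply, zero_smul]

theorem kapa_der (h : g.TI F r M) (hχ : A.PU (ctr F) r D χ)
    (hε : 32 * g.C ^ 4 * M ^ 2 * ε ≤ 1) {k : Fin A.N} {p : ℂ × E n} (hp : p ∈ A.tk F r ε k) :
    HasFDerivAt (𝕜 := ℂ) (fun u => A.Kc χ F k (p.1, u)) (∑ j, χ j p.1 • (Ring.inverse (A.fr j F p.1) *
      fderiv ℂ (A.e j ∘ (A.e k).symm) p.2)) p.2 := by
  have h0 : 0 ≤ ε := (norm_nonneg _).trans hp.2.le
  have h1 := kapa_eps h hε h0
  unfold Atl.Kc Atl.Kf
  refine HasFDerivAt.fun_sum fun j _ => ?_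
  by_cases hj : A.In j 2 (F (p.1, 0))
  · have h2 := g.trans (hj.mono (by norm_num)) (⟨hp.1.2.1, hp.1.2.2.le⟩ : A.In k 3 (F (p.1, 0)))
      (h := p.2 - A.e k (F (p.1, 0))) (by
        have h3 : 0 < g.C ^ 2 := pow_pos (zero_lt_one.trans_le g.one) 2
        have h4 := mul_lt_mul_of_pos_left hp.2 h3
        nlinarith [mul_nonneg h3.le h0])
    rw [add_sub_cancel] at h2
    have h3 := A.hol j k _ h2.2.1 ((A.e k).map_target h2.1)
    rw [(A.e k).right_inv h2.1] at h3
    exact ((Ring.inverse (A.fr j F p.1)).hasFDerivAt.comp p.2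
      (h3.hasFDerivAt.sub_const (A.e j (F (p.1, 0))))).fun_const_smul (χ j p.1)
  · have hz : χ j p.1 = 0 := (hχ.supp j p.1 hp.1.1 hj).eq_of_nhds
    have e : ∀ (T : L n) b, (χ j p.1 • T) b = 0 := fun T b => by
      change χ j p.1 • T b = 0
      rw [hz, zero_smul]
    rw [ContinuousLinearMap.ext (g := 0) (e _)]
    exact (hasFDerivAt_const (0 : E n) p.2).congr_of_eventuallyEq
      (Eventually.of_forall fun u => e _ _)

theorem Met.kapA (h : g.TI F r M) (hχ : A.PU (ctr F) r D χ) (hε : 32 * g.C ^ 4 * M ^ 2 * ε ≤ 1)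
    (k : Fin A.N) : IP (A.dom (ctr F) r k) (fun z => A.e k (F (z, 0))) ε M (A.Kc χ F k)
      (fun z => Ring.inverse (A.fr k F z)) (A.fr k F) := by
  have hl : ∀ p ∈ A.tk F r ε k, Lin (A.Kc χ F k) p := fun p hp =>
    lin_of_diff ((kapa_diff h hχ hε hp).differentiableAt one_ne_zero)
      (kapa_der h hχ hε hp).differentiableAt
  have hb : ∀ z, ‖z‖ < r → A.Hol F (z, 0) := fun z hz => (h.bs z (mem_ball_zero_iff.2 hz)).1
  refine ⟨Atl.isOpen_dom (fun z hz => (hb z hz).ctr.holAt.1) k,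
    fun z hz => ((hb z hz.1).ctr.analyticAt hz.2.1).continuousAt.continuousWithinAt, h.one,
    fun p hp => (kapa_diff h hχ hε hp).contDiffWithinAt, hl, fun z hz => ?_, fun p hp b => ?_,
    fun z hz => ?_⟩
  · have hu := (h.bs z (mem_ball_zero_iff.2 hz.1)).2 k hz.2.1
    exact ⟨Ring.mul_inverse_cancel _ hu, Ring.inverse_mul_cancel _ hu,
      (h.fr k z hz.1 ⟨hz.2.1, hz.2.2.le⟩).1⟩
  · have h0 : 0 ≤ ε := (norm_nonneg _).trans hp.2.le
    have h1 := kapa_eps h hε h0
    have hM : 0 < M := zero_lt_one.trans_le h.one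
    have hC : 0 < g.C := zero_lt_one.trans_le g.one
    have key : ∀ j, ‖χ j p.1 • ((Ring.inverse (A.fr j F p.1) *
        fderiv ℂ (A.e j ∘ (A.e k).symm) p.2) b - Ring.inverse (A.fr k F p.1) b)‖ ≤
        χ j p.1 * (‖b‖ / (2 * M)) := fun j => by
      by_cases hj : A.In j 2 (F (p.1, 0))
      · rw [norm_smul, Real.norm_of_nonneg (hχ.nn j _ hp.1.1)]
        refine mul_le_mul_of_nonneg_left ?_ (hχ.nn j _ hp.1.1)
        have h2 := (g.trans2 (hj.mono (by norm_num))
          (⟨hp.1.2.1, hp.1.2.2.le⟩ : A.In k 3 (F (p.1, 0))) (h := p.2 - A.e k (F (p.1, 0)))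
          ((mul_lt_mul_of_pos_left hp.2 (by positivity)).trans_le h1)).1
        rw [add_sub_cancel] at h2
        have h3 := (h.fr j p.1 hp.1.1 (hj.mono (by norm_num))).2.1
        rw [← kapa_inv h hp.1.1 hj.1 hp.1.2.1, ← sub_apply, ← mul_sub]
        have h4 := h2.trans (mul_le_mul_of_nonneg_left hp.2.le (by positivity))
        refine (ContinuousLinearMap.le_opNorm _ _).trans ((mul_le_mul_of_nonneg_right
          ((norm_mul_le _ _).trans (mul_le_mul h3 h4 (norm_nonneg _) hM.le))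
          (norm_nonneg b)).trans ?_)
        rw [le_div_iff₀ (by positivity)]
        nlinarith [mul_le_mul_of_nonneg_right hε (norm_nonneg b)]
      · rw [(hχ.supp j p.1 hp.1.1 hj).eq_of_nhds]
        simp only [Pi.zero_apply, zero_smul, norm_zero, zero_mul, le_refl]
    have e1 := (lin_diff (z := p.1) (u := p.2)
      ((kapa_diff h hχ hε hp).differentiableAt one_ne_zero) (hl p hp)).2 b
    rw [(kapa_der h hχ hε hp).fderiv] at e1
    have e2 : fderiv ℝ (A.Kc χ F k) p (0, b) - Ring.inverse (A.fr k F p.1) b =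
        ∑ j, χ j p.1 • ((Ring.inverse (A.fr j F p.1) * fderiv ℂ (A.e j ∘ (A.e k).symm) p.2) b -
          Ring.inverse (A.fr k F p.1) b) := by
      simp only [smul_sub, Finset.sum_sub_distrib, ← Finset.sum_smul, hχ.sum p.1 hp.1.1, one_smul]
      rw [← e1, sum_apply]
      rfl
    rw [e2]
    refine (norm_sum_le_of_le _ fun j _ => key j).trans ?_
    rw [← Finset.sum_mul, hχ.sum p.1 hp.1.1, one_mul]
  · have e : (A.e k).symm (A.e k (F (z, 0))) = F (z, 0) := (A.e k).left_inv hz.2.1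
    simp only [Atl.Kc, Atl.Kf, e, sub_self, map_zero, smul_zero, Finset.sum_const_zero]

end Vale.Agent.P272
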