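import Vale.Agent.P272.KapA

/-! P272 KapB (task). Helper names start with `kapb_`.
Plan. With `T j` the analytic map of `kapa_term` and `c j z = fderiv χ j z 1 + I fderiv χ j z I` (of class `C^1`, `‖c j‖ ≤ 2 c M`, `∑ c j = 0`, zero near `z` if `¬ In j 2`): `Kc = ∑ χ j • T j`, `Qc = ∑ c j • T j`, `db (T j) = 0`. `le`: subtract `∑ c j • P k h = 0` and use `kapa_inv`, `trans2`. `der`: product rule, `‖T j‖ ≤ M` (`trans`), derivative of `Ring.inverse` (`hasFDerivAt_ringInverse`) is at most `M^3`, `dv_le`. -/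

open Metric Set Filter Topology Complex

noncomputable section

namespace Vale.Agent.P272

variable {n : ℕ} {X : Type} [TopologicalSpace X] {A : Atl n X}

/-- Twice the conjugate derivative of a real function. -/
def kapb_c (χ : ℂ → ℝ) (z : ℂ) : ℂ := (fderiv ℝ χ z 1 : ℂ) + I * (fderiv ℝ χ z I : ℝ)

theorem kapb_c_zero {χ : ℂ → ℝ} {z : ℂ} (h : χ =ᶠ[𝓝 z] 0) : kapb_c χ =ᶠ[𝓝 z] 0 := by
  filter_upwards [h.eventually_nhds] with w hw
  have h1 : fderiv ℝ χ w = 0 := by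
    rw [Filter.EventuallyEq.fderiv_eq hw]
    exact fderiv_const_apply (0 : ℝ)
  simp [kapb_c, h1]

theorem kapb_c_diff {χ : ℂ → ℝ} {z : ℂ} (h : ContDiffAt ℝ 2 χ z) : ContDiffAt ℝ 1 (kapb_c χ) z := by
  have h1 : ContDiffAt ℝ 1 (fderiv ℝ χ) z := h.fderiv_right (by norm_num)
  have h2 : ∀ v : ℂ, ContDiffAt ℝ 1 (fun w => ((fderiv ℝ χ w v : ℝ) : ℂ)) z := fun v =>
    Complex.ofRealCLM.contDiff.contDiffAt.comp z (h1.clm_apply contDiffAt_const)
  exact (h2 1).add (contDiffAt_const.mul (h2 I))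

theorem kapb_c_le {χ : ℂ → ℝ} {z : ℂ} {D : ℝ} (h : ‖fderiv ℝ χ z‖ ≤ D) : ‖kapb_c χ z‖ ≤ 2 * D := by
  have h1 : ∀ v : ℂ, ‖v‖ = 1 → ‖((fderiv ℝ χ z v : ℝ) : ℂ)‖ ≤ D := fun v hv => by
    rw [Complex.norm_real]
    have := (fderiv ℝ χ z).le_opNorm v
    rw [hv, mul_one] at this
    exact this.trans h
  refine (norm_add_le _ _).trans ?_
  rw [norm_mul, Complex.norm_I, one_mul]
  linarith [h1 1 norm_one, h1 I Complex.norm_I]

theorem kapb_c_sum {N : ℕ} {χ : Fin N → ℂ → ℝ} {z : ℂ} (h : ∀ j, DifferentiableAt ℝ (χ j) z)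
    (hs : ∀ᶠ w in 𝓝 z, ∑ j, χ j w = 1) : ∑ j, kapb_c (χ j) z = 0 := by
  have h1 : HasFDerivAt (fun w => ∑ j, χ j w) (∑ j, fderiv ℝ (χ j) z) z :=
    HasFDerivAt.fun_sum fun j _ => (h j).hasFDerivAt
  have h2 : HasFDerivAt (fun w => ∑ j, χ j w) (0 : ℂ →L[ℝ] ℝ) z :=
    (hasFDerivAt_const (1 : ℝ) z).congr_of_eventuallyEq hs
  have h3 := h1.unique h2
  have h4 : ∀ v : ℂ, ∑ j, ((fderiv ℝ (χ j) z v : ℝ) : ℂ) = 0 := fun v => by
    rw [← Complex.ofReal_sum, ← ContinuousLinearMap.sum_apply, h3]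
    simp
  simp only [kapb_c]
  rw [Finset.sum_add_distrib, ← Finset.mul_sum, h4, h4]
  simp

theorem kapb_k {χ : ℂ → ℝ} {T : ℂ × E n → E n} {p : ℂ × E n} (h : DifferentiableAt ℝ χ p.1)
    (hT : χ =ᶠ[𝓝 p.1] 0 ∨ AnalyticAt ℂ T p) : ∃ D : ℂ × E n →L[ℝ] E n,
      HasFDerivAt (fun q : ℂ × E n => χ q.1 • T q) D p ∧
      ∀ v, D v = χ p.1 • fderiv ℂ T p v + fderiv ℝ χ p.1 v.1 • T p := by
  rcases hT with hT | hT
  · refine ⟨0, (hasFDerivAt_const (0 : E n) p).congr_of_eventuallyEq ?_, fun v => ?_⟩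
    · filter_upwards [continuous_fst.continuousAt.tendsto.eventually hT] with q hq
      rw [hq]
      simp
    · have h1 : fderiv ℝ χ p.1 = 0 := by
        rw [hT.fderiv_eq]
        exact fderiv_const_apply (0 : ℝ)
      rw [h1, hT.eq_of_nhds]
      simp
  · have h1 : HasFDerivAt (fun q : ℂ × E n => χ q.1)
        ((fderiv ℝ χ p.1).comp (ContinuousLinearMap.fst ℝ ℂ (E n))) p :=
      h.hasFDerivAt.comp p hasFDerivAt_fst
    exact ⟨_, h1.smul (hT.differentiableAt.hasFDerivAt.restrictScalars ℝ), fun v => rfl⟩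

theorem kapb_db {N : ℕ} {χ : Fin N → ℂ → ℝ} {T : Fin N → ℂ × E n → E n} {p : ℂ × E n}
    (h : ∀ j, DifferentiableAt ℝ (χ j) p.1)
    (hT : ∀ j, χ j =ᶠ[𝓝 p.1] 0 ∨ AnalyticAt ℂ (T j) p) :
    (∀ v, fderiv ℝ (fun q : ℂ × E n => ∑ j, χ j q.1 • T j q) p v =
      ∑ j, (χ j p.1 • fderiv ℂ (T j) p v + fderiv ℝ (χ j) p.1 v.1 • T j p)) ∧
    db (fun q : ℂ × E n => ∑ j, χ j q.1 • T j q) p = ∑ j, kapb_c (χ j) p.1 • T j p := by
  choose D hD hv using fun j => kapb_k (h j) (hT j)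
  have h1 : ∀ v, fderiv ℝ (fun q : ℂ × E n => ∑ j, χ j q.1 • T j q) p v =
      ∑ j, (χ j p.1 • fderiv ℂ (T j) p v + fderiv ℝ (χ j) p.1 v.1 • T j p) := fun v => by
    rw [(HasFDerivAt.fun_sum fun j _ => hD j).fderiv, ContinuousLinearMap.sum_apply]
    exact Finset.sum_congr rfl fun j _ => hv j v
  refine ⟨h1, ?_⟩
  rw [db, h1, h1, Finset.smul_sum, ← Finset.sum_add_distrib]
  refine Finset.sum_congr rfl fun j _ => ?_
  have h2 : ((I, 0) : ℂ × E n) = I • ((1, 0) : ℂ × E n) := by simp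
  have h3 : fderiv ℂ (T j) p (I, 0) = I • fderiv ℂ (T j) p (1, 0) := by rw [h2, map_smul]
  rw [h3, kapb_c, ← coe_smul, ← coe_smul, ← coe_smul, ← coe_smul]
  simp only [smul_add, smul_smul, add_smul]
  have h4 : I * ((χ j p.1 : ℂ) * I) = -(χ j p.1 : ℂ) := by
    linear_combination (χ j p.1 : ℂ) * I_mul_I
  rw [h4, neg_smul]
  abel

theorem kapb_q {c : ℂ → ℂ} {T : ℂ × E n → E n} {p : ℂ × E n} (h : ContDiffAt ℝ 1 c p.1)
    (hT : c =ᶠ[𝓝 p.1] 0 ∨ AnalyticAt ℂ T p) :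
    ContDiffAt ℝ 1 (fun q : ℂ × E n => c q.1 • T q) p ∧
      DifferentiableAt ℂ (fun u => c p.1 • T (p.1, u)) p.2 := by
  rcases hT with hT | hT
  · refine ⟨(contDiffAt_const (c := (0 : E n))).congr_of_eventuallyEq ?_, ?_⟩
    · filter_upwards [continuous_fst.continuousAt.tendsto.eventually hT] with q hq
      rw [hq]
      simp
    · rw [hT.eq_of_nhds]
      simp
  · refine ⟨(h.comp p contDiffAt_fst).smul ((hT.contDiffAt (n := 1)).restrict_scalars ℝ), ?_⟩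
    have h1 : DifferentiableAt ℂ T (p.1, p.2) := hT.differentiableAt
    have h2 : DifferentiableAt ℂ (fun u => T (p.1, u)) p.2 :=
      h1.comp p.2 ((differentiableAt_const _).prodMk differentiableAt_id)
    exact h2.const_smul (c p.1)

theorem kapb_dz {T : ℂ × E n → E n} {p : ℂ × E n} (hT : AnalyticAt ℂ T p) {d : E n}
    (hd : HasDerivAt (fun z => T (z, p.2)) d p.1) (a : ℂ) : fderiv ℂ T p (a, 0) = a • d := by
  have h1 : HasFDerivAt T (fderiv ℂ T p) (p.1, p.2) := hT.differentiableAt.hasFDerivAt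
  have h2 : HasDerivAt (fun z : ℂ => ((z, p.2) : ℂ × E n)) (1, 0) p.1 :=
    (hasDerivAt_id p.1).prodMk (hasDerivAt_const p.1 p.2)
  have h3 := (h1.comp_hasDerivAt p.1 h2).unique hd
  have h4 : ((a, 0) : ℂ × E n) = a • ((1, 0) : ℂ × E n) := by simp
  rw [h4, map_smul, h3]

theorem kapb_inv {V : ℂ → L n} {z : ℂ} {M : ℝ} (hd : DifferentiableAt ℂ V z) (hu : IsUnit (V z))
    (h1 : ‖Ring.inverse (V z)‖ ≤ M) (h2 : ‖deriv V z‖ ≤ M) : ∃ P' : L n,
      HasDerivAt (fun w => Ring.inverse (V w)) P' z ∧ ‖P'‖ ≤ M ^ 3 := by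
  obtain ⟨u, hu⟩ := hu
  have h3 : HasFDerivAt Ring.inverse
      (-ContinuousLinearMap.mulLeftRight ℂ (L n) ↑u⁻¹ ↑u⁻¹) (V z) := by
    rw [← hu]
    exact hasFDerivAt_ringInverse u
  refine ⟨_, h3.comp_hasDerivAt z hd.hasDerivAt, ?_⟩
  rw [← hu, Ring.inverse_unit] at h1
  have h0 : 0 ≤ M := (norm_nonneg _).trans h1
  rw [neg_apply, norm_neg, ContinuousLinearMap.mulLeftRight_apply]
  calc _ ≤ ‖(↑u⁻¹ : L n)‖ * ‖deriv V z‖ * ‖(↑u⁻¹ : L n)‖ :=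
        (norm_mul_le _ _).trans (mul_le_mul_of_nonneg_right (norm_mul_le _ _) (norm_nonneg _))
    _ ≤ M * M * M := by gcongr
    _ = M ^ 3 := by ring

section

variable [T2Space X] {g : Met A} {F : ℂ × E n → X} {r M D ε : ℝ} {χ : Fin A.N → ℂ → ℝ}
  {j k : Fin A.N} {p : ℂ × E n}

/-- One term. -/
def kapb_T (A : Atl n X) (F : ℂ × E n → X) (k j : Fin A.N) (q : ℂ × E n) : E n :=
  Ring.inverse (A.fr j F q.1) (A.e j ((A.e k).symm q.2) - A.e j (F (q.1, 0)))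

omit [T2Space X] in
theorem kapb_small (h : g.TI F r M) (hε : 32 * g.C ^ 4 * M ^ 2 * ε ≤ 1) (hp : p ∈ A.tk F r ε k) :
    g.C ^ 2 * ε ≤ 1 ∧ 4 * g.C ^ 2 * ‖p.2 - A.e k (F (p.1, 0))‖ < 1 ∧ ‖p.1‖ < r ∧
      A.In k 3 (F (p.1, 0)) := by
  have h1 : ‖p.2 - A.e k (F (p.1, 0))‖ < ε := hp.2
  have h0 : 0 < ε := (norm_nonneg _).trans_lt h1
  have h2 : 1 ≤ g.C ^ 2 := one_le_pow₀ g.one
  have h3 : 1 ≤ M ^ 2 := one_le_pow₀ h.one
  have h4 : 1 ≤ g.C ^ 2 * M ^ 2 := one_le_mul_of_one_le_of_one_le h2 h3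
  have h5 : 32 * (g.C ^ 2 * ε) ≤ 1 := by
    have h6 : 0 ≤ g.C ^ 2 * ε := by positivity
    nlinarith [mul_le_mul_of_nonneg_left h4 h6]
  have h7 : g.C ^ 2 * ‖p.2 - A.e k (F (p.1, 0))‖ ≤ g.C ^ 2 * ε := by gcongr
  have h8 : 0 ≤ g.C ^ 2 * ε := by positivity
  exact ⟨by linarith, by linarith, hp.1.1, hp.1.2.1, hp.1.2.2.le⟩

theorem kapb_or (h : g.TI F r M) (hχ : A.PU (ctr F) r D χ) (hε : 32 * g.C ^ 4 * M ^ 2 * ε ≤ 1)
    (hp : p ∈ A.tk F r ε k) (j : Fin A.N) : χ j =ᶠ[𝓝 p.1] 0 ∨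
      (A.In j 3 (F (p.1, 0)) ∧ AnalyticAt ℂ (kapb_T A F k j) p) := by
  obtain ⟨s1, -, s3, -⟩ := kapb_small h hε hp
  by_cases hj : A.In j 2 (ctr F p.1)
  · have h3 : A.In j 3 (F (p.1, 0)) := hj.mono (by norm_num)
    exact Or.inr ⟨h3, kapa_term h s1 hp h3⟩
  · exact Or.inl (hχ.supp j _ s3 hj)

theorem kapb_T_le (h : g.TI F r M) (hε : 32 * g.C ^ 4 * M ^ 2 * ε ≤ 1) (hp : p ∈ A.tk F r ε k)
    (hj : A.In j 3 (F (p.1, 0))) : ‖A.e j ((A.e k).symm p.2) - A.e j (F (p.1, 0))‖ ≤ 1 ∧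
      ‖kapb_T A F k j p - Ring.inverse (A.fr k F p.1) (p.2 - A.e k (F (p.1, 0)))‖ ≤
        M * (16 * g.C ^ 4 * ‖p.2 - A.e k (F (p.1, 0))‖ ^ 2) := by
  obtain ⟨-, s2, s3, s4⟩ := kapb_small h hε hp
  have h0 : 0 ≤ g.C ^ 2 * ‖p.2 - A.e k (F (p.1, 0))‖ := by positivity
  have h1 := (g.trans hj s4 (h := p.2 - A.e k (F (p.1, 0))) (by linarith)).2.2
  have h2 := (g.trans2 hj s4 s2).2
  rw [add_sub_cancel] at h1 h2
  refine ⟨by linarith, ?_⟩
  rw [← kapa_inv h s3 hj.1 s4.1, kapb_T, ContinuousLinearMap.mul_apply, ← map_sub]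
  refine (ContinuousLinearMap.le_opNorm _ _).trans ?_
  exact mul_le_mul (h.fr j _ s3 hj).2.1 h2 (norm_nonneg _) (zero_le_one.trans h.one)

theorem kapb_T_der (h : g.TI F r M) (hε : 32 * g.C ^ 4 * M ^ 2 * ε ≤ 1) (hp : p ∈ A.tk F r ε k)
    (hj : A.In j 3 (F (p.1, 0))) (hT : AnalyticAt ℂ (kapb_T A F k j) p) (a : ℂ) :
    ‖kapb_T A F k j p‖ ≤ M ∧ ‖fderiv ℂ (kapb_T A F k j) p (a, 0)‖ ≤ (1 + g.C) * M ^ 3 * ‖a‖ := by
  obtain ⟨-, -, s3, -⟩ := kapb_small h hε hp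
  have h1 := (kapb_T_le h hε hp hj).1
  obtain ⟨-, f2, f3⟩ := h.fr j _ s3 hj
  have m1 := h.one
  have m0 : 0 ≤ M := zero_le_one.trans m1
  have c0 : 0 ≤ g.C := zero_le_one.trans g.one
  obtain ⟨b1, b2⟩ := h.bs p.1 (mem_ball_zero_iff.2 s3)
  obtain ⟨P', hP, hP'⟩ := kapb_inv (b1.fr_analytic hj.1).differentiableAt (b2 j hj.1) f2 f3
  have h2 : HasDerivAt (fun z => A.e j (F (z, 0))) (A.dv j (ctr F) p.1) p.1 :=
    (b1.ctr.holAt.2 j hj.1).hasDerivAt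
  have h3 : ‖A.dv j (ctr F) p.1‖ ≤ g.C * M :=
    g.dv_le b1.ctr.holAt (hj.mono (by norm_num)) m0 (h.sp _ s3)
  have h4 := hP.clm_apply (h2.const_sub (A.e j ((A.e k).symm p.2)))
  refine ⟨?_, ?_⟩
  · refine (ContinuousLinearMap.le_opNorm _ _).trans ?_
    simpa using mul_le_mul f2 h1 (norm_nonneg _) m0
  · rw [kapb_dz hT h4, norm_smul, mul_comm]
    refine mul_le_mul_of_nonneg_right ((norm_add_le _ _).trans ?_) (norm_nonneg _)
    have h5 : ‖P' (A.e j ((A.e k).symm p.2) - A.e j (F (p.1, 0)))‖ ≤ M ^ 3 * 1 :=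
      (ContinuousLinearMap.le_opNorm _ _).trans
        (mul_le_mul hP' h1 (norm_nonneg _) (by positivity))
    have h6 : ‖Ring.inverse (A.fr j F p.1) (-A.dv j (ctr F) p.1)‖ ≤ M * (g.C * M) :=
      (ContinuousLinearMap.le_opNorm _ _).trans
        (mul_le_mul f2 (by rwa [norm_neg]) (norm_nonneg _) m0)
    have h7 : g.C * M ^ 2 * 1 ≤ g.C * M ^ 2 * M := by gcongr
    nlinarith

end

theorem Met.kap [T2Space X] (g : Met A) (c : ℝ) (hc : 1 ≤ c) : ∃ B : ℝ, 1 ≤ B ∧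
    ∀ (F : ℂ × E n → X) (r M ε : ℝ) (χ : Fin A.N → ℂ → ℝ), g.TI F r M →
      A.PU (ctr F) r (c * M) χ → 32 * g.C ^ 4 * M ^ 2 * ε ≤ 1 → A.KP χ F r ε M B := by
  have c0 : 0 ≤ g.C := zero_le_one.trans g.one
  have b1 : 0 ≤ (A.N : ℝ) * (32 * c * g.C ^ 4) := by positivity
  have b2 : 0 ≤ (A.N : ℝ) * (1 + g.C + c) := by positivity
  refine ⟨1 + A.N * (32 * c * g.C ^ 4) + A.N * (1 + g.C + c), by linarith,
    fun F r M ε χ h hχ hε => ?_⟩
  have m1 := h.one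
  have m0 : 0 ≤ M := zero_le_one.trans m1
  have eK : ∀ k, A.Kc χ F k = fun q => ∑ j, χ j q.1 • kapb_T A F k j q := fun k => rfl
  have eQ : ∀ k, A.Qc χ F k = fun q => ∑ j, kapb_c (χ j) q.1 • kapb_T A F k j q := fun k => rfl
  have d2 : ∀ j z, ‖z‖ < r → ContDiffAt ℝ 2 (χ j) z := fun j z hz =>
    (hχ.diff j).contDiffAt (isOpen_ball.mem_nhds (mem_ball_zero_iff.2 hz))
  have d1 : ∀ j z, ‖z‖ < r → DifferentiableAt ℝ (χ j) z := fun j z hz =>
    (d2 j z hz).differentiableAt (by norm_num)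
  have hq := fun k p (hp : p ∈ A.tk F r ε k) j => kapb_q (kapb_c_diff (d2 j _ hp.1.1))
    ((kapb_or h hχ hε hp j).imp kapb_c_zero And.right)
  have hQ : ∀ k, ∀ p ∈ A.tk F r ε k, ContDiffAt ℝ 1 (A.Qc χ F k) p := fun k p hp => by
    rw [eQ]
    exact ContDiffAt.sum fun j _ => (hq k p hp j).1
  have hk := fun k p (hp : p ∈ A.tk F r ε k) => kapb_db (fun j => d1 j _ hp.1.1)
    fun j => (kapb_or h hχ hε hp j).imp id And.right
  refine ⟨Met.kapA h hχ hε, fun k p hp => (hQ k p hp).contDiffWithinAt, fun k p hp => ?_,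
    fun k p hp => (hk k p hp).2, fun k p hp => ?_, fun k p hp a => ?_⟩
  · refine lin_of_diff (z := p.1) (u := p.2) ((hQ k p hp).differentiableAt (by norm_num)) ?_
    rw [eQ]
    exact DifferentiableAt.fun_sum fun j _ => (hq k p hp j).2
  · have s0 : ∑ j, kapb_c (χ j) p.1 = 0 := kapb_c_sum (fun j => d1 j _ hp.1.1) (by
      filter_upwards [isOpen_ball.mem_nhds (mem_ball_zero_iff.2 hp.1.1)] with w hw
      exact hχ.sum w (mem_ball_zero_iff.1 hw))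
    set w := Ring.inverse (A.fr k F p.1) (p.2 - A.e k (F (p.1, 0))) with hw
    set t := ‖p.2 - A.e k (F (p.1, 0))‖ ^ 2 with ht
    have t0 : 0 ≤ t := by positivity
    have e1 : A.Qc χ F k p = ∑ j, kapb_c (χ j) p.1 • (kapb_T A F k j p - w) := by
      simp only [smul_sub, Finset.sum_sub_distrib]
      rw [← Finset.sum_smul, s0, zero_smul, sub_zero, eQ]
    have e2 : ∀ j, ‖kapb_c (χ j) p.1 • (kapb_T A F k j p - w)‖ ≤
        32 * c * g.C ^ 4 * (M ^ 2 * t) := fun j => by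
      rcases kapb_or h hχ hε hp j with hj | hj
      · rw [(kapb_c_zero hj).eq_of_nhds]
        simp only [Pi.zero_apply, zero_smul, norm_zero]
        positivity
      · rw [norm_smul]
        refine (mul_le_mul (kapb_c_le (hχ.der j _ hp.1.1)) (kapb_T_le h hε hp hj.1).2
          (norm_nonneg _) (by positivity)).trans_eq ?_
        rw [← ht]
        ring
    rw [e1]
    refine (norm_sum_le _ _).trans ((Finset.sum_le_card_nsmul _ _ _ fun j _ => e2 j).trans ?_)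
    rw [Finset.card_univ, Fintype.card_fin, nsmul_eq_mul, ← mul_assoc, mul_assoc _ (M ^ 2)]
    exact mul_le_mul_of_nonneg_right (by linarith) (by positivity)
  · have e2 : ∀ j, ‖χ j p.1 • fderiv ℂ (kapb_T A F k j) p (a, 0) +
        fderiv ℝ (χ j) p.1 a • kapb_T A F k j p‖ ≤ (1 + g.C + c) * (M ^ 3 * ‖a‖) := fun j => by
      rcases kapb_or h hχ hε hp j with hj | hj
      · have h1 : fderiv ℝ (χ j) p.1 = 0 := by
          rw [hj.fderiv_eq]
          exact fderiv_const_apply (0 : ℝ)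
        rw [h1, hj.eq_of_nhds]
        simp only [Pi.zero_apply, zero_smul, ContinuousLinearMap.zero_apply, add_zero, norm_zero]
        positivity
      · obtain ⟨t1, t2⟩ := kapb_T_der h hε hp hj.1 hj.2 a
        have x0 := hχ.nn j _ hp.1.1
        have x1 : χ j p.1 ≤ 1 := by
          rw [← hχ.sum _ hp.1.1]
          exact Finset.single_le_sum (f := fun i => χ i p.1) (fun i _ => hχ.nn i _ hp.1.1)
            (Finset.mem_univ j)
        have x2 : ‖fderiv ℝ (χ j) p.1 a‖ ≤ c * M * ‖a‖ :=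
          (ContinuousLinearMap.le_opNorm _ _).trans
            (mul_le_mul_of_nonneg_right (hχ.der j _ hp.1.1) (norm_nonneg _))
        have x3 : ‖χ j p.1‖ ≤ 1 := by rwa [Real.norm_of_nonneg x0]
        refine (norm_add_le _ _).trans ?_
        rw [norm_smul, norm_smul]
        have y1 := mul_le_mul x3 t2 (norm_nonneg _) zero_le_one
        have y2 := mul_le_mul x2 t1 (norm_nonneg _) (by positivity)
        have y3 : c * M ^ 2 * ‖a‖ * 1 ≤ c * M ^ 2 * ‖a‖ * M := by gcongr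
        nlinarith
    rw [eK, (hk k p hp).1]
    refine (norm_sum_le _ _).trans ((Finset.sum_le_card_nsmul _ _ _ fun j _ => e2 j).trans ?_)
    rw [Finset.card_univ, Fintype.card_fin, nsmul_eq_mul, ← mul_assoc, mul_assoc _ (M ^ 3)]
    exact mul_le_mul_of_nonneg_right (by linarith) (by positivity)

end Vale.Agent.P272
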