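import Vale.Agent.P272.Loc
import Vale.Agent.P272.Hol4

/-! P272 Lip (task). Helper names start with `lip_`.
Plan. Let `t = min d (1 / (C M)) / 2 ≥ d / (2 C M)`. If `‖z - w‖ ≥ t` use the sup bounds. Otherwise work in the chart `j = ch (F (z, 0))` on `ball z (2 t) ⊆ ball 0 R` (`loc_ball`): `fr j F` and `dv j (ctr F)` are holomorphic there and bounded by `C M` (`fr_le`, `dv_le`), so Schwarz (`Complex.dist_le_div_mul_dist_of_mapsTo_ball`) bounds their increments by `C M ‖z - w‖ / t`; `lip` for `Γ`; `Gr_eq`, `sp_eq`. -/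

open Metric Set Filter Topology Complex

noncomputable section

namespace Vale.Agent.P272

variable {n : ℕ} {X : Type} [TopologicalSpace X] {A : Atl n X}

theorem lip_m3 {x y z a b c : ℝ} (hx : x ≤ a) (hy : y ≤ b) (hz : z ≤ c) (x0 : 0 ≤ x) (y0 : 0 ≤ y)
    (z0 : 0 ≤ z) : x * y * z ≤ a * b * c :=
  mul_le_mul (mul_le_mul hx hy y0 (x0.trans hx)) hz z0 (mul_nonneg (x0.trans hx) (y0.trans hy))

theorem lip_n3 (S T U : L n) : ‖star S * T * U‖ ≤ ‖S‖ * ‖T‖ * ‖U‖ := by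
  refine (norm_mul_le _ _).trans (mul_le_mul_of_nonneg_right ?_ (norm_nonneg _))
  exact (norm_mul_le _ _).trans_eq (congrArg (· * ‖T‖) (norm_star S))

theorem lip_op {V V' Γ Γ' : L n} {a b δ ε : ℝ} (hV : ‖V‖ ≤ a) (hV' : ‖V'‖ ≤ a) (hΓ : ‖Γ‖ ≤ b)
    (hΓ' : ‖Γ'‖ ≤ b) (h1 : ‖V - V'‖ ≤ δ) (h2 : ‖Γ - Γ'‖ ≤ ε) :
    ‖star V * Γ * V - star V' * Γ' * V'‖ ≤ 2 * δ * b * a + a * ε * a := by
  have e : star V * Γ * V - star V' * Γ' * V' =
      star (V - V') * Γ * V + star V' * (Γ - Γ') * V + star V' * Γ' * (V - V') := by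
    have e' : star (V - V') = star V - star V' := star_sub V V'
    simp only [e', sub_mul, mul_sub]
    abel
  have a1 := (lip_n3 _ _ _).trans
    (lip_m3 h1 hΓ hV (norm_nonneg _) (norm_nonneg _) (norm_nonneg _))
  have a2 := (lip_n3 _ _ _).trans
    (lip_m3 hV' h2 hV (norm_nonneg _) (norm_nonneg _) (norm_nonneg _))
  have a3 := (lip_n3 _ _ _).trans
    (lip_m3 hV' hΓ' h1 (norm_nonneg _) (norm_nonneg _) (norm_nonneg _))
  rw [e]
  refine norm_add₃_le.trans ?_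
  linarith

theorem lip_i3 (x : E n) (T : L n) (y : E n) : ‖inner ℂ x (T y)‖ ≤ ‖x‖ * ‖T‖ * ‖y‖ := by
  rw [mul_assoc]
  exact (norm_inner_le_norm _ _).trans
    (mul_le_mul_of_nonneg_left (T.le_opNorm y) (norm_nonneg _))

theorem lip_qf {v v' : E n} {Γ Γ' : L n} {a b δ ε : ℝ} (hV : ‖v‖ ≤ a) (hV' : ‖v'‖ ≤ a)
    (hΓ : ‖Γ‖ ≤ b) (hΓ' : ‖Γ'‖ ≤ b) (h1 : ‖v - v'‖ ≤ δ) (h2 : ‖Γ - Γ'‖ ≤ ε) :
    |qf Γ v - qf Γ' v'| ≤ 2 * δ * b * a + a * ε * a := by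
  have e : inner ℂ v (Γ v) - inner ℂ v' (Γ' v') =
      inner ℂ (v - v') (Γ v) + inner ℂ v' ((Γ - Γ') v) + inner ℂ v' (Γ' (v - v')) := by
    simp only [inner_sub_left, inner_sub_right, map_sub, sub_apply]
    ring
  have a1 := (lip_i3 _ _ _).trans
    (lip_m3 h1 hΓ hV (norm_nonneg _) (norm_nonneg _) (norm_nonneg _))
  have a2 := (lip_i3 _ _ _).trans
    (lip_m3 hV' h2 hV (norm_nonneg _) (norm_nonneg _) (norm_nonneg _))
  have a3 := (lip_i3 _ _ _).trans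
    (lip_m3 hV' hΓ' h1 (norm_nonneg _) (norm_nonneg _) (norm_nonneg _))
  rw [qf, qf, ← sub_re, e]
  refine (abs_re_le_norm _).trans (norm_add₃_le.trans ?_)
  linarith

theorem lip_sch {V : Type} [NormedAddCommGroup V] [NormedSpace ℂ V] {k : ℂ → V} {z w : ℂ}
    {t B : ℝ} (hk : DifferentiableOn ℂ k (ball z t)) (hB : ∀ u ∈ ball z t, ‖k u‖ ≤ B)
    (hw : w ∈ ball z t) : ‖k z - k w‖ ≤ 2 * B / t * ‖z - w‖ := by
  have hz : z ∈ ball z t := mem_ball_self (pos_of_mem_ball hw)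
  have h := dist_le_div_mul_dist_of_mapsTo_ball (R₂ := 2 * B) hk (fun u hu => by
    rw [mem_closedBall_iff_norm]
    linarith [norm_sub_le (k u) (k z), hB u hu, hB z hz]) hw
  rwa [dist_comm, dist_comm w, dist_eq_norm, dist_eq_norm] at h

theorem Met.lip_est [T2Space X] (g : Met A) : ∃ C : ℝ, 1 ≤ C ∧ ∀ (F : ℂ × E n → X) (R M d : ℝ),
    g.Cr F R M → 0 < d → d ≤ 1 → ∀ z w, ‖z‖ ≤ R - d → ‖w‖ ≤ R - d →
      ‖g.Gr F z - g.Gr F w‖ ≤ C * M ^ 3 / d * ‖z - w‖ ∧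
        |g.sp (ctr F) z - g.sp (ctr F) w| ≤ C * M ^ 3 / d * ‖z - w‖ := by
  refine ⟨5 * g.C ^ 4, by nlinarith [one_le_pow₀ (n := 4) g.one], ?_⟩
  intro F R M d hF hd hd1 z w hz hw
  have hc := g.one
  have hM := hF.one
  have hcM : 0 < g.C * M := by positivity
  have hcM1 : 1 ≤ g.C * M := one_le_mul_of_one_le_of_one_le hc hM
  obtain ⟨t, ht⟩ : ∃ t, t = d / (g.C * M) := ⟨_, rfl⟩
  have ht1 : g.C * M * t = d := by rw [ht, mul_div_cancel₀ _ hcM.ne']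
  have ht0 : 0 < t := by
    rw [ht]
    positivity
  have htd : t ≤ d := by nlinarith
  have hzR : ‖z‖ < R := by linarith
  have hwR : ‖w‖ < R := by linarith
  rcases le_or_gt t ‖z - w‖ with hr | hr
  · have h1 : 2 * M ^ 2 ≤ 5 * g.C ^ 4 * M ^ 3 / d * ‖z - w‖ := by
      refine le_trans ?_ (mul_le_mul_of_nonneg_left hr (by positivity))
      have e : 5 * g.C ^ 4 * M ^ 3 / d * t = 5 * g.C ^ 3 * M ^ 2 := by
        rw [ht]
        field_simp
      rw [e]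
      exact mul_le_mul_of_nonneg_right (by nlinarith [one_le_pow₀ (n := 3) g.one]) (sq_nonneg _)
    refine ⟨le_trans ?_ h1, le_trans ?_ h1⟩
    · refine (norm_sub_le _ _).trans ?_
      nlinarith [hF.gr z hzR, hF.gr w hwR]
    · rw [abs_le]
      constructor <;> nlinarith [hF.sp z hzR, hF.sp w hwR, g.sp_nonneg (ctr F) z,
        g.sp_nonneg (ctr F) w]
  have hb : ∀ u ∈ ball z t, ‖u‖ < R := by
    intro u hu
    rw [mem_ball_iff_norm] at hu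
    have := norm_le_norm_add_norm_sub' u z
    linarith
  have hH : ∀ u ∈ ball z t, A.Hol F (u, 0) := fun u hu =>
    (hF.bs u (mem_ball_zero_iff.2 (hb u hu))).1
  obtain ⟨j, hj⟩ : ∃ j, A.In j 3 (ctr F z) := ⟨_, A.in_ch _ (by norm_num)⟩
  have hL : ∀ u ∈ ball z t, A.In j 4 (ctr F u) ∧
      ‖A.e j (ctr F u) - A.e j (ctr F z)‖ ≤ g.C * M * ‖u - z‖ := fun u hu =>
    g.loc_ball (by linarith) (fun u hu => ⟨(hH u hu).ctr.holAt, hF.sp u (hb u hu)⟩) hj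
      (by linarith) hu
  have hz' : z ∈ ball z t := mem_ball_self ht0
  have hw' : w ∈ ball z t := by rwa [mem_ball_iff_norm, norm_sub_rev]
  have hV : ∀ u ∈ ball z t, ‖A.fr j F u‖ ≤ g.C * M := fun u hu =>
    g.fr_le (hH u hu).holAt (hL u hu).1 hM (hF.gr u (hb u hu))
  have hv : ∀ u ∈ ball z t, ‖A.dv j (ctr F) u‖ ≤ g.C * M := fun u hu =>
    g.dv_le (hH u hu).ctr.holAt (hL u hu).1 (by linarith) (hF.sp u (hb u hu))
  have dV := lip_sch (k := A.fr j F)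
    (fun u hu => ((hH u hu).fr_analytic (hL u hu).1.1).differentiableAt.differentiableWithinAt)
    hV hw'
  have dv := lip_sch (k := A.dv j (ctr F))
    (fun u hu =>
      ((hH u hu).ctr.analyticAt (hL u hu).1.1).deriv.differentiableAt.differentiableWithinAt)
    hv hw'
  have hΓ : ‖g.Γ j (A.e j (ctr F z)) - g.Γ j (A.e j (ctr F w))‖ ≤ g.C * (g.C * M * ‖z - w‖) := by
    refine (g.lip j _ _ (hL z hz').1.2 (hL w hw').1.2).trans ?_
    rw [norm_sub_rev, norm_sub_rev z]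
    exact mul_le_mul_of_nonneg_left (hL w hw').2 (by linarith)
  have hfin : 2 * (2 * (g.C * M) / t * ‖z - w‖) * g.C * (g.C * M) +
      g.C * M * (g.C * (g.C * M * ‖z - w‖)) * (g.C * M) ≤ 5 * g.C ^ 4 * M ^ 3 / d * ‖z - w‖ := by
    have e : 2 * (2 * (g.C * M) / t * ‖z - w‖) * g.C * (g.C * M) =
        4 * (g.C ^ 4 * M ^ 3 / d * ‖z - w‖) := by
      rw [ht]
      field_simp
      ring
    have h1 : g.C ^ 4 * M ^ 3 ≤ g.C ^ 4 * M ^ 3 / d := le_div_self (by positivity) hd hd1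
    have h2 := mul_le_mul_of_nonneg_right h1 (norm_nonneg (z - w))
    have e2 : 5 * g.C ^ 4 * M ^ 3 / d * ‖z - w‖ = 5 * (g.C ^ 4 * M ^ 3 / d * ‖z - w‖) := by ring
    rw [e, e2]
    linarith
  refine ⟨le_trans ?_ hfin, le_trans ?_ hfin⟩
  · rw [g.Gr_eq (hH z hz').holAt (hL z hz').1, g.Gr_eq (hH w hw').holAt (hL w hw').1]
    exact lip_op (hV z hz') (hV w hw') (g.up j _ (hL z hz').1.2) (g.up j _ (hL w hw').1.2) dV hΓ
  · rw [g.sp_eq (hH z hz').ctr.holAt (hL z hz').1, g.sp_eq (hH w hw').ctr.holAt (hL w hw').1]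
    exact lip_qf (hv z hz') (hv w hw') (g.up j _ (hL z hz').1.2) (g.up j _ (hL w hw').1.2) dv hΓ

end Vale.Agent.P272
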