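import Vale.Agent.P272.Defs

/-! P272 MP0 (task). Helper names start with `mp0_`.
Plan. With `a = 1 + Λ r^2`: `bar z * bar z₁ = ‖a - Λ (conj z₁) z‖^2 - a Λ ‖z - z₁‖^2`. Put `ψ z = φ z * (bar z₁ / (a - Λ (conj z₁) z))^K`; `‖ψ z₁‖ = 1` and near `z₁`, `‖ψ z‖^2 ≤ (1 + κ x) (1 - a Λ x / ‖a - Λ (conj z₁) z‖^2)^K` with `x = ‖z - z₁‖^2`, which is `≤ exp (κ x - K a Λ x / ‖..‖^2) < 1` for `z ≠ z₁` near `z₁` (continuity of the strict inequality `hκ`). `Complex.eventually_eq_of_isLocalMax_norm` (or `norm_eventually_eq_of_isLocalMax`) gives a contradiction on the punctured neighbourhood. -/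

open Metric Set Filter Topology Complex

noncomputable section

namespace Vale.Agent.P272

variable {n : ℕ}

theorem mp0_real {x W c κ : ℝ} {K : ℕ} (hx : 0 < x) (hW : 0 < W) (hκ : κ * W < K * c)
    (h0 : 0 ≤ 1 - c * x / W) : (1 + κ * x) * (1 - c * x / W) ^ K < 1 := by
  have h1 : 1 + κ * x ≤ Real.exp (κ * x) := by linarith [Real.add_one_le_exp (κ * x)]
  have h2 : 1 - c * x / W ≤ Real.exp (-(c * x / W)) := by
    linarith [Real.add_one_le_exp (-(c * x / W))]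
  have h3 : (1 - c * x / W) ^ K ≤ Real.exp (-(c * x / W)) ^ K := pow_le_pow_left₀ h0 h2 K
  rw [← Real.exp_nat_mul] at h3
  have h4 : κ * x + K * -(c * x / W) < 0 := by
    have : κ * x + K * -(c * x / W) = (κ * W - K * c) * x / W := by
      field_simp
      ring
    rw [this]
    exact div_neg_of_neg_of_pos (mul_neg_of_neg_of_pos (by linarith) hx) hW
  calc (1 + κ * x) * (1 - c * x / W) ^ K ≤ Real.exp (κ * x) * Real.exp (K * -(c * x / W)) :=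
        mul_le_mul h1 h3 (pow_nonneg h0 K) (Real.exp_pos _).le
    _ < 1 := by
        rw [← Real.exp_add]
        exact Real.exp_lt_one_iff.mpr h4

theorem mp0_id (Λ r : ℝ) (z z₁ : ℂ) : bar Λ r z * bar Λ r z₁ =
    ‖((1 + Λ * r ^ 2 : ℝ) : ℂ) - Λ * (starRingEnd ℂ) z₁ * z‖ ^ 2 -
      Λ * (1 + Λ * r ^ 2) * ‖z - z₁‖ ^ 2 := by
  simp only [bar, Complex.sq_norm, Complex.normSq_apply, sub_re, sub_im, mul_re, mul_im, ofReal_re,
    ofReal_im, conj_re, conj_im]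
  ring

theorem mp0_at (Λ r : ℝ) (z₁ : ℂ) :
    ((1 + Λ * r ^ 2 : ℝ) : ℂ) - Λ * (starRingEnd ℂ) z₁ * z₁ = (bar Λ r z₁ : ℝ) := by
  rw [mul_assoc, Complex.conj_mul', bar]
  push_cast
  ring

theorem mp0 {Λ r κ : ℝ} {K : ℕ} {z₁ : ℂ} {φ : ℂ → ℂ} (hΛ : 0 < Λ) (hz : ‖z₁‖ < r)
    (hφ : AnalyticAt ℂ φ z₁) (h1 : ‖φ z₁‖ = 1) (h0 : 0 ≤ κ)
    (hκ : κ * bar Λ r z₁ ^ 2 < K * (Λ * (1 + Λ * r ^ 2)))
    (h : ∀ᶠ z in 𝓝 z₁, ‖φ z‖ ^ 2 ≤ (1 + κ * ‖z - z₁‖ ^ 2) * (bar Λ r z / bar Λ r z₁) ^ K) :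
    False := by
  obtain ⟨w, hw⟩ : ∃ w : ℂ → ℂ,
      w = fun z => ((1 + Λ * r ^ 2 : ℝ) : ℂ) - Λ * (starRingEnd ℂ) z₁ * z := ⟨_, rfl⟩
  have hwa : AnalyticAt ℂ w z₁ := by
    rw [hw]
    fun_prop
  have hB : 0 < bar Λ r z₁ := by
    have : ‖z₁‖ ^ 2 < r ^ 2 := pow_lt_pow_left₀ hz (norm_nonneg _) two_ne_zero
    have := mul_pos hΛ (sub_pos.mpr this)
    unfold bar
    linarith
  have hw1 : w z₁ = (bar Λ r z₁ : ℝ) := by
    rw [hw]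
    exact mp0_at Λ r z₁
  have hw0 : w z₁ ≠ 0 := by
    rw [hw1]
    exact_mod_cast hB.ne'
  have hid : ∀ z, bar Λ r z * bar Λ r z₁ = ‖w z‖ ^ 2 - Λ * (1 + Λ * r ^ 2) * ‖z - z₁‖ ^ 2 := by
    intro z
    rw [hw]
    exact mp0_id Λ r z z₁
  obtain ⟨ψ, hψ⟩ : ∃ ψ : ℂ → ℂ, ψ = fun z => φ z * (((bar Λ r z₁ : ℝ) : ℂ) / w z) ^ K := ⟨_, rfl⟩
  have hψa : AnalyticAt ℂ ψ z₁ := by
    rw [hψ]
    exact hφ.mul ((analyticAt_const.div hwa hw0).pow K)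
  have hψ1 : ‖ψ z₁‖ = 1 := by
    rw [hψ]
    simp only
    rw [← hw1, div_self hw0, one_pow, mul_one, h1]
  have e1 : ∀ᶠ z in 𝓝 z₁, w z ≠ 0 := hwa.continuousAt.eventually_ne hw0
  have e2 : ∀ᶠ z in 𝓝 z₁, 0 < bar Λ r z := by
    have : Continuous (bar Λ r) := by
      unfold bar
      fun_prop
    exact this.continuousAt.eventually (lt_mem_nhds hB)
  have e3 : ∀ᶠ z in 𝓝 z₁, κ * ‖w z‖ ^ 2 < K * (Λ * (1 + Λ * r ^ 2)) := by
    have hc : ContinuousAt (fun z => κ * ‖w z‖ ^ 2) z₁ :=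
      continuousAt_const.mul (hwa.continuousAt.norm.pow 2)
    refine hc.eventually (gt_mem_nhds ?_)
    simp only [hw1, Complex.norm_real, Real.norm_eq_abs, sq_abs]
    exact hκ
  have e4 : ∀ᶠ z in 𝓝 z₁, z ≠ z₁ → ‖ψ z‖ < 1 := by
    filter_upwards [h, e1, e2, e3] with z hz0 hz1 hz2 hz3 hne
    have hW : 0 < ‖w z‖ ^ 2 := pow_pos (norm_pos_iff.mpr hz1) 2
    have hx : 0 < ‖z - z₁‖ ^ 2 := pow_pos (norm_pos_iff.mpr (sub_ne_zero.mpr hne)) 2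
    have f1 : bar Λ r z / bar Λ r z₁ * (bar Λ r z₁ ^ 2 / ‖w z‖ ^ 2) =
        1 - Λ * (1 + Λ * r ^ 2) * ‖z - z₁‖ ^ 2 / ‖w z‖ ^ 2 := by
      rw [eq_sub_iff_add_eq, ← div_self hW.ne', eq_div_iff hW.ne']
      have := hid z
      field_simp
      linarith
    have f2 : ‖ψ z‖ ^ 2 = ‖φ z‖ ^ 2 * (bar Λ r z₁ ^ 2 / ‖w z‖ ^ 2) ^ K := by
      rw [hψ]
      simp only [norm_mul, norm_pow, norm_div, Complex.norm_real, Real.norm_eq_abs]
      rw [mul_pow, ← pow_mul, mul_comm K 2, pow_mul, div_pow, sq_abs]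
    have f3 : 0 ≤ 1 - Λ * (1 + Λ * r ^ 2) * ‖z - z₁‖ ^ 2 / ‖w z‖ ^ 2 := by
      rw [← f1]
      positivity
    have f4 : ‖ψ z‖ ^ 2 < 1 := by
      refine lt_of_le_of_lt ?_ (mp0_real hx hW hz3 f3)
      rw [f2, ← f1, mul_pow, ← mul_assoc]
      exact mul_le_mul_of_nonneg_right hz0 (by positivity)
    exact lt_of_pow_lt_pow_left₀ 2 zero_le_one (by rwa [one_pow])
  have hmax : IsLocalMax (norm ∘ ψ) z₁ := by
    filter_upwards [e4] with z hz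
    rcases eq_or_ne z z₁ with rfl | hne
    · exact le_rfl
    · exact ((hz hne).trans_eq hψ1.symm).le
  have e5 := Complex.norm_eventually_eq_of_isLocalMax
    (hψa.eventually_analyticAt.mono fun _ hz => hz.differentiableAt) hmax
  have e6 : ∀ᶠ z in 𝓝[≠] z₁, False := by
    filter_upwards [nhdsWithin_le_nhds e4, nhdsWithin_le_nhds e5, self_mem_nhdsWithin]
      with z hz4 hz5 hz6
    have := hz4 hz6
    rw [hz5, hψ1] at this
    exact lt_irrefl _ this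
  exact e6.exists.elim fun _ hf => hf

end Vale.Agent.P272
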