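import Vale.Agent.P272.AtlA
import Vale.Agent.P272.AtlC

/-! P272 MainB (task; part of Main). Helper names start with `mainb_`.
Plan. `exists_atl`; `res_met`: `mk_met` with `Γ j y = ρ^2 • g.Γ (x j) (c + ρ • y)` (`Res.tr`); `res_vol`: `mk_vol` with `ℓ j y = log (μ (x j) (c + ρ • y)) + log (ρ^(2n))` (`levi_aff`, `LinearMap.det_smul`). `schwarz_vol`: `g₀'` from `g₀`, `brody` for `g₀'` gives `H = C^2 · 4 C₁` (`dv_le` or `lo`); for `g`, `m`: `brody`, `core` at `p = chart.symm y` with `j = ch p` give `exp (ℓ j (e j p)) ≥ (cn / (16 H))^n` and `‖det (g₀'.Γ j ..)‖ ≤ n! C^n` (`det_le_norm`); transport to the chart at `x` by `compat` (`det_mul'`, `norm_det_star`). -/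

open Metric Set Filter Topology Complex

noncomputable section

namespace Vale.Agent.P272

variable {n : ℕ} {X : Type} [TopologicalSpace X] {A : Atl n X}

theorem mainb_det (r : ℝ) (T : L n) : ‖((r : ℂ) • T).det‖ = |r| ^ n * ‖T.det‖ := by
  have h : ((r : ℂ) • T).det = (r : ℂ) ^ n * T.det := by
    have := LinearMap.det_smul (r : ℂ) (T : E n →ₗ[ℂ] E n)
    rw [finrank_euclideanSpace_fin] at this
    exact this
  rw [h, norm_mul, norm_pow, Complex.norm_real, Real.norm_eq_abs]

theorem mainb_qf (r : ℝ) (T : L n) (a : E n) : qf ((r : ℂ) • T) a = r * qf T a := by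
  rw [qf, qf, smul_apply, inner_smul_right, Complex.re_ofReal_mul]

theorem mainb_ne {T : L n} (h : ∀ a, a ≠ 0 → 0 < qf T a) : T.det ≠ 0 := by
  have hi : Function.Injective T := by
    refine (injective_iff_map_eq_zero T).2 fun w hw => ?_
    by_contra hne
    have := h w hne
    rw [qf, hw, inner_zero_right, Complex.zero_re] at this
    exact lt_irrefl _ this
  exact det_ne (ContinuousLinearMap.isUnit_iff_bijective.2
    ⟨hi, (LinearMap.injective_iff_surjective (f := (T : E n →ₗ[ℂ] E n))).1 hi⟩)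

open scoped Manifold ContDiff

variable [ChartedSpace (E n) X] [IsManifold 𝓘(ℂ, E n) ω X] {x : Fin A.N → X} {ρ : Fin A.N → ℝ}

theorem res_vol (h : A.Res x ρ) {g : HermMetric n X} {g' : Met A} (hg : ∀ j y,
    g'.Γ j y = ((ρ j ^ 2 : ℝ) : ℂ) • g.Γ (x j) (chartAt (E n) (x j) (x j) + ρ j • y))
    {m : VolForm n X} (h1 : CurvLe m 1 g) (h2 : VolGe m 1 g) : ∃ v : Vol g', ∀ j y,
      v.ℓ j y = Real.log (m.μ (x j) (chartAt (E n) (x j) (x j) + ρ j • y)) +
        Real.log (ρ j ^ (2 * n)) := by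
  have hlog : ∀ j, ∀ y ∈ (chartAt (E n) (x j)).target,
      ContDiffAt ℝ ∞ (fun y => Real.log (m.μ (x j) y)) y := fun j y hy =>
    ((m.smooth (x j)).contDiffAt ((chartAt (E n) (x j)).open_target.mem_nhds hy)).log
      (m.pos _ _ hy).ne'
  refine (mk_vol g' (fun j y =>
    Real.log (m.μ (x j) (chartAt (E n) (x j) (x j) + ρ j • y)) + Real.log (ρ j ^ (2 * n)))
    ?_ ?_ ?_ ?_).imp fun v hv j y => congrFun (congrFun hv j) y
  · intro j y hy
    have a1 : ContDiffAt ℝ ∞ (fun y : E n => chartAt (E n) (x j) (x j) + ρ j • y) y :=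
      contDiffAt_const.add (contDiffAt_id.const_smul (ρ j))
    exact (((hlog j _ ((h.tgt j y).1 hy)).comp y a1).add contDiffAt_const).contDiffWithinAt
  · intro j y hy a
    have hy' := (h.tgt j y).1 hy
    rw [levi_aff _ (hlog j _ hy') a, hg, mainb_qf]
    have := h1 (x j) _ hy' a
    rw [one_mul] at this
    exact mul_le_mul_of_nonneg_left this (sq_nonneg _)
  · intro j y hy
    have hy' := (h.tgt j y).1 hy
    have r0 := h.pos j
    have m0 := m.pos _ _ hy'
    have d0 := norm_pos_iff.2 (mainb_ne (g.pos _ _ hy'))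
    have a1 := h2 (x j) _ hy'
    rw [one_mul] at a1
    show Real.log ‖(g'.Γ j y).det‖ ≤ Real.log (m.μ (x j) (chartAt (E n) (x j) (x j) + ρ j • y)) +
      Real.log (ρ j ^ (2 * n))
    rw [hg, mainb_det, abs_of_nonneg (sq_nonneg _), ← pow_mul,
      Real.log_mul (by positivity) d0.ne', add_comm]
    exact add_le_add_left (Real.log_le_log d0 a1) _
  · intro j k p hj hk
    have rj := h.pos j
    have rk := h.pos k
    have hj' : p ∈ (chartAt (E n) (x j)).source := h.src j ▸ hj
    have hk' : p ∈ (chartAt (E n) (x k)).source := h.src k ▸ hk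
    have mj := m.pos _ _ ((chartAt (E n) (x j)).map_source hj')
    have mk := m.pos _ _ ((chartAt (E n) (x k)).map_source hk')
    have hc := m.compat (x j) (x k) p hj' hk'
    have d0 : ‖(jac n X (x j) (x k) p).det‖ ^ 2 ≠ 0 := by
      intro h0
      rw [hc, h0, mul_zero] at mk
      exact lt_irrefl _ mk
    show Real.log (m.μ (x k) (chartAt (E n) (x k) (x k) + ρ k • A.e k p)) +
      Real.log (ρ k ^ (2 * n)) = Real.log (m.μ (x j) (chartAt (E n) (x j) (x j) + ρ j • A.e j p)) +
      Real.log (ρ j ^ (2 * n)) + Real.log (‖(A.tr j k p).det‖ ^ 2)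
    rw [h.app, h.app, hc, h.tr hj hk, mainb_det, abs_of_pos (div_pos rk rj), mul_pow, ← pow_mul,
      mul_comm n 2, div_pow, Real.log_mul mj.ne' d0, Real.log_mul (by positivity) d0,
      Real.log_div (by positivity) (by positivity)]
    ring

end Vale.Agent.P272
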