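import Vale.Agent.P272.Core
import Vale.Agent.P272.Brody
import Vale.Agent.P272.AtlA
import Vale.Agent.P272.AtlC
import Vale.Agent.P272.MainA
import Vale.Agent.P272.MainB

/-! P272 Main (task). Helper names start with `main_`.
Plan. `exists_atl`; `res_met`: `mk_met` with `Γ j y = ρ^2 • g.Γ (x j) (c + ρ • y)` (`Res.tr`); `res_vol`: `mk_vol` with `ℓ j y = log (μ (x j) (c + ρ • y)) + log (ρ^(2n))` (`levi_aff`, `LinearMap.det_smul`). `schwarz_vol`: `g₀'` from `g₀`, `brody` for `g₀'` gives `H = C^2 · 4 C₁` (`dv_le` or `lo`); for `g`, `m`: `brody`, `core` at `p = chart.symm y` with `j = ch p` give `exp (ℓ j (e j p)) ≥ (cn / (16 H))^n` and `‖det (g₀'.Γ j ..)‖ ≤ n! C^n` (`det_le_norm`); transport to the chart at `x` by `compat` (`det_mul'`, `norm_det_star`). -/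

open Metric Set Filter Topology Complex

noncomputable section

namespace Vale.Agent.P272

variable {n : ℕ} {X : Type} [TopologicalSpace X] {A : Atl n X}

open scoped Manifold ContDiff

variable [ChartedSpace (E n) X] [IsManifold 𝓘(ℂ, E n) ω X] {x : Fin A.N → X} {ρ : Fin A.N → ℝ}

theorem main_det (r : ℝ) (T : L n) : ‖(((r ^ 2 : ℝ) : ℂ) • T).det‖ = r ^ (2 * n) * ‖T.det‖ := by
  have := LinearMap.det_smul ((r ^ 2 : ℝ) : ℂ) (T : E n →ₗ[ℂ] E n)
  rw [finrank_euclideanSpace_fin] at this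
  rw [ContinuousLinearMap.det, ContinuousLinearMap.toLinearMap_smul, this, norm_mul, norm_pow,
    Complex.norm_real, Real.norm_of_nonneg (sq_nonneg r), pow_mul]

theorem main_exp (hn : 0 < n) {a H l : ℝ} (ha : 0 < a) (hH : 0 < H)
    (h : a * Real.exp (-l / n) ≤ H) : (a / H) ^ n ≤ Real.exp l := by
  have n0 : (n : ℝ) ≠ 0 := Nat.cast_ne_zero.2 hn.ne'
  have h1 : a / H ≤ Real.exp (l / n) := by
    rw [neg_div, Real.exp_neg, ← div_eq_mul_inv, div_le_iff₀ (Real.exp_pos _)] at h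
    rwa [div_le_iff₀ hH, mul_comm]
  refine (pow_le_pow_left₀ (div_pos ha hH).le h1 n).trans_eq ?_
  rw [← Real.exp_nat_mul, mul_div_cancel₀ _ n0]

theorem schwarz_vol [T2Space X] [CompactSpace X] (hn : 0 < n)
    (hy : ∀ f : ℂ → X, MDifferentiable 𝓘(ℂ, ℂ) 𝓘(ℂ, E n) f → ∀ z w, f z = f w)
    (g₀ : HermMetric n X) : ∃ c : ℝ, 0 < c ∧ ∀ (g : HermMetric n X) (m : VolForm n X),
      CurvLe m 1 g → VolGe m 1 g → VolGe m c g₀ := by
  obtain ⟨A, x, ρ, hR⟩ := exists_atl n X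
  have hyp := hR.hyp hy
  obtain ⟨g0, hg0⟩ := res_met hR g₀
  obtain ⟨C₁, hC₁, hB0⟩ := g0.brody hyp
  have C0 : 0 < g0.C := one_pos.trans_le g0.one
  have H0 : 0 < 16 * (g0.C * (4 * C₁)) := by positivity
  have c0 : 0 < cn n := by
    have : (0 : ℝ) < n := Nat.cast_pos.2 hn
    unfold cn
    positivity
  have D0 : (0 : ℝ) < n.factorial * g0.C ^ n := by positivity
  refine ⟨(cn n / (16 * (g0.C * (4 * C₁)))) ^ n / (n.factorial * g0.C ^ n), by positivity,
    fun g m h1 h2 x₀ y hy => ?_⟩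
  obtain ⟨g', hg'⟩ := res_met hR g
  obtain ⟨v, hv⟩ := res_vol hR hg' h1 h2
  obtain ⟨C₂, hB⟩ := g'.brody hyp
  obtain ⟨p, hp, rfl⟩ : ∃ p ∈ (chartAt (E n) x₀).source, chartAt (E n) x₀ p = y :=
    ⟨_, (chartAt (E n) x₀).map_target hy, (chartAt (E n) x₀).right_inv hy⟩
  obtain ⟨s1, s2⟩ := A.ch_in p
  have s4 : ‖A.e (A.ch p) p‖ ≤ 4 := by linarith
  have k1 := main_exp hn c0 H0 (core hn hB v (A.in_ch p le_rfl) fun f hf e => by
    subst e
    refine (g0.lo (A.ch (f 0)) _ _ s4).trans (mul_le_mul_of_nonneg_left ?_ C0.le)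
    refine (hB0 f 0 _ one_half_pos hf).trans_eq ?_
    ring)
  have k2 := (det_le_norm (g0.Γ _ _)).trans (mul_le_mul_of_nonneg_left
    (pow_le_pow_left₀ (norm_nonneg _) (g0.up (A.ch p) _ s4) n) (Nat.cast_nonneg _))
  rw [hR.src] at s1
  have r0 : 0 < ρ (A.ch p) ^ (2 * n) := pow_pos (hR.pos _) _
  rw [hv, hR.app, Real.exp_add, Real.exp_log r0,
    Real.exp_log (m.pos _ _ ((chartAt (E n) _).map_source s1))] at k1
  rw [hg0, hR.app, main_det] at k2
  have k3 := (mul_le_mul_of_nonneg_left k2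
    (div_pos (pow_pos (div_pos c0 H0) n) D0).le).trans ((div_mul_cancel₀ _ D0.ne').trans_le k1)
  rw [mul_left_comm, mul_comm] at k3
  rw [g₀.compat _ _ p s1 hp, m.compat _ _ p s1 hp, det_mul', det_mul', norm_mul, norm_mul,
    norm_det_star, mul_right_comm, ← sq, mul_comm (_ ^ 2), ← mul_assoc]
  exact mul_le_mul_of_nonneg_right (le_of_mul_le_mul_right k3 r0) (sq_nonneg _)

end Vale.Agent.P272
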