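import Vale.Agent.P272.Defs2
import Vale.Agent.P272.Lin
import Vale.Agent.P272.Hol4

/-! P272 SGram (task; part of SVol). Helper names start with `sgram_`.
Plan. `tay` at `y 0` with `h s = y s - y 0 = s a + ρ`, `‖a‖ ≤ 4 M`, `‖ρ‖ ≤ 8 M δ^2 / ε` (`hol_taylor`), `hol_avg` for `D₁`, `sum_pt_bil` for `D₂`. `T s = Ring.inverse (V 0) * V s`, `‖T s - 1‖ ≤ 32 M^2 ‖s‖ / ε`; on the ball of radius `ε' = ε / (64 C_n M^2)`, `‖det (T s) - 1‖ ≤ 1 / 2` (`log_det`), `k s = Complex.log (det (T s))` is holomorphic (`analyticAt_det`, slit plane), bounded by `3 / 4` (`Complex.norm_log_one_add_half_le_self`), `hol_avg`, `log ‖det (V s)‖^2 = log ‖det (V 0)‖^2 + 2 re (k s)`.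
`step_gram`: `hol_taylor` for `V`, `lip`, `up`. `step_sp`: `‖w s - w 0‖ ≤ 2 M δ + 4 B δ^2 / ε^2 ≤ 4 / C^2 ..`, expand. -/

open Metric Set Filter Topology Complex

noncomputable section

namespace Vale.Agent.P272

variable {n : ℕ} {X : Type} [TopologicalSpace X] {A : Atl n X}

theorem sgram_y {y w : ℂ → E n} {V : ℂ → L n} {ε M B : ℝ} {s : ℂ} (h : Fam y w V ε M B)
    (h0 : ‖y 0‖ ≤ 1) (hM : 1 ≤ M) (hε : 4 * M * ε ≤ 1) (hs : ‖s‖ < ε) : ‖y s‖ ≤ 4 := by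
  have h1 := h.ly s hs
  have h2 := norm_sub_norm_le (y s) (y 0)
  have h3 : 4 * M * ‖s‖ ≤ 4 * M * ε := mul_le_mul_of_nonneg_left hs.le (by linarith)
  linarith

theorem sgram_tri (P Q R : L n) {a b c : ℝ} (hP : ‖P‖ ≤ a) (hQ : ‖Q‖ ≤ b) (hR : ‖R‖ ≤ c) :
    ‖star P * Q * R‖ ≤ a * b * c := by
  have ha : 0 ≤ a := (norm_nonneg _).trans hP
  have hb : 0 ≤ b := (norm_nonneg _).trans hQ
  refine (norm_mul_le _ _).trans (mul_le_mul ((norm_mul_le _ _).trans ?_) hR (norm_nonneg _)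
    (mul_nonneg ha hb))
  have e : ‖star P‖ = ‖P‖ := ContinuousLinearMap.adjoint.norm_map P
  rw [e]
  exact mul_le_mul hP hQ (norm_nonneg _) ha

theorem sgram_add (Γ : L n) (a d : E n) :
    qf Γ (a + d) ≤ qf Γ a + ‖Γ‖ * (2 * ‖a‖ * ‖d‖ + ‖d‖ ^ 2) := by
  have h : ∀ u v : E n, (inner ℂ u (Γ v)).re ≤ ‖Γ‖ * (‖u‖ * ‖v‖) := fun u v => by
    refine (re_le_norm _).trans ((norm_inner_le_norm _ _).trans ?_)
    calc ‖u‖ * ‖Γ v‖ ≤ ‖u‖ * (‖Γ‖ * ‖v‖) :=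
          mul_le_mul_of_nonneg_left (Γ.le_opNorm v) (norm_nonneg _)
      _ = _ := by ring
  have h1 := h a d
  have h2 := h d a
  have h3 := h d d
  simp only [qf, map_add, inner_add_left, inner_add_right, add_re]
  nlinarith

theorem sgram_num {c Λ x : ℝ} (hc : 1 ≤ c) (hΛ : 1 ≤ Λ) (x0 : 0 ≤ x) (x2 : 100 * c ^ 3 * x ≤ 1) :
    c * (4 * x) * (2 * (c * Λ)) ^ 2 ≤ Λ ^ 2 ∧
      c * (2 * (c * Λ) * (6 * x) + (6 * x) ^ 2) ≤ Λ ^ 2 := by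
  have c3 : 1 ≤ c ^ 3 := one_le_pow₀ hc
  have cΛ : 1 ≤ c * Λ := one_le_mul_of_one_le_of_one_le hc hΛ
  have z0 : 0 ≤ c ^ 3 * x := by positivity
  have z1 : 1 * x ≤ c ^ 3 * x := mul_le_mul_of_nonneg_right c3 x0
  constructor
  · have e : c * (4 * x) * (2 * (c * Λ)) ^ 2 = 16 * (c ^ 3 * x) * Λ ^ 2 := by ring
    rw [e]
    exact mul_le_of_le_one_left (sq_nonneg Λ) (by linarith)
  · have f1 : (6 * x) ^ 2 ≤ c * Λ * (6 * x) := by
      rw [sq]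
      exact mul_le_mul_of_nonneg_right (by linarith) (by linarith)
    have f2 : c ^ 2 * x ≤ c ^ 3 * x := mul_le_mul_of_nonneg_right
      (pow_le_pow_right₀ hc (by norm_num)) x0
    calc _ ≤ c * (2 * (c * Λ) * (6 * x) + c * Λ * (6 * x)) := by gcongr
      _ = 18 * (c ^ 2 * x) * Λ := by ring
      _ ≤ 1 * Λ := mul_le_mul_of_nonneg_right (by linarith) (by linarith)
      _ ≤ Λ ^ 2 := by nlinarith

theorem sgram_id {R : Type} [Ring R] (a a' b b' c c' : R) :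
    a * b * c - a' * b' * c' = (a - a') * b * c + a' * (b - b') * c + a' * b' * (c - c') := by
  noncomm_ring

theorem Met.step_gram (g : Met A) : ∃ C : ℝ, 1 ≤ C ∧
    ∀ (k : Fin A.N) (y w : ℂ → E n) (V : ℂ → L n) (ε M B : ℝ) (s : ℂ), Fam y w V ε M B →
      ‖y 0‖ ≤ 1 → 1 ≤ M → 4 * M * ε ≤ 1 → ‖s‖ < ε → ‖y s‖ ≤ 4 ∧
      ‖star (V s) * g.Γ k (y s) * V s - star (V 0) * g.Γ k (y 0) * V 0‖ ≤ C * M ^ 3 / ε * ‖s‖ := by
  have hc := g.one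
  refine ⟨1280 * g.C, by linarith, fun k y w V ε M B s h h0 hM hε hs => ?_⟩
  have hy := sgram_y h h0 hM hε hs
  have ε0 : 0 < ε := (norm_nonneg s).trans_lt hs
  have hy0 : ‖y 0‖ ≤ 4 := by linarith
  have v0 := h.lV 0 (by simpa using ε0)
  have vs := h.lV s hs
  have hV : ‖V s - V 0‖ ≤ 32 * M / ε * ‖s‖ :=
    hol4_lip h.dV (fun t ht => (norm_sub_le _ _).trans (by linarith [h.lV t ht])) hs
  have hG : ‖g.Γ k (y s) - g.Γ k (y 0)‖ ≤ g.C * (‖s‖ / ε) := by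
    refine (g.lip k _ _ hy hy0).trans (mul_le_mul_of_nonneg_left ((h.ly s hs).trans ?_)
      (by linarith))
    rw [le_div_iff₀ ε0]
    nlinarith [norm_nonneg s]
  have e : star (V s) * g.Γ k (y s) * V s - star (V 0) * g.Γ k (y 0) * V 0 =
      star (V s - V 0) * g.Γ k (y s) * V s + star (V 0) * (g.Γ k (y s) - g.Γ k (y 0)) * V s +
        star (V 0) * g.Γ k (y 0) * (V s - V 0) := by
    have e1 : star (V s - V 0) = star (V s) - star (V 0) :=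
      map_sub ContinuousLinearMap.adjoint (V s) (V 0)
    rw [e1]
    exact sgram_id _ _ _ _ _ _
  refine ⟨hy, ?_⟩
  rw [e]
  have a1 := sgram_tri _ _ _ hV (g.up k _ hy) vs
  have a2 := sgram_tri _ _ _ v0 hG vs
  have a3 := sgram_tri _ _ _ v0 (g.up k _ hy0) hV
  refine (norm_add₃_le).trans ((add_le_add (add_le_add a1 a2) a3).trans ?_)
  have a4 : 0 ≤ g.C * M ^ 2 * (‖s‖ / ε) := by positivity
  have a5 : g.C * M ^ 2 * (‖s‖ / ε) * 1 ≤ g.C * M ^ 2 * (‖s‖ / ε) * M :=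
    mul_le_mul_of_nonneg_left hM a4
  have a6 : 32 * M / ε * ‖s‖ * g.C * (16 * M) + 16 * M * (g.C * (‖s‖ / ε)) * (16 * M) +
      16 * M * g.C * (32 * M / ε * ‖s‖) = 1280 * (g.C * M ^ 2 * (‖s‖ / ε) * 1) := by ring
  have a7 : 1280 * g.C * M ^ 3 / ε * ‖s‖ = 1280 * (g.C * M ^ 2 * (‖s‖ / ε) * M) := by ring
  rw [a6, a7]
  linarith

theorem Met.step_sp (g : Met A) : ∃ C : ℝ, 1 ≤ C ∧
    ∀ (k : Fin A.N) (y w : ℂ → E n) (V : ℂ → L n) (ε M B Λ : ℝ) (s : ℂ), Fam y w V ε M B →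
      ‖y 0‖ ≤ 1 → 1 ≤ Λ → 1 ≤ M → 4 * M * ε ≤ 1 → ‖s‖ < ε → ‖deriv w 0‖ ≤ 2 * M →
      B * ‖s‖ ≤ ε ^ 2 → C * M * ‖s‖ ≤ 1 → qf (g.Γ k (y 0)) (w 0) ≤ Λ ^ 2 →
      qf (g.Γ k (y s)) (w s) ≤ (2 * Λ) ^ 2 := by
  have hc := g.one
  have c3 : 1 ≤ g.C ^ 3 := one_le_pow₀ hc
  refine ⟨100 * g.C ^ 3, by linarith, fun k y w V ε M B Λ s h h0 hΛ hM hε hs hd hB hC hq => ?_⟩
  have hy := sgram_y h h0 hM hε hs
  have ε0 : 0 < ε := (norm_nonneg s).trans_lt hs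
  have s0 := norm_nonneg s
  have hy0 : ‖y 0‖ ≤ 4 := by linarith
  have w0 := h.lw 0 (by simpa using ε0)
  obtain ⟨-, -, t3⟩ := hol_taylor h.dw (B := 2 * B)
    (fun t ht => (norm_sub_le _ _).trans (by linarith [h.lw t ht])) hs
  obtain ⟨x, hx⟩ : ∃ x, x = M * ‖s‖ := ⟨_, rfl⟩
  have x0 : 0 ≤ x := by rw [hx]; positivity
  have x1 : ‖s‖ ≤ x := by rw [hx]; nlinarith
  have x2 : 100 * g.C ^ 3 * x ≤ 1 := by rw [hx, ← mul_assoc]; exact hC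
  have t4 : 2 * (2 * B) / ε ^ 2 * ‖s‖ ^ 2 ≤ 4 * ‖s‖ := by
    rw [div_mul_eq_mul_div, div_le_iff₀ (by positivity)]
    nlinarith [mul_le_mul_of_nonneg_left hB s0]
  have hδ : ‖w s - w 0‖ ≤ 6 * x := by
    have t5 := norm_sub_norm_le (w s - w 0) (s • deriv w 0)
    have t6 : ‖s • deriv w 0‖ ≤ 2 * x := by
      rw [norm_smul, hx]
      nlinarith [mul_le_mul_of_nonneg_left hd s0]
    linarith
  have ha : ‖w 0‖ ≤ g.C * Λ := by
    have t7 := (g.lo k _ (w 0) hy0).trans (mul_le_mul_of_nonneg_left hq (by linarith))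
    refine abs_le_of_sq_le_sq' ?_ (by positivity) |>.2
    nlinarith [sq_nonneg Λ, mul_le_mul_of_nonneg_right hc (mul_nonneg (by linarith : 0 ≤ g.C)
      (sq_nonneg Λ))]
  have cΛ : 1 ≤ g.C * Λ := one_le_mul_of_one_le_of_one_le hc hΛ
  have x3 : 6 * x ≤ 1 := by
    have := mul_le_mul_of_nonneg_right c3 x0
    linarith
  have hws : ‖w s‖ ≤ 2 * (g.C * Λ) := by
    have := norm_sub_norm_le (w s) (w 0)
    linarith
  have hG : ‖g.Γ k (y s) - g.Γ k (y 0)‖ ≤ g.C * (4 * x) := by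
    refine (g.lip k _ _ hy hy0).trans (mul_le_mul_of_nonneg_left ((h.ly s hs).trans_eq ?_)
      (by linarith))
    rw [hx, mul_assoc]
  have b1 : qf (g.Γ k (y s)) (w s) - qf (g.Γ k (y 0)) (w s) ≤
      g.C * (4 * x) * (2 * (g.C * Λ)) ^ 2 := by
    rw [← qf_sub]
    refine (le_abs_self _).trans ((qf_le _ _).trans ?_)
    gcongr
  have b2 := sgram_add (g.Γ k (y 0)) (w 0) (w s - w 0)
  rw [add_sub_cancel] at b2
  have b3 : ‖g.Γ k (y 0)‖ * (2 * ‖w 0‖ * ‖w s - w 0‖ + ‖w s - w 0‖ ^ 2) ≤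
      g.C * (2 * (g.C * Λ) * (6 * x) + (6 * x) ^ 2) := by
    have := g.up k _ hy0
    gcongr
  have b4 := sgram_num hc hΛ x0 x2
  have b5 : (2 * Λ) ^ 2 = 4 * Λ ^ 2 := by ring
  have b6 := sq_nonneg Λ
  linarith [b4.1, b4.2]

end Vale.Agent.P272
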