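import Vale.Agent.P272.Defs2
import Vale.Agent.P272.Lin
import Vale.Agent.P272.Hol4
import Vale.Agent.P272.SGram

/-! P272 SVol (task). Helper names start with `svol_`.
Plan. `tay` at `y 0` with `h s = y s - y 0 = s a + ρ`, `‖a‖ ≤ 4 M`, `‖ρ‖ ≤ 8 M δ^2 / ε` (`hol_taylor`), `hol_avg` for `D₁`, `sum_pt_bil` for `D₂`. `T s = Ring.inverse (V 0) * V s`, `‖T s - 1‖ ≤ 32 M^2 ‖s‖ / ε`; on the ball of radius `ε' = ε / (64 C_n M^2)`, `‖det (T s) - 1‖ ≤ 1 / 2` (`log_det`), `k s = Complex.log (det (T s))` is holomorphic (`analyticAt_det`, slit plane), bounded by `3 / 4` (`Complex.norm_log_one_add_half_le_self`), `hol_avg`, `log ‖det (V s)‖^2 = log ‖det (V 0)‖^2 + 2 re (k s)`.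
`step_gram`: `hol_taylor` for `V`, `lip`, `up`. `step_sp`: `‖w s - w 0‖ ≤ 2 M δ + 4 B δ^2 / ε^2 ≤ 4 / C^2 ..`, expand. -/

open Metric Set Filter Topology Complex

noncomputable section

namespace Vale.Agent.P272

variable {n : ℕ} {X : Type} [TopologicalSpace X] {A : Atl n X}

theorem svol_bil (D : E n →L[ℝ] E n →L[ℝ] ℝ) {h u : E n} {c τ : ℝ} (hD : ‖D‖ ≤ c) (hτ : 0 ≤ τ)
    (h1 : ‖h‖ ≤ τ) (h2 : ‖u‖ ≤ τ) (h3 : ‖h - u‖ ≤ 2 * τ ^ 2) : D h h ≤ D u u + 4 * c * τ ^ 3 := by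
  have hc : 0 ≤ c := (D.opNorm_nonneg).trans hD
  have e : D h h = D u u + (D (h - u) h + D u (h - u)) := by
    simp only [map_sub, sub_apply]
    ring
  have b1 : D (h - u) h ≤ c * (2 * τ ^ 2) * τ :=
    (Real.le_norm_self _).trans ((D.le_opNorm₂ _ _).trans (by gcongr))
  have b2 : D u (h - u) ≤ c * τ * (2 * τ ^ 2) :=
    (Real.le_norm_self _).trans ((D.le_opNorm₂ _ _).trans (by gcongr))
  rw [e]
  linarith

theorem svol_ell {g : Met A} (v : Vol g) (k : Fin A.N) {y : ℂ → E n} {ε δ : ℝ}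
    (hy : DifferentiableOn ℂ y (ball 0 ε)) (hb : ∀ s, ‖s‖ < ε → ‖y s - y 0‖ ≤ 1) (h0 : ‖y 0‖ ≤ 1)
    (hδ : 0 < δ) (hε : δ < ε) :
    ∑ m : Fin 4, v.ℓ k (y (pt δ m)) ≤ 4 * v.ℓ k (y 0) + 4 * δ ^ 2 * qf (g.Γ k (y 0)) (deriv y 0) +
      28 * v.C * (δ / ε) ^ 3 := by
  obtain ⟨D₁, D₂, d1, d2, d3, d4⟩ := v.tay k (y 0) (by linarith)
  have hC : 0 ≤ v.C := zero_le_one.trans v.one
  have hε0 : 0 < ε := hδ.trans hε
  have hτ : 0 ≤ δ / ε := by positivity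
  have key : ∀ m : Fin 4, v.ℓ k (y (pt δ m)) ≤ v.ℓ k (y 0) + D₁ (y (pt δ m) - y 0) +
      D₂ (pt δ m • deriv y 0) (pt δ m • deriv y 0) / 2 + 3 * v.C * (δ / ε) ^ 3 := by
    intro m
    have hm := norm_pt hδ.le m
    have hs : ‖pt δ m‖ < ε := by rwa [hm]
    obtain ⟨t1, t2, t3⟩ := hol_taylor hy hb hs
    rw [hm] at t2 t3
    have t2' : ‖y (pt δ m) - y 0‖ ≤ δ / ε := t2.trans_eq (by ring)
    have t4 : ‖pt δ m • deriv y 0‖ ≤ δ / ε := by
      rw [norm_smul, hm]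
      exact (mul_le_mul_of_nonneg_left t1 hδ.le).trans_eq (by ring)
    have t5 := svol_bil D₂ d2 hτ t2' t4 (t3.trans_eq (by ring))
    have t6 := d4 (y (pt δ m) - y 0) (by linarith [norm_add_le (y 0) (y (pt δ m) - y 0), hb _ hs])
    rw [add_sub_cancel] at t6
    have t7 : v.C * ‖y (pt δ m) - y 0‖ ^ 3 ≤ v.C * (δ / ε) ^ 3 := by gcongr
    linarith
  have s1 : ∑ m : Fin 4, D₁ (y (pt δ m) - y 0) ≤ 16 * v.C * (δ / ε) ^ 3 := by
    rw [← map_sum]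
    have h1 := hol_avg hy hb hδ hε
    refine (Real.le_norm_self _).trans ((D₁.le_opNorm _).trans ?_)
    exact (mul_le_mul d1 h1 (norm_nonneg _) hC).trans_eq (by ring)
  have s2 := sum_pt_bil D₂ (deriv y 0) δ
  have s3 := mul_le_mul_of_nonneg_left (d3 (deriv y 0)) (sq_nonneg δ)
  have s4 := Finset.sum_le_sum fun m (_ : m ∈ Finset.univ) => key m
  rw [Finset.sum_add_distrib, Finset.sum_add_distrib, Finset.sum_add_distrib, ← Finset.sum_div, s2,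
    Finset.sum_const, Finset.sum_const, Finset.card_univ, Fintype.card_fin, nsmul_eq_mul,
    nsmul_eq_mul, Nat.cast_ofNat] at s4
  linarith

theorem svol_log {T : ℂ → L n} {ε δ : ℝ} (hT : DifferentiableOn ℂ T (ball 0 ε)) (h0 : T 0 = 1)
    (hb : ∀ s, ‖s‖ < ε → ‖(T s).det - 1‖ ≤ 1 / 2) (hδ : 0 < δ) (hε : δ < ε) :
    ∑ m : Fin 4, Real.log (‖(T (pt δ m)).det‖ ^ 2) ≤ 32 * (δ / ε) ^ 3 := by
  have hd : DifferentiableOn ℂ (fun s => (T s).det) (ball 0 ε) := fun s hs =>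
    (analyticAt_det (T s)).differentiableAt.comp_differentiableWithinAt s (hT s hs)
  have hk : DifferentiableOn ℂ (fun s => Complex.log (T s).det) (ball 0 ε) := by
    refine hd.clog fun s hs => ?_
    have h1 := mem_slitPlane_of_norm_lt_one
      ((hb s (mem_ball_zero_iff.1 hs)).trans_lt (by norm_num : (1 / 2 : ℝ) < 1))
    rwa [add_sub_cancel] at h1
  have h1 : (1 : L n).det = 1 := map_one LinearMap.det
  have hk0 : Complex.log (T 0).det = 0 := by rw [h0, h1, Complex.log_one]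
  have h2 := hol_avg (B := 1) hk (fun s hs => by
    have h3 := Complex.norm_log_one_add_half_le_self (hb s hs)
    rw [add_sub_cancel] at h3
    rw [hk0, sub_zero]
    linarith [hb s hs]) hδ hε
  simp only [hk0, sub_zero] at h2
  have h3 := (Complex.re_le_norm _).trans h2
  simp only [Complex.re_sum, Complex.log_re] at h3
  simp only [Real.log_pow, Nat.cast_ofNat, ← Finset.mul_sum]
  have h4 : 16 * 1 / ε ^ 3 * δ ^ 3 = 16 * (δ / ε) ^ 3 := by ring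
  linarith

theorem svol_det (n : ℕ) : ∃ C : ℝ, 1 ≤ C ∧ ∀ (V : ℂ → L n) (ε M δ : ℝ),
    DifferentiableOn ℂ V (ball 0 ε) → (∀ s, ‖s‖ < ε → ‖V s‖ ≤ 16 * M) → 1 ≤ M → 0 < δ →
    2 * C * M ^ 2 * δ ≤ ε → IsUnit (V 0) → ‖Ring.inverse (V 0)‖ ≤ M →
    ∑ m : Fin 4, Real.log (‖(V (pt δ m)).det‖ ^ 2) ≤
      4 * Real.log (‖(V 0).det‖ ^ 2) + 32 * C ^ 3 * M ^ 6 * (δ / ε) ^ 3 := by
  obtain ⟨C, hC, hdet⟩ := log_det n
  refine ⟨64 * C, by linarith, fun V ε M δ hV hb hM hδ hε hu hi => ?_⟩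
  have hM0 : 0 < M := one_pos.trans_le hM
  have hK : 1 ≤ 64 * C * M ^ 2 := one_le_mul_of_one_le_of_one_le (by linarith) (one_le_pow₀ hM)
  have hK0 : 0 < 64 * C * M ^ 2 := one_pos.trans_le hK
  have hε0 : 0 < ε := lt_of_lt_of_le (by positivity) hε
  have hle : ε / (64 * C * M ^ 2) ≤ ε := div_le_self hε0.le hK
  have hlt : δ < ε / (64 * C * M ^ 2) := by
    rw [lt_div_iff₀ hK0]
    nlinarith [mul_pos hδ hK0]
  have hb' : ∀ s, ‖s‖ < ε → ‖V s - V 0‖ ≤ 32 * M := fun s hs => by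
    linarith [norm_sub_le (V s) (V 0), hb s hs, hb 0 (by rwa [norm_zero])]
  have hT : ∀ s, ‖s‖ < ε / (64 * C * M ^ 2) →
      ‖(Ring.inverse (V 0) * V s).det - 1‖ ≤ 1 / 2 := by
    intro s hs
    have h1 := (hol_taylor hV hb' (hs.trans_le hle)).2.1
    have h2 : Ring.inverse (V 0) * V s - 1 = Ring.inverse (V 0) * (V s - V 0) := by
      rw [mul_sub, Ring.inverse_mul_cancel _ hu]
    have h3 : C * ‖Ring.inverse (V 0) * V s - 1‖ ≤ 1 / 2 := by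
      rw [h2]
      calc C * ‖Ring.inverse (V 0) * (V s - V 0)‖
          ≤ C * (‖Ring.inverse (V 0)‖ * ‖V s - V 0‖) :=
            mul_le_mul_of_nonneg_left (norm_mul_le _ _) (by linarith)
        _ ≤ C * (M * (32 * M / ε * (ε / (64 * C * M ^ 2)))) := by
            gcongr
            exact h1.trans (by gcongr)
        _ = 1 / 2 := by
            field_simp
            ring
    have h4 : ‖Ring.inverse (V 0) * V s - 1‖ ≤ 1 / 2 :=
      (le_mul_of_one_le_left (norm_nonneg _) hC).trans h3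
    exact (hdet _ h4).1.trans h3
  have h5 := svol_log (T := fun s => Ring.inverse (V 0) * V s)
    ((hV.mono (ball_subset_ball hle)).const_mul _) (Ring.inverse_mul_cancel _ hu) hT hδ hlt
  have h6 : ∀ m : Fin 4, Real.log (‖(V (pt δ m)).det‖ ^ 2) = Real.log (‖(V 0).det‖ ^ 2) +
      Real.log (‖(Ring.inverse (V 0) * V (pt δ m)).det‖ ^ 2) := by
    intro m
    have e1 : (V (pt δ m)).det = (V 0).det * (Ring.inverse (V 0) * V (pt δ m)).det := by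
      rw [← det_mul', ← mul_assoc, Ring.mul_inverse_cancel _ hu, one_mul]
    have e2 : (Ring.inverse (V 0) * V (pt δ m)).det ≠ 0 := by
      intro h0
      have h7 := hT (pt δ m) (by rwa [norm_pt hδ.le])
      rw [h0, zero_sub, norm_neg, norm_one] at h7
      norm_num at h7
    rw [e1, norm_mul, mul_pow, Real.log_mul (pow_ne_zero _ (norm_ne_zero_iff.2 (det_ne hu)))
      (pow_ne_zero _ (norm_ne_zero_iff.2 e2))]
  rw [Finset.sum_congr rfl fun m _ => h6 m, Finset.sum_add_distrib, Finset.sum_const,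
    Finset.card_univ, Fintype.card_fin, nsmul_eq_mul, Nat.cast_ofNat]
  have h8 : 32 * (δ / (ε / (64 * C * M ^ 2))) ^ 3 = 32 * (64 * C) ^ 3 * M ^ 6 * (δ / ε) ^ 3 := by
    field_simp
  linarith

theorem Vol.step_vol {g : Met A} (v : Vol g) : ∃ C : ℝ, 1 ≤ C ∧
    ∀ (k : Fin A.N) (y w : ℂ → E n) (V : ℂ → L n) (ε M B δ : ℝ), Fam y w V ε M B →
      ‖y 0‖ ≤ 1 → 1 ≤ M → 0 < ε → 4 * M * ε ≤ 1 → 0 < δ → C * M ^ 2 * δ ≤ ε → IsUnit (V 0) →
      ‖Ring.inverse (V 0)‖ ≤ M →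
      ∑ m : Fin 4, (v.ℓ k (y (pt δ m)) + Real.log (‖(V (pt δ m)).det‖ ^ 2)) ≤
        4 * (v.ℓ k (y 0) + Real.log (‖(V 0).det‖ ^ 2)) + 4 * δ ^ 2 * qf (g.Γ k (y 0)) (deriv y 0) +
          C * M ^ 6 / ε ^ 3 * δ ^ 3 := by
  obtain ⟨C, hC, hdet⟩ := svol_det n
  have hv := v.one
  have hC3 : C ≤ C ^ 3 := le_self_pow₀ hC (by norm_num)
  refine ⟨28 * v.C + 32 * C ^ 3, by linarith,
    fun k y w V ε M B δ hF h0 hM hε hMε hδ hCε hu hi => ?_⟩
  have hM2 : 1 ≤ M ^ 2 := one_le_pow₀ hM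
  have h1 : 2 * C * M ^ 2 * δ ≤ ε := by
    refine le_trans ?_ hCε
    gcongr
    linarith
  have h2 : δ < ε := by
    have h3 : 2 * 1 * 1 * δ ≤ 2 * C * M ^ 2 * δ := by gcongr
    linarith
  have h3 := svol_ell v k hF.dy (fun s hs => (hF.ly s hs).trans
    ((mul_le_mul_of_nonneg_left hs.le (by linarith)).trans hMε)) h0 hδ h2
  have h4 := hdet V ε M δ hF.dV hF.lV hM hδ h1 hu hi
  have h5 : 28 * v.C * (δ / ε) ^ 3 ≤ 28 * v.C * M ^ 6 * (δ / ε) ^ 3 :=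
    mul_le_mul_of_nonneg_right (le_mul_of_one_le_right (by linarith) (one_le_pow₀ hM))
      (by positivity)
  have h6 : (28 * v.C + 32 * C ^ 3) * M ^ 6 / ε ^ 3 * δ ^ 3 =
      28 * v.C * M ^ 6 * (δ / ε) ^ 3 + 32 * C ^ 3 * M ^ 6 * (δ / ε) ^ 3 := by ring
  rw [Finset.sum_add_distrib, h6]
  linarith

end Vale.Agent.P272
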