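import Vale.Agent.P272.BasB
import Vale.Agent.P272.MP0

/-! P272 SandA (task). Helper names start with `sanda_`.
Plan. `sand_loc`: with `j = ch`, `h z = e j (f z) - e j (f z₁)`, eventually `‖h z‖ ≤ (‖dv‖ + Λ / bar z₁) ‖z - z₁‖`; `bar z₁ ≤ 1 + 2 Λ d`, `d = r - ‖z₁‖`, `‖dv‖ ≤ C Λ` and `‖dv‖ ≤ C C₁ / d` (`dv_le`). From `nf` and `lo`: the two quadratic forms differ by at most `C^2 ‖h‖^2 qf (Γ (y + h)) w`; take `N z = 1 + a (h z)`.
`sand_up`: maximise `qf (Gr z) ξ / bar z ^ K` on `closedBall 0 r ×ˢ sphere 0 1` (`Gr_cont`). At an interior maximum `(z₁, ξ)` apply `mp0` to `φ z = ⟪V z₁ ξ, Γ₀ (N z (V z ξ))⟫ / qf (Gr z₁) ξ` (`qf_cs`, `Gr_eq`, `qf_conj`; the denominator is positive since `V z₁` is a unit), with `K > 4 κ` since `Λ (1 + Λ r^2) ≥ Λ^2 / 4`. On the boundary `bar = 1`. -/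

open Metric Set Filter Topology Complex

noncomputable section

namespace Vale.Agent.P272

variable {n : ℕ} {X : Type} [TopologicalSpace X] {A : Atl n X}

variable {g : Met A} {C₁ : ℝ}

theorem sanda_bar {Λ r : ℝ} {z : ℂ} (hΛ : 0 ≤ Λ) (hz : ‖z‖ ≤ r) : 1 ≤ bar Λ r z := by
  have h1 : ‖z‖ ^ 2 ≤ r ^ 2 := pow_le_pow_left₀ (norm_nonneg _) hz 2
  have h2 := mul_nonneg hΛ (sub_nonneg.mpr h1)
  unfold bar
  linarith

theorem sanda_dv (hB : g.Br C₁) {F : ℂ × E n → X} {r Λ η : ℝ} {z₁ : ℂ} (h : g.Gd F r Λ η)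
    (hz : ‖z₁‖ < r) : ‖A.dv (A.ch (F (z₁, 0))) (ctr F) z₁‖ ≤
      g.C * (1 + 2 * C₁) * (Λ / bar Λ r z₁) := by
  have hΛ : 0 ≤ Λ := by linarith [h.one]
  have hC : 0 ≤ g.C := by linarith [g.one]
  have hC₁ := hB.1
  have hb := sanda_bar hΛ hz.le
  have hol : ∀ w : ℂ, ‖w‖ ≤ r → A.HolAt (ctr F) w := fun w hw =>
    (h.bs w (mem_closedBall_zero_iff.mpr hw)).1.ctr.holAt
  have hin : A.In (A.ch (F (z₁, 0))) 4 (ctr F z₁) := A.in_ch _ (by norm_num)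
  have hd : 0 < r - ‖z₁‖ := sub_pos.mpr hz
  have h1 := g.dv_le (hol z₁ hz.le) hin hΛ (h.sp z₁ hz.le)
  have h2 : g.sp (ctr F) z₁ ≤ (C₁ / (r - ‖z₁‖)) ^ 2 := by
    refine (hB.2 (ctr F) z₁ _ hd fun w hw => hol w ?_).trans ?_
    · have h3 := mem_ball_iff_norm.mp hw
      have h4 := norm_le_norm_add_norm_sub' w z₁
      linarith
    · rw [div_pow]
      exact div_le_div_of_nonneg_right (by nlinarith) (by positivity)
  have h3 := g.dv_le (hol z₁ hz.le) hin (by positivity) h2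
  rw [← mul_div_assoc, le_div_iff₀ hd] at h3
  have h4 : bar Λ r z₁ ≤ 1 + 2 * Λ * (r - ‖z₁‖) := by
    have h5 : r ^ 2 - ‖z₁‖ ^ 2 ≤ 2 * (r - ‖z₁‖) := by nlinarith [h.le, norm_nonneg z₁]
    have h6 := mul_le_mul_of_nonneg_left h5 hΛ
    unfold bar
    linarith
  rw [← mul_div_assoc, le_div_iff₀ (by linarith)]
  have h5 := mul_le_mul_of_nonneg_left h4 (norm_nonneg (A.dv (A.ch (F (z₁, 0))) (ctr F) z₁))
  have h6 := mul_le_mul_of_nonneg_left h3 hΛ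
  nlinarith

theorem sanda_real {a b t s : ℝ} (ha : 0 ≤ a) (h : |a - b| ≤ t * a) (ht0 : 0 ≤ t) (ht : t ≤ 1 / 2)
    (hs : 2 * t ≤ s) : b ≤ (1 + s) * a ∧ a ≤ (1 + s) * b := by
  obtain ⟨h1, h2⟩ := abs_le.mp h
  have hb : a / 2 ≤ b := by nlinarith
  constructor
  · nlinarith
  · nlinarith

theorem Met.sand_loc (hB : g.Br C₁) : ∃ κ : ℝ, 0 ≤ κ ∧ ∀ (F : ℂ × E n → X) (r Λ η : ℝ) (z₁ : ℂ),
    g.Gd F r Λ η → ‖z₁‖ < r → ∃ N : ℂ → L n, AnalyticAt ℂ N z₁ ∧ N z₁ = 1 ∧ ∀ᶠ z in 𝓝 z₁,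
      A.In (A.ch (F (z₁, 0))) 4 (F (z, 0)) ∧ ∀ w,
        qf (g.Γ (A.ch (F (z₁, 0))) (A.e (A.ch (F (z₁, 0))) (F (z₁, 0)))) (N z w) ≤
          (1 + κ * Λ ^ 2 / bar Λ r z₁ ^ 2 * ‖z - z₁‖ ^ 2) *
            qf (g.Γ (A.ch (F (z₁, 0))) (A.e (A.ch (F (z₁, 0))) (F (z, 0)))) w ∧
        qf (g.Γ (A.ch (F (z₁, 0))) (A.e (A.ch (F (z₁, 0))) (F (z, 0)))) w ≤
          (1 + κ * Λ ^ 2 / bar Λ r z₁ ^ 2 * ‖z - z₁‖ ^ 2) *
            qf (g.Γ (A.ch (F (z₁, 0))) (A.e (A.ch (F (z₁, 0))) (F (z₁, 0)))) (N z w) := by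
  have hC := g.one
  have hC₁ := hB.1
  refine ⟨2 * (g.C * (g.C * (1 + 2 * C₁) + 1)) ^ 2, by positivity, fun F r Λ η z₁ h hz => ?_⟩
  have hdv := sanda_dv hB h hz
  have hΛ : 0 < Λ := by linarith [h.one]
  have hb := sanda_bar hΛ.le hz.le
  have hH := (h.bs z₁ (mem_closedBall_zero_iff.mpr hz.le)).1.ctr
  obtain ⟨hs, hy⟩ := A.ch_in (F (z₁, 0))
  generalize A.ch (F (z₁, 0)) = j at hdv hs hy ⊢
  have hA : AnalyticAt ℂ (A.e j ∘ ctr F) z₁ := hH.analyticAt hs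
  obtain ⟨a, -, ha⟩ := g.nf j (A.e j (F (z₁, 0))) (by linarith)
  refine ⟨fun z => 1 + a ((A.e j ∘ ctr F) z - A.e j (F (z₁, 0))), analyticAt_const.add
    ((a.analyticAt _).comp (hA.sub analyticAt_const)), ?_, ?_⟩
  · change 1 + a (A.e j (F (z₁, 0)) - A.e j (F (z₁, 0))) = 1
    rw [sub_self, map_zero, add_zero]
  have hq : 0 < Λ / bar Λ r z₁ := by positivity
  have e1 := hA.differentiableAt.hasDerivAt.isLittleO.def hq
  have e2 : ∀ᶠ z in 𝓝 z₁, ctr F z ∈ (A.e j).source :=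
    hH.holAt.1.eventually ((A.e j).open_source.mem_nhds hs)
  have e3 : ∀ᶠ z in 𝓝 z₁, dist ((A.e j ∘ ctr F) z) ((A.e j ∘ ctr F) z₁) < 1 / (2 * g.C) :=
    Metric.tendsto_nhds.mp hA.continuousAt _ (by positivity)
  filter_upwards [e1, e2, e3] with z h1 h2 h3
  rw [dist_eq_norm] at h3
  change ‖A.e j (F (z, 0)) - A.e j (F (z₁, 0))‖ < _ at h3
  change ‖A.e j (F (z, 0)) - A.e j (F (z₁, 0)) - (z - z₁) • A.dv j (ctr F) z₁‖ ≤ _ at h1
  change A.In j 4 (F (z, 0)) ∧ ∀ w, qf _ ((1 + a (A.e j (F (z, 0)) - A.e j (F (z₁, 0)))) w) ≤ _ ∧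
    _ ≤ _ * qf _ ((1 + a (A.e j (F (z, 0)) - A.e j (F (z₁, 0)))) w)
  obtain ⟨u, hu⟩ : ∃ u, u = A.e j (F (z, 0)) - A.e j (F (z₁, 0)) := ⟨_, rfl⟩
  have hu' : A.e j (F (z, 0)) = A.e j (F (z₁, 0)) + u := by rw [hu, add_sub_cancel]
  rw [← hu] at h1 h3 ⊢
  rw [lt_div_iff₀ (by positivity)] at h3
  have h4 : ‖A.e j (F (z, 0))‖ ≤ 4 := by
    rw [hu']
    have h5 := norm_add_le (A.e j (F (z₁, 0))) u
    nlinarith [norm_nonneg u]
  refine ⟨⟨h2, h4⟩, fun w => ?_⟩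
  have h5 : ‖u‖ ≤ (g.C * (1 + 2 * C₁) + 1) * (Λ / bar Λ r z₁) * ‖z - z₁‖ := by
    have h6 := norm_le_norm_add_norm_sub' u ((z - z₁) • A.dv j (ctr F) z₁)
    rw [norm_smul] at h6
    have h7 := mul_le_mul_of_nonneg_left hdv (norm_nonneg (z - z₁))
    nlinarith
  have h6 := ha u w (by rw [← hu']; exact h4)
  rw [← hu'] at h6
  have h7 := g.lo j _ w h4
  refine sanda_real (t := (g.C * ‖u‖) ^ 2) (g.qf_nonneg h4 w) (h6.trans ?_) (by positivity) ?_ ?_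
  · have h8 := mul_le_mul_of_nonneg_left h7 (by positivity : 0 ≤ g.C * ‖u‖ ^ 2)
    calc _ ≤ _ := h8
      _ = _ := by ring
  · have h8 : 0 ≤ g.C * ‖u‖ := by positivity
    nlinarith
  · have h8 := pow_le_pow_left₀ (by positivity)
      (mul_le_mul_of_nonneg_left h5 (by positivity : 0 ≤ g.C)) 2
    calc 2 * (g.C * ‖u‖) ^ 2 ≤ 2 * (g.C * ((g.C * (1 + 2 * C₁) + 1) * (Λ / bar Λ r z₁) *
          ‖z - z₁‖)) ^ 2 := by linarith
      _ = _ := by ring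

theorem Met.sand_up (hB : g.Br C₁) : ∃ K : ℕ, ∀ (F : ℂ × E n → X) (r Λ η : ℝ), g.Gd F r Λ η →
    ∀ z, ‖z‖ ≤ r → ∀ ξ, qf (g.Gr F z) ξ ≤ (1 + η) * bar Λ r z ^ K * ‖ξ‖ ^ 2 := by
  obtain ⟨κ, hκ, hloc⟩ := g.sand_loc hB
  obtain ⟨K, hK⟩ := exists_nat_gt (4 * κ)
  refine ⟨K, fun F r Λ η h z hz ξ => ?_⟩
  have hΛ : 0 < Λ := by linarith [h.one]
  have hbar : Continuous (bar Λ r) := by
    unfold bar
    fun_prop
  have key : ∀ u : E n, ‖u‖ = 1 → qf (g.Gr F z) u / bar Λ r z ^ K ≤ 1 + η := by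
    intro u hu
    have hc : ContinuousOn (fun p : ℂ × E n => qf (g.Gr F p.1) p.2 / bar Λ r p.1 ^ K)
        (closedBall 0 r ×ˢ sphere 0 1) := by
      intro p hp
      have h1 : ContinuousAt (fun q : ℂ × E n => g.Gr F q.1) p :=
        ContinuousAt.comp (g := g.Gr F) (g.Gr_cont (h.bs _ hp.1).1) continuousAt_fst
      have h2 : ContinuousAt (fun q : ℂ × E n => qf (g.Gr F q.1) q.2) p :=
        Complex.continuous_re.continuousAt.comp
          (continuousAt_snd.inner (𝕜 := ℂ) (h1.clm_apply continuousAt_snd))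
      have h3 := sanda_bar hΛ.le (mem_closedBall_zero_iff.mp hp.1)
      exact (h2.div ((hbar.comp continuous_fst).continuousAt.pow K)
        (by positivity : bar Λ r p.1 ^ K ≠ 0)).continuousWithinAt
    have hm : (z, u) ∈ closedBall (0 : ℂ) r ×ˢ sphere (0 : E n) 1 :=
      ⟨mem_closedBall_zero_iff.mpr hz, mem_sphere_zero_iff_norm.mpr hu⟩
    obtain ⟨⟨z₁, v⟩, ⟨hz₁, hv⟩, hmax⟩ :=
      ((isCompact_closedBall (0 : ℂ) r).prod (isCompact_sphere (0 : E n) 1)).exists_isMaxOn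
        ⟨_, hm⟩ hc
    have hz₁' : ‖z₁‖ ≤ r := mem_closedBall_zero_iff.mp hz₁
    have hv' : ‖v‖ = 1 := mem_sphere_zero_iff_norm.mp hv
    rw [isMaxOn_iff] at hmax
    refine le_trans (b := qf (g.Gr F z₁) v / bar Λ r z₁ ^ K) (hmax (z, u) hm) ?_
    rcases hz₁'.eq_or_lt with he | hlt
    · have h1 : bar Λ r z₁ = 1 := by
        unfold bar
        rw [he, sub_self, mul_zero, add_zero]
      have h2 := (abs_le.mp (qf_le (g.Gr F z₁ - 1) v)).2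
      rw [qf_sub, qf_one, hv'] at h2
      rw [h1, one_pow, div_one]
      linarith [h.tol z₁ he]
    exfalso
    obtain ⟨N, hN, hN1, hev⟩ := hloc F r Λ η z₁ h hlt
    obtain ⟨hH, hU⟩ := h.bs z₁ hz₁
    have hin : A.In (A.ch (F (z₁, 0))) 4 (F (z₁, 0)) := A.in_ch _ (by norm_num)
    generalize A.ch (F (z₁, 0)) = j at hev hin
    have hb := sanda_bar hΛ.le hz₁'
    have hq : qf (g.Gr F z₁) v = qf (g.Γ j (A.e j (F (z₁, 0)))) (A.fr j F z₁ v) := by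
      rw [g.Gr_eq hH.holAt hin, qf_conj]
    have hpos : 0 < qf (g.Gr F z₁) v := by
      have h1 := g.lo j _ (A.fr j F z₁ v) hin.2
      have h2 : A.fr j F z₁ v ≠ 0 := by
        intro h0
        obtain ⟨U, hU'⟩ := hU j hin.1
        have h3 : ((U⁻¹ : (L n)ˣ) : L n) ((U : L n) v) = v := by
          change (((U⁻¹ : (L n)ˣ) : L n) * (U : L n)) v = v
          rw [U.inv_mul]
          rfl
        rw [hU', h0, map_zero] at h3
        rw [← h3, norm_zero] at hv'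
        exact zero_ne_one hv'
      have h3 : 0 < ‖A.fr j F z₁ v‖ ^ 2 := pow_pos (norm_pos_iff.mpr h2) 2
      rw [hq]
      exact (mul_pos_iff_of_pos_left (by linarith [g.one])).mp (h3.trans_le h1)
    have hsa := g.sa j _ hin.2
    have hV := hH.fr_analytic hin.1
    refine mp0 (Λ := Λ) (r := r) (κ := κ * Λ ^ 2 / bar Λ r z₁ ^ 2) (K := K) (z₁ := z₁)
      (φ := fun w => innerSL ℂ (A.fr j F z₁ v) (g.Γ j (A.e j (F (z₁, 0))) ((N w * A.fr j F w) v)) /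
        (qf (g.Gr F z₁) v : ℝ)) hΛ hlt ?_ ?_ (by positivity) ?_ ?_
    · refine AnalyticAt.div_const ?_
      exact ((innerSL ℂ (A.fr j F z₁ v)).analyticAt _).comp
        (((g.Γ j (A.e j (F (z₁, 0)))).analyticAt _).comp
          (((ContinuousLinearMap.apply ℂ (E n) v).analyticAt _).comp (hN.mul hV)))
    · rw [hN1, one_mul, innerSL_apply_apply, qf_sa hsa, ← hq, div_self (by exact_mod_cast hpos.ne'),
        norm_one]
    · rw [div_mul_cancel₀ _ (by positivity)]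
      have h1 : 1 / 4 ≤ r ^ 2 := by nlinarith [h.lo]
      have h2 : Λ ^ 2 / 4 ≤ Λ * (1 + Λ * r ^ 2) := by nlinarith [mul_pos hΛ hΛ]
      have h3 : (0 : ℝ) ≤ K := Nat.cast_nonneg K
      have h4 := mul_le_mul_of_nonneg_left h2 h3
      nlinarith [mul_pos hΛ hΛ]
    · have e1 : ∀ᶠ w in 𝓝 z₁, ‖w‖ < r := continuous_norm.continuousAt.eventually (gt_mem_nhds hlt)
      filter_upwards [hev, e1] with w hw hw1
      have hw2 : w ∈ closedBall (0 : ℂ) r := mem_closedBall_zero_iff.mpr hw1.le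
      have h1 := qf_cs hsa (g.qf_nonneg hin.2) (A.fr j F z₁ v) (N w (A.fr j F w v))
      have h2 := (hw.2 (A.fr j F w v)).1
      rw [← qf_conj (g.Γ j (A.e j (F (w, 0)))), ← g.Gr_eq (h.bs w hw2).1.holAt hw.1] at h2
      have h3 : qf (g.Gr F w) v / bar Λ r w ^ K ≤ qf (g.Gr F z₁) v / bar Λ r z₁ ^ K :=
        hmax (w, v) ⟨hw2, hv⟩
      have hb' := sanda_bar hΛ.le hw1.le
      rw [div_le_iff₀ (by positivity)] at h3
      have h4 : 0 ≤ 1 + κ * Λ ^ 2 / bar Λ r z₁ ^ 2 * ‖w - z₁‖ ^ 2 := by positivity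
      have h5 := h2.trans (mul_le_mul_of_nonneg_left h3 h4)
      rw [← hq] at h1
      rw [norm_div, div_pow, Complex.norm_real, Real.norm_eq_abs, sq_abs, div_le_iff₀ (by positivity),
        innerSL_apply_apply]
      refine h1.trans ((mul_le_mul_of_nonneg_left h5 hpos.le).trans_eq ?_)
      rw [div_pow]
      ring
  have hb := sanda_bar hΛ.le hz
  rcases eq_or_ne ξ 0 with rfl | h0
  · simp [qf]
  have h1 : 0 < ‖ξ‖ := norm_pos_iff.mpr h0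
  have h2 := key (((‖ξ‖⁻¹ : ℝ) : ℂ) • ξ) (by
    rw [norm_smul, Complex.norm_real, norm_inv, norm_norm, inv_mul_cancel₀ h1.ne'])
  rw [qf_smul, Complex.norm_real, norm_inv, norm_norm, div_le_iff₀ (by positivity), inv_pow,
    inv_mul_le_iff₀ (by positivity)] at h2
  linarith

end Vale.Agent.P272
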