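import Vale.Agent.P272.SandA

/-! P272 SandB (task). Helper names start with `sandb_`.
Plan. Minimise `bar z ^ K * qf (Gr z) ξ` on `closedBall 0 r ×ˢ sphere 0 1`; the minimum `m` is positive (units). At an interior minimum `(z₁, ξ₁)` put `ξ z = Ring.inverse (N z * V z) (V z₁ ξ₁)` (analytic: `analyticAt_inverse`), `φ z = ⟪ξ₁, ξ z⟫`, `φ z₁ = 1`; `m ‖ξ z‖^2 ≤ bar z ^ K qf (Gr z) (ξ z) ≤ bar z ^ K (1 + ..) qf Γ₀ (V z₁ ξ₁) = (bar z / bar z₁)^K (1 + ..) m`; `mp0`. `sand`: take the larger exponent (`1 ≤ bar`). -/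

open Metric Set Filter Topology Complex

noncomputable section

namespace Vale.Agent.P272

variable {n : ℕ} {X : Type} [TopologicalSpace X] {A : Atl n X}

variable {g : Met A} {C₁ : ℝ}

theorem sandb_scale {Γ : L n} {b m : ℝ} (h : ∀ ξ : E n, ‖ξ‖ = 1 → m ≤ b * qf Γ ξ) (ξ : E n) :
    m * ‖ξ‖ ^ 2 ≤ b * qf Γ ξ := by
  by_cases h0 : ξ = 0
  · subst h0
    simp [qf]
  have hn : 0 < ‖ξ‖ := norm_pos_iff.2 h0
  have hc : ‖((‖ξ‖⁻¹ : ℝ) : ℂ)‖ = ‖ξ‖⁻¹ := by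
    rw [Complex.norm_real, Real.norm_eq_abs, abs_of_pos (inv_pos.2 hn)]
  have h1 := h (((‖ξ‖⁻¹ : ℝ) : ℂ) • ξ) (by rw [norm_smul, hc, inv_mul_cancel₀ hn.ne'])
  rw [qf_smul, hc] at h1
  have h2 := mul_le_mul_of_nonneg_right h1 (sq_nonneg ‖ξ‖)
  have h3 : b * (‖ξ‖⁻¹ ^ 2 * qf Γ ξ) * ‖ξ‖ ^ 2 = b * qf Γ ξ := by field_simp
  rwa [h3] at h2

theorem sandb_bar {Λ r : ℝ} {z : ℂ} (hΛ : 0 ≤ Λ) (hz : ‖z‖ ≤ r) : 1 ≤ bar Λ r z := by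
  have h1 : ‖z‖ ^ 2 ≤ r ^ 2 := pow_le_pow_left₀ (norm_nonneg _) hz 2
  have h2 := mul_nonneg hΛ (sub_nonneg.2 h1)
  unfold bar
  linarith

theorem sandb_int {F : ℂ × E n → X} {r Λ η κ : ℝ} {K : ℕ} {z₁ : ℂ} {ξ₁ : E n}
    (hG : g.Gd F r Λ η) (hz : ‖z₁‖ < r) (hξ : ‖ξ₁‖ = 1) (h0 : 0 ≤ κ) (hK : 4 * κ < K)
    {N : ℂ → L n} (hN : AnalyticAt ℂ N z₁) (hN1 : N z₁ = 1)
    (hl : ∀ᶠ z in 𝓝 z₁, A.In (A.ch (F (z₁, 0))) 4 (F (z, 0)) ∧ ∀ w,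
      qf (g.Γ (A.ch (F (z₁, 0))) (A.e (A.ch (F (z₁, 0))) (F (z, 0)))) w ≤
        (1 + κ * Λ ^ 2 / bar Λ r z₁ ^ 2 * ‖z - z₁‖ ^ 2) *
          qf (g.Γ (A.ch (F (z₁, 0))) (A.e (A.ch (F (z₁, 0))) (F (z₁, 0)))) (N z w))
    (hm : ∀ z, ‖z‖ ≤ r → ∀ ξ, bar Λ r z₁ ^ K * qf (g.Gr F z₁) ξ₁ * ‖ξ‖ ^ 2 ≤
      bar Λ r z ^ K * qf (g.Gr F z) ξ) : False := by
  have hj := A.in_ch (F (z₁, 0)) (a := 4) (by norm_num)
  generalize A.ch (F (z₁, 0)) = j at hl hj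
  have hΛ : 0 < Λ := lt_of_lt_of_le one_pos hG.one
  have hb := hG.bs z₁ (mem_closedBall_zero_iff.2 hz.le)
  have hu : IsUnit (A.fr j F z₁) := hb.2 j hj.1
  have hV : AnalyticAt ℂ (A.fr j F) z₁ := hb.1.fr_analytic hj.1
  have hT : AnalyticAt ℂ (fun z => N z * A.fr j F z) z₁ := hN.mul hV
  have hT1 : N z₁ * A.fr j F z₁ = A.fr j F z₁ := by rw [hN1, one_mul]
  have hinv : Ring.inverse (A.fr j F z₁) (A.fr j F z₁ ξ₁) = ξ₁ := by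
    rw [← mul_apply_eq_comp, Ring.inverse_mul_cancel _ hu,
      one_apply_eq_self]
  have hq : qf (g.Gr F z₁) ξ₁ = qf (g.Γ j (A.e j (F (z₁, 0)))) (A.fr j F z₁ ξ₁) := by
    rw [g.Gr_eq hb.1.holAt hj, qf_conj]
  have hq0 : 0 < qf (g.Gr F z₁) ξ₁ := by
    have h1 : A.fr j F z₁ ξ₁ ≠ 0 := by
      intro h
      rw [h, map_zero] at hinv
      rw [← hinv, norm_zero] at hξ
      exact zero_ne_one hξ
    have h2 := g.lo j _ (A.fr j F z₁ ξ₁) hj.2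
    have h3 : 0 < ‖A.fr j F z₁ ξ₁‖ ^ 2 := pow_pos (norm_pos_iff.2 h1) 2
    rw [hq]
    exact pos_of_mul_pos_left (h3.trans_le (h2.trans_eq (mul_comm _ _))) (zero_le_one.trans g.one)
  have hI : AnalyticAt ℂ (fun z => Ring.inverse (N z * A.fr j F z)) z₁ := by
    have h1 : AnalyticAt ℂ Ring.inverse (N z₁ * A.fr j F z₁) := by
      rw [hT1]
      exact analyticAt_inverse (𝕜 := ℂ) hu.unit
    exact AnalyticAt.comp (f := fun z => N z * A.fr j F z) h1 hT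
  have hX : AnalyticAt ℂ (fun z => Ring.inverse (N z * A.fr j F z) (A.fr j F z₁ ξ₁)) z₁ :=
    ((ContinuousLinearMap.apply ℂ (E n) (A.fr j F z₁ ξ₁)).analyticAt _).comp hI
  have hφ : AnalyticAt ℂ
      (fun z => innerSL ℂ ξ₁ (Ring.inverse (N z * A.fr j F z) (A.fr j F z₁ ξ₁))) z₁ :=
    ((innerSL ℂ ξ₁).analyticAt _).comp hX
  have hU : ∀ᶠ z in 𝓝 z₁, IsUnit (N z * A.fr j F z) :=
    hT.continuousAt.eventually (Units.isOpen.mem_nhds (show IsUnit (N z₁ * A.fr j F z₁) by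
      rw [hT1]; exact hu))
  have hB1 : 0 < bar Λ r z₁ := lt_of_lt_of_le one_pos (sandb_bar hΛ.le hz.le)
  refine mp0 (K := K) (κ := κ * Λ ^ 2 / bar Λ r z₁ ^ 2) hΛ hz hφ ?_ (by positivity) ?_ ?_
  · rw [hT1, hinv, innerSL_apply_apply, inner_self_eq_norm_sq_to_K, hξ]
    simp
  · rw [div_mul_cancel₀ _ (by positivity)]
    have h1 : (1 / 2 : ℝ) ^ 2 ≤ r ^ 2 := pow_le_pow_left₀ (by norm_num) hG.lo 2
    have h2 : Λ ^ 2 / 4 ≤ Λ * (1 + Λ * r ^ 2) := by nlinarith [sq_nonneg Λ]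
    have h3 : 0 < Λ ^ 2 := by positivity
    have h4 : (K : ℝ) * (Λ ^ 2 / 4) ≤ K * (Λ * (1 + Λ * r ^ 2)) :=
      mul_le_mul_of_nonneg_left h2 (Nat.cast_nonneg K)
    nlinarith
  · have hr : ∀ᶠ z in 𝓝 z₁, ‖z‖ < r := continuous_norm.continuousAt.eventually (gt_mem_nhds hz)
    filter_upwards [hl, hU, hr] with z h1 h2 h3
    have hbz := hG.bs z (mem_closedBall_zero_iff.2 h3.le)
    have e1 : N z (A.fr j F z (Ring.inverse (N z * A.fr j F z) (A.fr j F z₁ ξ₁))) =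
        A.fr j F z₁ ξ₁ := by
      rw [← mul_apply_eq_comp, ← mul_apply_eq_comp,
        Ring.mul_inverse_cancel _ h2, one_apply_eq_self]
    generalize Ring.inverse (N z * A.fr j F z) (A.fr j F z₁ ξ₁) = ξ at e1 ⊢
    have e2 := hm z h3.le ξ
    have e3 := h1.2 (A.fr j F z ξ)
    rw [e1, ← hq, ← qf_conj, ← g.Gr_eq hbz.1.holAt h1.1] at e3
    have e4 : ‖innerSL ℂ ξ₁ ξ‖ ≤ ‖ξ‖ := by
      rw [innerSL_apply_apply]
      have := norm_inner_le_norm (𝕜 := ℂ) ξ₁ ξ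
      rwa [hξ, one_mul] at this
    have hB2 : 0 < bar Λ r z := lt_of_lt_of_le one_pos (sandb_bar hΛ.le h3.le)
    refine (pow_le_pow_left₀ (norm_nonneg _) e4 2).trans ?_
    have e5 := e2.trans (mul_le_mul_of_nonneg_left e3 (pow_pos hB2 K).le)
    rw [div_pow, ← mul_div_assoc, le_div_iff₀ (pow_pos hB1 K)]
    refine le_of_mul_le_mul_right ?_ hq0
    linarith

theorem Met.sand_lo (hB : g.Br C₁) : ∃ K : ℕ, ∀ (F : ℂ × E n → X) (r Λ η : ℝ), g.Gd F r Λ η →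
    ∀ z, ‖z‖ ≤ r → ∀ ξ, (1 - η) * ‖ξ‖ ^ 2 ≤ bar Λ r z ^ K * qf (g.Gr F z) ξ := by
  obtain ⟨κ, h0, hl⟩ := Met.sand_loc hB
  obtain ⟨K, hK⟩ := exists_nat_gt (4 * κ)
  refine ⟨K, fun F r Λ η hG z hz => sandb_scale fun ξ hξ => ?_⟩
  have hc : ContinuousOn (fun p : ℂ × E n => bar Λ r p.1 ^ K * qf (g.Gr F p.1) p.2)
      (closedBall 0 r ×ˢ sphere 0 1) := by
    intro p hp
    have h1 : ContinuousAt (fun p : ℂ × E n => g.Gr F p.1) p :=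
      (g.Gr_cont (hG.bs p.1 hp.1).1).comp continuousAt_fst
    have h2 : ContinuousAt (fun p : ℂ × E n => g.Gr F p.1 p.2) p := h1.clm_apply continuousAt_snd
    have h3 : ContinuousAt (fun p : ℂ × E n => qf (g.Gr F p.1) p.2) p :=
      Complex.continuous_re.continuousAt.comp (ContinuousAt.inner (𝕜 := ℂ) continuousAt_snd h2)
    have h4 : Continuous fun p : ℂ × E n => bar Λ r p.1 ^ K := by
      unfold bar
      fun_prop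
    exact (h4.continuousAt.mul h3).continuousWithinAt
  have hmem : ∀ (z : ℂ) (ξ : E n), ‖z‖ ≤ r → ‖ξ‖ = 1 →
      (z, ξ) ∈ closedBall (0 : ℂ) r ×ˢ sphere (0 : E n) 1 := fun z ξ h1 h2 =>
    ⟨mem_closedBall_zero_iff.2 h1, mem_sphere_zero_iff_norm.2 h2⟩
  obtain ⟨⟨z₁, ξ₁⟩, ⟨h1, h2⟩, hm⟩ := ((isCompact_closedBall 0 r).prod
    (isCompact_sphere 0 1)).exists_isMinOn ⟨_, hmem z ξ hz hξ⟩ hc
  have h1' : ‖z₁‖ ≤ r := mem_closedBall_zero_iff.1 h1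
  have h2' : ‖ξ₁‖ = 1 := mem_sphere_zero_iff_norm.1 h2
  have hm' : ∀ (z : ℂ) (ξ : E n), ‖z‖ ≤ r → ‖ξ‖ = 1 →
      bar Λ r z₁ ^ K * qf (g.Gr F z₁) ξ₁ ≤ bar Λ r z ^ K * qf (g.Gr F z) ξ :=
    fun z ξ h1 h2 => isMinOn_iff.1 hm (z, ξ) (hmem z ξ h1 h2)
  rcases h1'.eq_or_lt with h3 | h3
  · refine le_trans ?_ (hm' z ξ hz hξ)
    have e1 : bar Λ r z₁ = 1 := by rw [bar, h3, sub_self, mul_zero, add_zero]
    have e2 := (abs_le.1 (qf_le (g.Gr F z₁ - 1) ξ₁)).1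
    rw [qf_sub, qf_one, h2'] at e2
    have e3 := hG.tol z₁ h3
    rw [e1, one_pow, one_mul]
    linarith
  · obtain ⟨N, hN, hN1, hN2⟩ := hl F r Λ η z₁ hG h3
    exact (sandb_int hG h3 h2' h0 hK hN hN1 (hN2.mono fun z h => ⟨h.1, fun w => (h.2 w).2⟩)
      fun z hz => sandb_scale fun ξ hξ => hm' z ξ hz hξ).elim

theorem Met.sand (hB : g.Br C₁) : ∃ K : ℕ, ∀ (F : ℂ × E n → X) (r Λ η : ℝ), g.Gd F r Λ η →
    ∀ z, ‖z‖ ≤ r → ∀ ξ, (1 - η) * ‖ξ‖ ^ 2 ≤ bar Λ r z ^ K * qf (g.Gr F z) ξ ∧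
      qf (g.Gr F z) ξ ≤ (1 + η) * bar Λ r z ^ K * ‖ξ‖ ^ 2 := by
  obtain ⟨K₁, h1⟩ := Met.sand_lo hB
  obtain ⟨K₂, h2⟩ := Met.sand_up hB
  refine ⟨max K₁ K₂, fun F r Λ η hG z hz ξ => ?_⟩
  have hb : 1 ≤ bar Λ r z := sandb_bar (zero_le_one.trans hG.one) hz
  have hq : 0 ≤ qf (g.Gr F z) ξ := by
    rw [Met.Gr, qf_conj]
    exact g.qf_nonneg (A.in_ch (F (z, 0)) (a := 4) (by norm_num)).2 _
  have hη := hG.nn
  refine ⟨(h1 F r Λ η hG z hz ξ).trans (mul_le_mul_of_nonneg_right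
    (pow_le_pow_right₀ hb (le_max_left _ _)) hq), (h2 F r Λ η hG z hz ξ).trans ?_⟩
  exact mul_le_mul_of_nonneg_right (mul_le_mul_of_nonneg_left
    (pow_le_pow_right₀ hb (le_max_right _ _)) (by linarith)) (sq_nonneg _)

end Vale.Agent.P272
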