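import Mathlib

/-! Statement definitions for P272: Hermitian metrics and volume forms, given in the charts. -/

open scoped ContDiff

namespace Vale.Agent.P272

/-- The model space `ℂ^n`. -/
abbrev E (n : ℕ) : Type := EuclideanSpace ℂ (Fin n)

variable {n : ℕ}

/-- The real number `⟨w, Γ w⟩`. -/
noncomputable def qf (Γ : E n →L[ℂ] E n) (w : E n) : ℝ := (inner ℂ w (Γ w)).re

/-- The Levi form `∑ u_{j k̄} a_j ā_k` of `u` at `y`. -/
noncomputable def levi (u : E n → ℝ) (y a : E n) : ℝ :=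
  (fderiv ℝ (fderiv ℝ u) y a a + fderiv ℝ (fderiv ℝ u) y (Complex.I • a) (Complex.I • a)) / 4

variable (n) (X : Type) [TopologicalSpace X] [ChartedSpace (E n) X]

/-- The Jacobian at `p` of the change from the chart at `x'` to the chart at `x`. -/
noncomputable def jac (x x' p : X) : E n →L[ℂ] E n :=
  fderiv ℂ (chartAt (E n) x ∘ (chartAt (E n) x').symm) (chartAt (E n) x' p)

/-- A smooth Hermitian metric: `Γ x y` is its matrix at the point `y` of the chart at `x`. -/
structure HermMetric where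
  Γ : X → E n → E n →L[ℂ] E n
  smooth : ∀ x, ContDiffOn ℝ ∞ (Γ x) (chartAt (E n) x).target
  sa : ∀ x, ∀ y ∈ (chartAt (E n) x).target, IsSelfAdjoint (Γ x y)
  pos : ∀ x, ∀ y ∈ (chartAt (E n) x).target, ∀ a, a ≠ 0 → 0 < qf (Γ x y) a
  compat : ∀ x x' p, p ∈ (chartAt (E n) x).source → p ∈ (chartAt (E n) x').source →
    Γ x' (chartAt (E n) x' p) = star (jac n X x x' p) * Γ x (chartAt (E n) x p) * jac n X x x' p

/-- A smooth volume form: `μ x y` is its density at the point `y` of the chart at `x`. -/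
structure VolForm where
  μ : X → E n → ℝ
  smooth : ∀ x, ContDiffOn ℝ ∞ (μ x) (chartAt (E n) x).target
  pos : ∀ x, ∀ y ∈ (chartAt (E n) x).target, 0 < μ x y
  compat : ∀ x x' p, p ∈ (chartAt (E n) x).source → p ∈ (chartAt (E n) x').source →
    μ x' (chartAt (E n) x' p) = μ x (chartAt (E n) x p) * ‖(jac n X x x' p).det‖ ^ 2

variable {n X}

/-- `i ∂∂̄ log μ ≤ ε g`. -/
def CurvLe (m : VolForm n X) (ε : ℝ) (g : HermMetric n X) : Prop :=
  ∀ x, ∀ y ∈ (chartAt (E n) x).target, ∀ a,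
    levi (fun y => Real.log (m.μ x y)) y a ≤ ε * qf (g.Γ x y) a

/-- `c · det g ≤ μ`. -/
def VolGe (m : VolForm n X) (c : ℝ) (g : HermMetric n X) : Prop :=
  ∀ x, ∀ y ∈ (chartAt (E n) x).target, c * ‖(g.Γ x y).det‖ ≤ m.μ x y

end Vale.Agent.P272
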